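import Mathlib

/-!
# P087: microstates and nonmicrostates free entropy, definitions

Everything here follows the conventions of the problem file.
-/

namespace Vale.Agent.P087

open MeasureTheory Filter
open scoped InnerProductSpace ENNReal

noncomputable section

/-- Coordinates on the self-adjoint `k × k` matrices. -/
abbrev Coord (k : ℕ) := EuclideanSpace ℝ (Fin k × Fin k)

/-- The self-adjoint matrix with coordinates `x`: the diagonal is `x (i, i)`, and the entry at
`(i, l)`, `i < l`, is `(x (i, l) + I * x (l, i)) / √2`. This is an isometry onto the self-adjoint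
matrices with the inner product `Tr (A B)`. -/
def herm {k : ℕ} (x : Coord k) : Matrix (Fin k) (Fin k) ℂ := fun i l =>
  if i = l then (x (i, i) : ℂ)
  else if i < l then ((x (i, l) : ℂ) + (x (l, i) : ℂ) * Complex.I) / (Real.sqrt 2 : ℂ)
  else ((x (l, i) : ℂ) - (x (i, l) : ℂ) * Complex.I) / (Real.sqrt 2 : ℂ)

/-- `‖A v‖ ≤ R ‖v‖` for the Hermitian norm on `ℂ^k`. -/
def OpBound {k : ℕ} (A : Matrix (Fin k) (Fin k) ℂ) (R : ℝ) : Prop :=
  ∀ v : Fin k → ℂ, ∑ i, ‖(A.mulVec v) i‖ ^ 2 ≤ R ^ 2 * ∑ i, ‖v i‖ ^ 2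

/-- The normalised trace. -/
def ntr {k : ℕ} (A : Matrix (Fin k) (Fin k) ℂ) : ℂ := A.trace / (k : ℂ)

/-- The product of the letters of a word. -/
def wordProd {α M : Type*} [Monoid M] (Z : α → M) (w : List α) : M := (w.map Z).prod

/-- The microstate set `Γ_R(μ; m, k, ε)`. -/
def Gamma {n : ℕ} (μ : List (Fin n) → ℂ) (R : ℝ) (m k : ℕ) (ε : ℝ) :
    Set (Fin n → Coord k) :=
  {x | (∀ j, OpBound (herm (x j)) R) ∧ ∀ w : List (Fin n), 1 ≤ w.length → w.length ≤ m →
    ‖ntr (wordProd (fun j => herm (x j)) w) - μ w‖ < ε}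

/-- `χ_R`: the infimum over `m` and `ε` of the limsup of
`k⁻² log vol Γ_R(μ; m, k, ε) + (n / 2) log k`. -/
def chiR {n : ℕ} (μ : List (Fin n) → ℂ) (R : ℝ) : EReal :=
  ⨅ (m : ℕ) (ε : ℝ) (_ : 0 < ε), limsup (fun k : ℕ =>
    (((((k : ℝ) ^ 2)⁻¹ : ℝ) : EReal) * ENNReal.log (volume (Gamma μ R m k ε))
      + (((n : ℝ) / 2 * Real.log k : ℝ) : EReal))) atTop

/-- Microstates free entropy: `χ = sup_{R > 0} χ_R`. -/
def chi {n : ℕ} (μ : List (Fin n) → ℂ) : EReal := ⨆ (R : ℝ) (_ : 0 < R), chiR μ R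

section Operators

variable {H : Type} [NormedAddCommGroup H] [InnerProductSpace ℂ H]

/-- The vector state of `Ω`. -/
def vstate (Ω : H) (A : H →L[ℂ] H) : ℂ := ⟪Ω, A Ω⟫_ℂ

/-- The joint moments of a tuple in the vector state. -/
def moments {α : Type*} (Ω : H) (Z : α → H →L[ℂ] H) (w : List α) : ℂ :=
  vstate Ω (wordProd Z w)

end Operators

/-- For a word `w` and a letter `j`: `∑ μ (left of an occurrence of j) * μ (right of it)`.
This is `(μ ⊗ μ) (∂_j w)`. -/
def splitSum {α : Type*} [DecidableEq α] (μ : List α → ℂ) (j : α) (w : List α) : ℂ :=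
  ∑ l ∈ Finset.range w.length,
    if w[l]? = some j then μ (w.take l) * μ (w.drop (l + 1)) else 0

section Conjugate

variable {H : Type} [NormedAddCommGroup H] [InnerProductSpace ℂ H]

/-- `ξ` is the `j`th conjugate variable of `Y`: it lies in the closure of the polynomials in `Y`
applied to `Ω`, and pairs with the monomials in `Y` as the free difference quotient prescribes. -/
def IsConjugate {n : ℕ} (Ω : H) (Y : Fin n → H →L[ℂ] H) (j : Fin n) (ξ : H) : Prop :=
  ξ ∈ closure ((fun P : H →L[ℂ] H => P Ω) '' (Algebra.adjoin ℂ (Set.range Y) : Set (H →L[ℂ] H))) ∧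
    ∀ w : List (Fin n), ⟪ξ, wordProd Y w Ω⟫_ℂ = splitSum (moments Ω Y) j w

/-- Freeness of a family of unital subalgebras in a state. -/
def IsFree {ι : Type} (τ : (H →L[ℂ] H) → ℂ) (A : ι → Subalgebra ℂ (H →L[ℂ] H)) : Prop :=
  ∀ (l : List (ι × (H →L[ℂ] H))), l ≠ [] → (∀ a ∈ l, a.2 ∈ A a.1 ∧ τ a.2 = 0) →
    l.IsChain (fun a b => a.1 ≠ b.1) → τ (l.map Prod.snd).prod = 0

variable [CompleteSpace H]

/-- `X` is a tuple of bounded self-adjoint operators, `Ω` a cyclic tracial unit vector for the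
algebra generated by `X` and `S`, and `S` is a free semicircular family of variance one, free
from `X`. -/
structure Setting {n : ℕ} (Ω : H) (X S : Fin n → H →L[ℂ] H) : Prop where
  selfAdjoint : ∀ i, IsSelfAdjoint (X i) ∧ IsSelfAdjoint (S i)
  unit : ‖Ω‖ = 1
  tracial : ∀ P ∈ Algebra.adjoin ℂ (Set.range X ∪ Set.range S),
    ∀ Q ∈ Algebra.adjoin ℂ (Set.range X ∪ Set.range S), vstate Ω (P * Q) = vstate Ω (Q * P)
  cyclic : closure ((fun P : H →L[ℂ] H => P Ω) ''
    (Algebra.adjoin ℂ (Set.range X ∪ Set.range S) : Set (H →L[ℂ] H))) = Set.univ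
  semicircular : ∀ i, ∀ r : ℕ, vstate Ω (S i ^ (2 * r)) = (catalan r : ℂ) ∧
    vstate Ω (S i ^ (2 * r + 1)) = 0
  free : IsFree (vstate Ω) (fun o : Option (Fin n) =>
    o.elim (Algebra.adjoin ℂ (Set.range X)) (fun i => Algebra.adjoin ℂ {S i}))

end Conjugate

end

end Vale.Agent.P087
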