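import Mathlib
import Vale.Agent.P087.Defs

/-!
# P087: the free law, linear substitutions, and the model law
-/

namespace Vale.Agent.P087

open MeasureTheory Filter
open scoped InnerProductSpace

noncomputable section

/-! ## Linear substitution of letters -/

/-- The moments of `Y i = ∑ l, e i l • Z l` computed from the moments `φ` of `Z`. -/
def expand {ι L : Type*} [Fintype L] (e : ι → L → ℂ) : (List L → ℂ) → List ι → ℂ
  | φ, [] => φ []
  | φ, i :: w => ∑ l, e i l * expand e (fun u => φ (l :: u)) w

theorem map_wordProd_expand {ι L A : Type*} [Fintype L] [Ring A] [Algebra ℂ A]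
    (e : ι → L → ℂ) (Z : L → A) (Y : ι → A) (hY : ∀ i, Y i = ∑ l, e i l • Z l) :
    ∀ (w : List ι) (f : A →ₗ[ℂ] ℂ),
      f (wordProd Y w) = expand e (fun u => f (wordProd Z u)) w
  | [], f => by simp [wordProd, expand]
  | i :: w, f => by
    have ih := fun l => map_wordProd_expand e Z Y hY w (f ∘ₗ LinearMap.mulLeft ℂ (Z l))
    simp only [expand, wordProd, List.map_cons, List.prod_cons, hY i, Finset.sum_mul, map_sum,
      smul_mul_assoc, map_smul, smul_eq_mul]
    refine Finset.sum_congr rfl fun l _ => ?_
    have h := ih l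
    simp only [LinearMap.comp_apply, LinearMap.mulLeft_apply, wordProd] at h
    rw [h]

/-- Substitution is Lipschitz in the moments of the given length. -/
theorem expand_sub_le {ι L : Type*} [Fintype L] (e : ι → L → ℂ) (C : ℝ) (hC0 : 0 ≤ C)
    (hC : ∀ i, ∑ l, ‖e i l‖ ≤ C) (η : ℝ) (hη : 0 ≤ η) :
    ∀ (w : List ι) (φ ψ : List L → ℂ),
      (∀ u : List L, u.length = w.length → ‖φ u - ψ u‖ ≤ η) →
      ‖expand e φ w - expand e ψ w‖ ≤ C ^ w.length * η
  | [], φ, ψ, h => by simpa [expand] using h [] rfl
  | i :: w, φ, ψ, h => by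
    have ih := fun l => expand_sub_le e C hC0 hC η hη w (fun u => φ (l :: u))
      (fun u => ψ (l :: u)) (fun u hu => h (l :: u) (by simp [hu]))
    simp only [expand, ← Finset.sum_sub_distrib, ← mul_sub]
    refine (norm_sum_le _ _).trans ?_
    calc ∑ l, ‖e i l * (expand e (fun u => φ (l :: u)) w - expand e (fun u => ψ (l :: u)) w)‖
        ≤ ∑ l, ‖e i l‖ * (C ^ w.length * η) := Finset.sum_le_sum fun l _ => by
          rw [norm_mul]; exact mul_le_mul_of_nonneg_left (ih l) (norm_nonneg _)
      _ ≤ C * (C ^ w.length * η) := by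
          rw [← Finset.sum_mul]
          exact mul_le_mul_of_nonneg_right (hC i) (by positivity)
      _ = C ^ (i :: w).length * η := by simp [pow_succ]; ring

/-! ## The free law -/

/-- The first right letter, with what comes before and after it. -/
def splitFirst {α σ : Type*} : List (α ⊕ σ) → Option (List α × σ × List (α ⊕ σ))
  | [] => none
  | Sum.inr i :: w => some ([], i, w)
  | Sum.inl a :: w => (splitFirst w).map fun t => (a :: t.1, t.2.1, t.2.2)

/-- The free law with fuel. -/
def lawN {α σ : Type*} [DecidableEq α] [DecidableEq σ] (μ : List α → ℂ) :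
    ℕ → List (α ⊕ σ) → ℂ
  | 0, w => μ (w.filterMap Sum.getLeft?)
  | N + 1, w =>
    match splitFirst w with
    | none => μ (w.filterMap Sum.getLeft?)
    | some (u, i, b) => ∑ l ∈ Finset.range b.length,
        if b[l]? = some (Sum.inr i) then
          lawN μ N (b.take l) * lawN μ N (u.map Sum.inl ++ b.drop (l + 1)) else 0

/-- The joint law of a tuple with law `μ` and a free semicircular family, free from it. -/
def law {α σ : Type*} [DecidableEq α] [DecidableEq σ] (μ : List α → ℂ) (w : List (α ⊕ σ)) : ℂ :=
  lawN μ w.length w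

theorem splitFirst_none {α σ : Type*} : ∀ u : List α,
    splitFirst (u.map (Sum.inl : α → α ⊕ σ)) = none
  | [] => rfl
  | a :: u => by simp [splitFirst, splitFirst_none u]

theorem splitFirst_append {α σ : Type*} (i : σ) (b : List (α ⊕ σ)) : ∀ u : List α,
    splitFirst (u.map Sum.inl ++ Sum.inr i :: b) = some (u, i, b)
  | [] => rfl
  | a :: u => by simp [splitFirst, splitFirst_append i b u]

theorem splitFirst_some {α σ : Type*} : ∀ {w : List (α ⊕ σ)} {t : List α × σ × List (α ⊕ σ)},
    splitFirst w = some t → w = t.1.map Sum.inl ++ Sum.inr t.2.1 :: t.2.2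
  | [], t, h => by simp [splitFirst] at h
  | Sum.inr i :: w, t, h => by simp [splitFirst] at h; subst h; simp
  | Sum.inl a :: w, t, h => by
    simp only [splitFirst, Option.map_eq_some_iff] at h
    obtain ⟨s, hs, rfl⟩ := h
    simpa using splitFirst_some hs

theorem lawN_stable {α σ : Type*} [DecidableEq α] [DecidableEq σ] (μ : List α → ℂ) :
    ∀ (N M : ℕ) (w : List (α ⊕ σ)), w.length ≤ N → w.length ≤ M → lawN μ N w = lawN μ M w := by
  intro N
  induction N with
  | zero =>
    intro M w hN hM
    have hw : w = [] := List.length_eq_zero_iff.mp (Nat.le_zero.mp hN)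
    subst hw
    cases M with
    | zero => rfl
    | succ M => simp [lawN, splitFirst]
  | succ N ih =>
    intro M w hN hM
    cases M with
    | zero =>
      have hw : w = [] := List.length_eq_zero_iff.mp (Nat.le_zero.mp hM)
      subst hw
      simp [lawN, splitFirst]
    | succ M =>
      rcases h : splitFirst w with _ | ⟨u, i, b⟩
      · simp [lawN, h]
      · have hw := splitFirst_some h
        have hlen : u.length + b.length + 1 = w.length := by rw [hw]; simp; omega
        simp only [lawN, h]
        refine Finset.sum_congr rfl fun l hl => ?_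
        have hl' := Finset.mem_range.mp hl
        split_ifs
        · congr 1
          · apply ih <;> simp <;> omega
          · apply ih <;> simp <;> omega
        · rfl

/-- Words without semicircular letters. -/
theorem law_inl {α σ : Type*} [DecidableEq α] [DecidableEq σ] (μ : List α → ℂ) (u : List α) :
    law μ (u.map (Sum.inl : α → α ⊕ σ)) = μ u := by
  have h : (u.map (Sum.inl : α → α ⊕ σ)).filterMap Sum.getLeft? = u := by
    induction u with
    | nil => rfl
    | cons a u ih => simp [ih]
  unfold law
  cases (u.map (Sum.inl : α → α ⊕ σ)).length with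
  | zero => simp only [lawN, h]
  | succ N => simp only [lawN, splitFirst_none, h]

/-- The defining recursion at the first semicircular letter. -/
theorem law_sd {α σ : Type*} [DecidableEq α] [DecidableEq σ] (μ : List α → ℂ)
    (u : List α) (i : σ) (b : List (α ⊕ σ)) :
    law μ (u.map Sum.inl ++ Sum.inr i :: b) = ∑ l ∈ Finset.range b.length,
      if b[l]? = some (Sum.inr i) then law μ (b.take l) * law μ (u.map Sum.inl ++ b.drop (l + 1))
      else 0 := by
  have hlen : (u.map (Sum.inl : α → α ⊕ σ) ++ Sum.inr i :: b).length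
      = (u.length + b.length) + 1 := by simp; omega
  unfold law
  rw [hlen]
  simp only [lawN, splitFirst_append]
  refine Finset.sum_congr rfl fun l hl => ?_
  have hl' := Finset.mem_range.mp hl
  split_ifs
  · congr 1
    · apply lawN_stable <;> simp <;> omega
    · apply lawN_stable <;> simp <;> omega
  · rfl

/-- The letters of the doubled system: the tuple, the noise in it, and the flow. -/
abbrev L3 (n : ℕ) := Fin n ⊕ (Fin n ⊕ Fin n)

/-- `Y i = X i + s i • S⁰ i` as combination of letters. -/
def noisyCoef {n : ℕ} (s : Fin n → ℝ) (i : Fin n) (l : L3 n) : ℂ :=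
  if l = Sum.inl i then 1 else if l = Sum.inr (Sum.inl i) then (s i : ℂ) else 0

/-- The law of `X + s S⁰`. -/
def noisyLaw {n : ℕ} (μ : List (Fin n) → ℂ) (s : Fin n → ℝ) : List (Fin n) → ℂ :=
  expand (noisyCoef s) (law (σ := Fin n ⊕ Fin n) μ)

/-- Matrices of bounded norm approximating given moments, in arbitrarily large dimension. -/
def MatApprox {L : Type*} (φ : List L → ℂ) (R : ℝ) : Prop :=
  ∀ (W : Finset (List L)) (ε : ℝ) (K : ℕ), 0 < ε → ∃ k, K ≤ k ∧
    ∃ A : L → Matrix (Fin k) (Fin k) ℂ, (∀ l, (A l).IsHermitian ∧ OpBound (A l) R) ∧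
      ∀ w ∈ W, ‖ntr (wordProd A w) - φ w‖ < ε

/-- The Schwinger-Dyson equation of a semicircular letter. -/
def SDRel {H L : Type} [NormedAddCommGroup H] [InnerProductSpace ℂ H] [DecidableEq L]
    (Ω : H) (Z : L → H →L[ℂ] H) (i : L) : Prop :=
  ∀ w : List L, moments Ω Z (i :: w) = splitSum (moments Ω Z) i w

/-! ## Gap sums -/

/-- `∑` over selected positions `l₁ < l₂ < ⋯` in `g ++ w`, outside the prefix `g`, and indices
`K`, of `H K * ∏ c (letter) (index) * ∏ φ (gaps)`. -/
def gapSum {L α : Type*} [Fintype α] (φ : List L → ℂ) (c : L → α → ℂ) :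
    List L → List L → (List α → ℂ) → ℂ
  | g, [], F => F [] * φ g
  | g, l :: w, F => gapSum φ c (g ++ [l]) w F
      + ∑ i, c l i * φ g * gapSum φ c [] w (fun K => F (i :: K))

/-- The squared `ℓ²` norm of the restriction to words of a given length. -/
def gradeSq {α : Type*} [Fintype α] : (List α → ℂ) → ℕ → ℝ
  | F, 0 => ‖F []‖ ^ 2
  | F, k + 1 => ∑ i, gradeSq (fun K => F (i :: K)) k

/-! ## The model law -/

/-- Prefixing an involution to a reduced word. -/
def redStep {p : ℕ} (a : Fin p) : List (Fin p) → List (Fin p)
  | [] => [a]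
  | b :: r => if a = b then r else a :: b :: r

/-- The reduced form of a word in free involutions. -/
def red {p : ℕ} (w : List (Fin p)) : List (Fin p) := w.foldr redStep []

/-- The letters other than `0`, shifted down. -/
def aPart {p : ℕ} (w : List (Fin (p + 1))) : List (Fin p) :=
  w.filterMap fun i => Fin.cases none some i

/-- The law of free symmetries (letters `j + 1`) and a central uniform element of `[0, 1]`
(letter `0`). -/
def mu0 (p : ℕ) (w : List (Fin (p + 1))) : ℂ :=
  if red (aPart w) = [] then 1 / ((w.count 0 : ℂ) + 1) else 0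

/-- The noise levels: `p⁻²` on the central letter, `1` on the others. -/
def noise (p : ℕ) : Fin (p + 1) → ℝ := Fin.cases (1 / (p : ℝ) ^ 2) (fun _ => 1)

/-- The law of the counterexample. -/
def exampleLaw (p : ℕ) : List (Fin (p + 1)) → ℂ := noisyLaw (mu0 p) (noise p)

end

end Vale.Agent.P087
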