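import Mathlib

/-!
# P087: the integral defining the nonmicrostates entropy
-/

namespace Vale.Agent.P087

open MeasureTheory Set Filter Finset
open scoped Topology

noncomputable section

theorem integrableOn_inv_one_add_sq (T : ℝ) (hT : 0 ≤ T) :
    IntegrableOn (fun t : ℝ => 1 / (1 + t) ^ 2) (Ioi T) ∧
      ∫ t in Ioi T, 1 / (1 + t) ^ 2 = 1 / (1 + T) := by
  have hd : ∀ t ∈ Ici T, HasDerivAt (fun t : ℝ => -(1 + t)⁻¹) (1 / (1 + t) ^ 2) t := by
    intro t ht
    have hne : (1 + t) ≠ 0 := by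
      have : T ≤ t := ht
      intro h; linarith
    convert! (((hasDerivAt_id t).const_add 1).inv hne).neg using 1
    simp only [id]; ring
  have hnn : ∀ t ∈ Ioi T, 0 ≤ 1 / (1 + t) ^ 2 := fun t _ => by positivity
  have hlim : Tendsto (fun t : ℝ => -(1 + t)⁻¹) atTop (𝓝 0) := by
    simpa [Function.comp_def] using ((tendsto_inv_atTop_zero (𝕜 := ℝ)).comp
      (tendsto_atTop_add_const_left atTop (1 : ℝ) tendsto_id)).neg
  have hi := integrableOn_Ioi_deriv_of_nonneg' hd hnn hlim
  refine ⟨hi, ?_⟩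
  rw [integral_Ioi_of_hasDerivAt_of_tendsto' hd hi hlim]
  simp

theorem abs_inv_sub_le (a : ℝ) (ha : 0 < a) (t : ℝ) (ht : 0 ≤ t) :
    |1 / (1 + t) - 1 / (a + t)| ≤ |a - 1| / min 1 a * (1 / (1 + t) ^ 2) := by
  have h1 : 0 < 1 + t := by linarith
  have h2 : 0 < a + t := by linarith
  have hm : 0 < min 1 a := lt_min one_pos ha
  have hlow : min 1 a * (1 + t) ≤ a + t := by
    rcases le_total 1 a with h | h
    · rw [min_eq_left h]; linarith
    · rw [min_eq_right h]; nlinarith
  rw [div_sub_div _ _ h1.ne' h2.ne', abs_div, abs_of_pos (mul_pos h1 h2),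
    show |1 * (a + t) - (1 + t) * 1| = |a - 1| by congr 1; ring, div_mul_div_comm, mul_one]
  refine div_le_div_of_nonneg_left (abs_nonneg _) (by positivity) ?_
  calc min 1 a * (1 + t) ^ 2 = (1 + t) * (min 1 a * (1 + t)) := by ring
    _ ≤ (1 + t) * (a + t) := mul_le_mul_of_nonneg_left hlow h1.le

theorem integral_inv_sub (a : ℝ) (ha : 0 < a) :
    IntegrableOn (fun t : ℝ => 1 / (1 + t) - 1 / (a + t)) (Ioi 0) ∧
      ∫ t in Ioi (0 : ℝ), (1 / (1 + t) - 1 / (a + t)) = Real.log a := by
  have hi : IntegrableOn (fun t : ℝ => 1 / (1 + t) - 1 / (a + t)) (Ioi 0) := by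
    refine Integrable.mono' ((integrableOn_inv_one_add_sq 0 le_rfl).1.const_mul
      (|a - 1| / min 1 a)) (by fun_prop) ?_
    filter_upwards [ae_restrict_mem measurableSet_Ioi] with t ht
    exact abs_inv_sub_le a ha t (le_of_lt ht)
  refine ⟨hi, ?_⟩
  have hd : ∀ t ∈ Ici (0 : ℝ),
      HasDerivAt (fun t => Real.log (1 + t) - Real.log (a + t)) (1 / (1 + t) - 1 / (a + t)) t := by
    intro t ht
    have ht' : 0 ≤ t := ht
    exact (((hasDerivAt_id t).const_add 1).log (by simp; linarith)).sub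
      (((hasDerivAt_id t).const_add a).log (by simp; linarith))
  have hlim : Tendsto (fun t => Real.log (1 + t) - Real.log (a + t)) atTop (𝓝 0) := by
    have e : ∀ᶠ t in atTop, Real.log (1 + (1 - a) / (a + t)) =
        Real.log (1 + t) - Real.log (a + t) := by
      filter_upwards [eventually_gt_atTop 0] with t ht
      rw [← Real.log_div (by linarith) (by linarith)]
      congr 1
      field_simp
      ring
    refine Tendsto.congr' e ?_
    have h1 : Tendsto (fun t : ℝ => 1 + (1 - a) / (a + t)) atTop (𝓝 1) := by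
      simpa using (Tendsto.const_div_atTop
        (tendsto_atTop_add_const_left atTop a tendsto_id) (1 - a)).const_add 1
    simpa using h1.log one_ne_zero
  rw [integral_Ioi_of_hasDerivAt_of_tendsto' hd hi hlim]
  simp

theorem chiStar_lower {ι : Type*} [Fintype ι] (a c : ι → ℝ) (ha : ∀ i, 0 < a i)
    (hc : ∀ i, 0 < c i) (f : ℝ → ι → ℝ)
    (hm : ∀ i, AEStronglyMeasurable (fun t => f t i) (volume.restrict (Ioi 0)))
    (hle : ∀ t, 0 < t → ∀ i, f t i ≤ 1 / (a i + t))
    (hge : ∀ t, 0 < t → ∀ i, 1 / (c i + t) ≤ f t i) (T G : ℝ) (hT : 0 ≤ T)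
    (hgain : ∀ t, T < t → ∑ i, f t i ≤ ∑ i, 1 / (a i + t) - G * (1 / (1 + t) ^ 2)) :
    IntegrableOn (fun t => (Fintype.card ι : ℝ) / (1 + t) - ∑ i, f t i) (Ioi 0) ∧
      ∑ i, Real.log (a i) + G * (1 / (1 + T)) ≤
        ∫ t in Ioi (0 : ℝ), ((Fintype.card ι : ℝ) / (1 + t) - ∑ i, f t i) := by
  have hsum : ∀ t : ℝ, (Fintype.card ι : ℝ) / (1 + t) - ∑ i, f t i =
      ∑ i, (1 / (1 + t) - f t i) := fun t => by
    simp [Finset.sum_sub_distrib, div_eq_mul_inv]
  have hint : ∀ i, IntegrableOn (fun t => 1 / (1 + t) - f t i) (Ioi 0) := by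
    intro i
    refine Integrable.mono' (((integral_inv_sub (a i) (ha i)).1.abs).add
      ((integral_inv_sub (c i) (hc i)).1.abs)) ((Measurable.aestronglyMeasurable (by fun_prop)).sub
      (hm i)) ?_
    filter_upwards [ae_restrict_mem measurableSet_Ioi] with t ht
    have h1 := hle t ht i
    have h2 := hge t ht i
    simp only [Pi.add_apply, Real.norm_eq_abs]
    rw [abs_le]
    constructor
    · have h3 := neg_abs_le (1 / (1 + t) - 1 / (a i + t))
      have h4 := abs_nonneg (1 / (1 + t) - 1 / (c i + t))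
      linarith
    · have h3 := le_abs_self (1 / (1 + t) - 1 / (c i + t))
      have h4 := abs_nonneg (1 / (1 + t) - 1 / (a i + t))
      linarith
  simp only [hsum]
  have hI : IntegrableOn (fun t => ∑ i, (1 / (1 + t) - f t i)) (Ioi 0) :=
    integrable_finsetSum _ fun i _ => hint i
  refine ⟨hI, ?_⟩
  set gain := (Ioi T).indicator (fun t : ℝ => G * (1 / (1 + t) ^ 2))
  have hG : IntegrableOn (fun t : ℝ => G * (1 / (1 + t) ^ 2)) (Ioi T) :=
    Integrable.const_mul (integrableOn_inv_one_add_sq T hT).1 G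
  have hg : IntegrableOn gain (Ioi 0) := (hG.integrable_indicator measurableSet_Ioi).integrableOn
  have hb : IntegrableOn (fun t => ∑ i, (1 / (1 + t) - 1 / (a i + t))) (Ioi 0) :=
    integrable_finsetSum _ fun i _ => (integral_inv_sub (a i) (ha i)).1
  calc ∑ i, Real.log (a i) + G * (1 / (1 + T))
      = (∫ t in Ioi (0 : ℝ), ∑ i, (1 / (1 + t) - 1 / (a i + t))) +
          ∫ t in Ioi (0 : ℝ), gain t := by
        rw [integral_finsetSum _ fun i _ => (integral_inv_sub (a i) (ha i)).1]
        congr 1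
        · exact Finset.sum_congr rfl fun i _ => ((integral_inv_sub (a i) (ha i)).2).symm
        · rw [setIntegral_indicator measurableSet_Ioi,
            Set.inter_eq_right.mpr (Ioi_subset_Ioi hT), integral_const_mul,
            (integrableOn_inv_one_add_sq T hT).2]
    _ = ∫ t in Ioi (0 : ℝ), ((∑ i, (1 / (1 + t) - 1 / (a i + t))) + gain t) :=
        (integral_add hb hg).symm
    _ ≤ _ := by
        refine setIntegral_mono_on (hb.add hg) hI measurableSet_Ioi fun t ht => ?_
        simp only [Finset.sum_sub_distrib]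
        rcases le_or_gt t T with h | h
        · have hsum' := Finset.sum_le_sum (s := Finset.univ) fun i _ => hle t ht i
          simp only [gain, Set.indicator_of_notMem (show t ∉ Ioi T from not_lt.mpr h)]
          linarith
        · simp only [gain, Set.indicator_of_mem (show t ∈ Ioi T from h)]
          linarith [hgain t h]

end

end Vale.Agent.P087
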