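import Mathlib
import Vale.Agent.P087.Basic
import Vale.Agent.P087.Cum.Series
import Vale.Agent.P087.Cum.Bound

/-!
# P087: free cumulants with one marked letter, and their `ℓ²` bound
-/

namespace Vale.Agent.P087

noncomputable section

/-- The indicator coefficient on equal alphabets. -/
def dlt {α : Type*} [DecidableEq α] (a i : α) : ℂ := if a = i then 1 else 0

open Cum in
theorem gapSum_eq_conv {α : Type} [Fintype α] [DecidableEq α] (M : List α → ℂ) :
    ∀ (w g : List α) (F : List α → ℂ),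
      gapSum M dlt g w F = conv (fun u => M (g ++ u)) (sub M F) w
  | [], g, F => by simp [gapSum, conv_nil, mul_comm]
  | l :: w, g, F => by
    rw [gapSum, gapSum_eq_conv M w, conv_cons, sub_cons,
      Finset.sum_eq_single l (fun i _ hi => by simp [dlt, Ne.symm hi]) (by simp),
      gapSum_eq_conv M w, add_comm]
    simp only [List.append_nil, List.append_assoc, List.nil_append, List.cons_append, dlt,
      if_true, one_mul]
    rfl

theorem exists_cumulant {α : Type} [Fintype α] [DecidableEq α] (M : List α → ℂ)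
    (hM : M [] = 1) (ρ : ℝ) (hρ1 : 1 ≤ ρ) (hρ : ∀ L, gradeSq M L ≤ ρ ^ (2 * L)) :
    ∃ ζ : α → List α → ℂ,
      (∀ j w, M (j :: w) = gapSum M dlt [] w (ζ j)) ∧
      (∀ j, ζ j [] = M [j]) ∧
      ∀ k, ∑ j, gradeSq (ζ j) k ≤ (4 * ρ * (8 * ρ) ^ k) ^ 2 := by
  refine ⟨fun j u => Cum.cum M (j :: u), fun j w => ?_, fun j => ?_, fun k => ?_⟩
  · rw [gapSum_eq_conv, ← Cum.sub_cum hM (j :: w), Cum.sub_cons]
    rfl
  · show Cum.cum M [j] = M [j]
    rw [Cum.cum_cons, Cum.conv_nil, Cum.cumInv_nil, Cum.sub_nil, one_mul]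
    rfl
  have hρ0 : 0 < ρ := zero_lt_one.trans_le hρ1
  have hN : ∀ m, Cum.N m (Cum.sgl M) ≤ ρ ^ m := fun m => by
    simp only [Cum.N, Cum.sgl, Fintype.univ_ofSubsingleton, Finset.sum_singleton]
    rw [Real.sqrt_le_left (by positivity), ← pow_mul, mul_comm]
    exact hρ m
  have h := Cum.cum_majorant M hρ0.le (x := 1 / (8 * ρ)) (by positivity) (by field_simp) hN (k + 1)
  have h1 : (1 / (8 * ρ)) ^ (k + 1) * Cum.N (k + 1) (Cum.sgl (Cum.cum M)) ≤ 9 / 50 :=
    (Finset.single_le_sum (f := fun l => (1 / (8 * ρ)) ^ (l + 1) *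
      Cum.N (l + 1) (Cum.sgl (Cum.cum M))) (fun l _ => mul_nonneg (by positivity) (Cum.N_nonneg _ _))
      (Finset.mem_range.2 (Nat.lt_succ_self k))).trans h
  have h2 : Cum.N (k + 1) (Cum.sgl (Cum.cum M)) ≤ 4 * ρ * (8 * ρ) ^ k := by
    rw [one_div, inv_pow, inv_mul_le_iff₀ (by positivity)] at h1
    refine h1.trans ?_
    rw [pow_succ]
    nlinarith [mul_pos hρ0 (pow_pos (show (0:ℝ) < 8 * ρ by positivity) k)]
  have h3 : Cum.N (k + 1) (Cum.sgl (Cum.cum M)) ^ 2
      = ∑ j, gradeSq (fun u => Cum.cum M (j :: u)) k := by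
    simp only [Cum.N, Cum.sgl, Fintype.univ_ofSubsingleton, Finset.sum_singleton]
    rw [Real.sq_sqrt (Cum.gradeSq_nonneg _ _)]
    rfl
  rw [← h3]
  exact pow_le_pow_left₀ (Cum.N_nonneg _ _) h2 2

end

end Vale.Agent.P087
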