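import Mathlib
import Vale.Agent.P087.Basic

/-!
# P087: identities for substitutions and gap sums
-/

namespace Vale.Agent.P087

open Finset

noncomputable section

section Expand

variable {ι L : Type*} [Fintype L] (e : ι → L → ℂ)

theorem expand_congr : ∀ (w : List ι) (φ ψ : List L → ℂ),
    (∀ u, u.length = w.length → φ u = ψ u) → expand e φ w = expand e ψ w
  | [], φ, ψ, h => h [] rfl
  | i :: w, φ, ψ, h => by
    simp only [expand]
    exact Finset.sum_congr rfl fun l _ => by
      rw [expand_congr w _ _ fun u hu => h (l :: u) (by simp [hu])]

theorem expand_add : ∀ (w : List ι) (φ ψ : List L → ℂ),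
    expand e (fun u => φ u + ψ u) w = expand e φ w + expand e ψ w
  | [], φ, ψ => rfl
  | i :: w, φ, ψ => by
    simp only [expand, expand_add w, mul_add, Finset.sum_add_distrib]

theorem expand_const_mul (a : ℂ) : ∀ (w : List ι) (φ : List L → ℂ),
    expand e (fun u => a * φ u) w = a * expand e φ w
  | [], φ => rfl
  | i :: w, φ => by
    simp only [expand, expand_const_mul a w, Finset.mul_sum]
    exact Finset.sum_congr rfl fun l _ => by ring

theorem expand_mul_const (a : ℂ) (w : List ι) (φ : List L → ℂ) :
    expand e (fun u => φ u * a) w = expand e φ w * a := by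
  rw [mul_comm, ← expand_const_mul e a w φ]
  simp_rw [mul_comm]

theorem expand_sum {κ : Type*} (s : Finset κ) (w : List ι) (φ : κ → List L → ℂ) :
    expand e (fun u => ∑ k ∈ s, φ k u) w = ∑ k ∈ s, expand e (φ k) w := by
  classical
  induction s using Finset.induction_on with
  | empty =>
    simp only [Finset.sum_empty]
    simpa using expand_const_mul e 0 w (fun _ => 0)
  | insert k s hk ih => simp only [Finset.sum_insert hk, expand_add, ih]

theorem expand_append : ∀ (g w : List ι) (φ : List L → ℂ),
    expand e φ (g ++ w) = expand e (fun u => expand e (fun v => φ (u ++ v)) w) g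
  | [], w, φ => rfl
  | i :: g, w, φ => by
    simp only [List.cons_append, expand, expand_append g w]

theorem expand_single (φ : List L → ℂ) (i : ι) : expand e φ [i] = ∑ l, e i l * φ [l] := rfl

end Expand

section Gap

variable {L α : Type*} [Fintype α] (φ : List L → ℂ) (c : L → α → ℂ)

theorem gapSum_congr : ∀ (w g : List L) (F G : List α → ℂ),
    (∀ K, K.length ≤ w.length → F K = G K) → gapSum φ c g w F = gapSum φ c g w G
  | [], g, F, G, h => by simp [gapSum, h [] le_rfl]
  | l :: w, g, F, G, h => by
    simp only [gapSum]
    rw [gapSum_congr w (g ++ [l]) F G fun K hK => h K (by simp; omega)]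
    congr 1
    exact Finset.sum_congr rfl fun i _ => by
      rw [gapSum_congr w [] (fun K => F (i :: K)) (fun K => G (i :: K))
        fun K hK => h (i :: K) (by simp; omega)]

theorem gapSum_add : ∀ (w g : List L) (F G : List α → ℂ),
    gapSum φ c g w (fun K => F K + G K) = gapSum φ c g w F + gapSum φ c g w G
  | [], g, F, G => by simp [gapSum, add_mul]
  | l :: w, g, F, G => by
    simp only [gapSum, gapSum_add w, mul_add, Finset.sum_add_distrib]
    ring

theorem gapSum_const_mul (a : ℂ) : ∀ (w g : List L) (F : List α → ℂ),
    gapSum φ c g w (fun K => a * F K) = a * gapSum φ c g w F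
  | [], g, F => by simp [gapSum, mul_assoc]
  | l :: w, g, F => by
    simp only [gapSum, gapSum_const_mul a w, mul_add, Finset.mul_sum]
    congr 1
    exact Finset.sum_congr rfl fun i _ => by ring

theorem gapSum_sum {κ : Type*} (s : Finset κ) (w g : List L) (F : κ → List α → ℂ) :
    gapSum φ c g w (fun K => ∑ k ∈ s, F k K) = ∑ k ∈ s, gapSum φ c g w (F k) := by
  classical
  induction s using Finset.induction_on with
  | empty =>
    simp only [Finset.sum_empty]
    simpa using gapSum_const_mul φ c 0 w g (fun _ => 0)
  | insert k s hk ih => simp only [Finset.sum_insert hk, gapSum_add, ih]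

/-- Sorting the terms by the first selected position. -/
theorem gapSum_first : ∀ (w g : List L) (F : List α → ℂ),
    gapSum φ c g w F = F [] * φ (g ++ w) + ∑ q ∈ range w.length, ∑ i,
      (w[q]?.elim 0 fun l => c l i) * φ (g ++ w.take q) *
        gapSum φ c [] (w.drop (q + 1)) (fun K => F (i :: K))
  | [], g, F => by simp [gapSum]
  | l :: w, g, F => by
    rw [gapSum, gapSum_first w (g ++ [l]) F, List.length_cons, Finset.sum_range_succ']
    simp only [List.getElem?_cons_succ, List.take_succ_cons, List.drop_succ_cons,
      List.append_assoc, List.singleton_append, List.getElem?_cons_zero, List.take_zero,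
      List.drop_zero, List.append_nil, Option.elim_some]
    ring

variable [DecidableEq L]

/-- A semicircular letter in the first gap is contracted with a later copy of itself. -/
theorem gapSum_contract (S : L) (g : List L)
    (hsd : ∀ h : List L, φ (g ++ S :: h) = ∑ q ∈ range h.length,
      if h[q]? = some S then φ (h.take q) * φ (g ++ h.drop (q + 1)) else 0) :
    ∀ (b h : List L) (F : List α → ℂ),
      gapSum φ c (g ++ S :: h) b F =
        (∑ q ∈ range h.length, if h[q]? = some S then
          φ (h.take q) * gapSum φ c (g ++ h.drop (q + 1)) b F else 0) +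
        ∑ q ∈ range b.length, if b[q]? = some S then
          φ (h ++ b.take q) * gapSum φ c g (b.drop (q + 1)) F else 0
  | [], h, F => by
    simp only [gapSum, List.length_nil, Finset.range_zero, Finset.sum_empty, add_zero, hsd h,
      Finset.mul_sum]
    exact Finset.sum_congr rfl fun q _ => by split_ifs <;> ring
  | l :: b, h, F => by
    have hlt : ∀ q ∈ range h.length, (h ++ [l])[q]? = h[q]? ∧ (h ++ [l]).take q = h.take q ∧
        (h ++ [l]).drop (q + 1) = h.drop (q + 1) ++ [l] := by
      intro q hq
      have hq' := Finset.mem_range.mp hq
      exact ⟨List.getElem?_append_left hq', List.take_append_of_le_length hq'.le,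
        List.drop_append_of_le_length (by omega)⟩
    rw [gapSum, List.append_assoc, List.cons_append,
      gapSum_contract S g hsd b (h ++ [l]) F, hsd h]
    rw [show (h ++ [l]).length = h.length + 1 by simp, Finset.sum_range_succ,
      List.length_cons, Finset.sum_range_succ']
    simp only [List.getElem?_append_right (le_refl h.length), Nat.sub_self,
      List.getElem?_cons_zero, List.take_left, List.take_zero, List.drop_zero,
      List.append_nil, List.getElem?_cons_succ, List.take_succ_cons, List.drop_succ_cons,
      List.append_assoc, List.singleton_append]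
    have e1 : (h ++ [l]).drop (h.length + 1) = [] := by simp
    rw [e1, List.append_nil]
    have e2 : ∑ q ∈ range h.length, (if (h ++ [l])[q]? = some S then
          φ ((h ++ [l]).take q) * gapSum φ c (g ++ (h ++ [l]).drop (q + 1)) b F else 0) +
        (∑ i, c l i * (∑ q ∈ range h.length, if h[q]? = some S then
          φ (h.take q) * φ (g ++ h.drop (q + 1)) else 0) *
            gapSum φ c [] b (fun K => F (i :: K))) =
        ∑ q ∈ range h.length, if h[q]? = some S then
          φ (h.take q) * gapSum φ c (g ++ h.drop (q + 1)) (l :: b) F else 0 := by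
      simp only [Finset.mul_sum, Finset.sum_mul]
      rw [Finset.sum_comm (f := fun i q => c l i * _ * _), ← Finset.sum_add_distrib]
      refine Finset.sum_congr rfl fun q hq => ?_
      obtain ⟨h1, h2, h3⟩ := hlt q hq
      rw [h1, h2, h3]
      split_ifs
      · simp only [gapSum, mul_add, Finset.mul_sum, List.append_assoc]
        congr 1
        exact Finset.sum_congr rfl fun i _ => by ring
      · simp
    rw [← e2]
    ring

/-- A semicircular letter with no selectable index is contracted, whatever precedes it. -/
theorem gapSum_letter (S : L) (hcS : ∀ i, c S i = 0) (base : L → Prop)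
    (hsd : ∀ g : List L, (∀ x ∈ g, base x) → ∀ h : List L,
      φ (g ++ S :: h) = ∑ q ∈ range h.length,
        if h[q]? = some S then φ (h.take q) * φ (g ++ h.drop (q + 1)) else 0)
    (b : List L) :
    ∀ (a g : List L), (∀ x ∈ a, base x) → (∀ x ∈ g, base x) → ∀ F : List α → ℂ,
      gapSum φ c g (a ++ S :: b) F = ∑ q ∈ range b.length, if b[q]? = some S then
        φ (b.take q) * gapSum φ c g (a ++ b.drop (q + 1)) F else 0
  | [], g, _, hg, F => by
    simp only [List.nil_append, gapSum, hcS, zero_mul, Finset.sum_const_zero, add_zero]
    rw [gapSum_contract φ c S g (hsd g hg) b [] F]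
    simp
  | x :: a, g, ha, hg, F => by
    have ha' : ∀ y ∈ a, base y := fun y hy => ha y (List.mem_cons_of_mem _ hy)
    have hg' : ∀ y ∈ g ++ [x], base y := fun y hy => by
      rcases List.mem_append.mp hy with h | h
      · exact hg y h
      · rw [List.mem_singleton] at h; exact h ▸ ha x (List.mem_cons_self ..)
    simp only [List.cons_append, gapSum]
    rw [gapSum_letter S hcS base hsd b a (g ++ [x]) ha' hg' F]
    simp only [gapSum_letter S hcS base hsd b a [] ha' (by simp), Finset.mul_sum]
    rw [Finset.sum_comm (f := fun i q => c x i * φ g * _), ← Finset.sum_add_distrib]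
    refine Finset.sum_congr rfl fun q _ => ?_
    split_ifs
    · simp only [mul_add, Finset.mul_sum]
      congr 1
      exact Finset.sum_congr rfl fun i _ => by ring
    · simp

omit [DecidableEq L] in
/-- Rescaling the coefficients rescales the summand. -/
theorem gapSum_scale (s : α → ℂ) : ∀ (w g : List L) (F : List α → ℂ),
    gapSum φ (fun l i => s i * c l i) g w F = gapSum φ c g w (fun K => (K.map s).prod * F K)
  | [], g, F => by simp [gapSum]
  | l :: w, g, F => by
    simp only [gapSum, gapSum_scale s w, List.map_cons, List.prod_cons]
    congr 1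
    refine Finset.sum_congr rfl fun i _ => ?_
    simp only [mul_assoc, gapSum_const_mul]
    ring

end Gap

/-- Gap sums commute with linear substitutions. -/
theorem expand_gapSum {ι L α : Type*} [Fintype L] [Fintype α] (e : ι → L → ℂ) (φ : List L → ℂ)
    (c : L → α → ℂ) : ∀ (w g : List ι) (F : List α → ℂ),
    gapSum (expand e φ) (fun i k => ∑ l, e i l * c l k) g w F =
      expand e (fun u => expand e (fun v => gapSum φ c u v F) w) g
  | [], g, F => by
    simp only [gapSum, expand]
    rw [expand_const_mul]
  | i :: w, g, F => by
    simp only [gapSum, expand_gapSum e φ c w, expand]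
    rw [expand_append e g [i]]
    simp only [expand, mul_add, expand_add, expand_sum, expand_const_mul, expand_mul_const,
      Finset.sum_add_distrib, Finset.mul_sum, Finset.sum_mul]
    congr 1
    rw [Finset.sum_comm]
    refine Finset.sum_congr rfl fun l _ => Finset.sum_congr rfl fun k _ => ?_
    ring

end

end Vale.Agent.P087
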