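import Mathlib
import Vale.Agent.P087.Basic
import Vale.Agent.P087.GapSum
import Vale.Agent.P087.Cumulant

/-!
# P087: the tuple along the semicircular flow, Wick vectors and the estimator identity
-/

namespace Vale.Agent.P087

open Finset
open scoped InnerProductSpace ComplexConjugate

noncomputable section

/-- Contraction of a letter with a later copy after a linear substitution. -/
theorem expand_contract {ι L : Type*} [Fintype L] [DecidableEq L] (e : ι → L → ℂ)
    (φ : List L → ℂ) (S : L) (g : List L)
    (hsd : ∀ h : List L, φ (g ++ S :: h) = ∑ q ∈ range h.length,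
      if h[q]? = some S then φ (h.take q) * φ (g ++ h.drop (q + 1)) else 0) :
    ∀ (b : List ι) (h : List L),
      expand e (fun v => φ (g ++ S :: (h ++ v))) b =
        (∑ q ∈ range h.length, if h[q]? = some S then
          φ (h.take q) * expand e (fun v => φ (g ++ (h.drop (q + 1) ++ v))) b else 0) +
        ∑ q ∈ range b.length, (b[q]?.elim 0 fun i => e i S) *
          expand e (fun v => φ (h ++ v)) (b.take q) *
          expand e (fun v => φ (g ++ v)) (b.drop (q + 1))
  | [], h => by simp [expand, hsd h]
  | i :: b, h => by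
    have ih : ∀ l, expand e (fun v => φ (g ++ S :: (h ++ l :: v))) b = _ := fun l => by
      have := expand_contract e φ S g hsd b (h ++ [l])
      simpa only [List.append_assoc, List.singleton_append] using this
    simp only [expand]
    simp only [ih, mul_add, Finset.sum_add_distrib, List.length_append, List.length_singleton,
      Finset.sum_range_succ, List.getElem?_append_right (le_refl h.length), Nat.sub_self,
      List.getElem?_cons_zero, List.take_left, Option.some_inj]
    have e1 : ∀ l : L, (h ++ [l]).drop (h.length + 1) = [] := fun l => by simp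
    have hq : ∀ (l : L), ∀ q ∈ range h.length, (if (h ++ [l])[q]? = some S then
        φ ((h ++ [l]).take q) *
          expand e (fun v => φ (g ++ ((h ++ [l]).drop (q + 1) ++ v))) b else 0) =
        if h[q]? = some S then
          φ (h.take q) * expand e (fun v => φ (g ++ (h.drop (q + 1) ++ l :: v))) b else 0 := by
      intro l q hq
      have hq' := Finset.mem_range.mp hq
      rw [List.getElem?_append_left hq', List.take_append_of_le_length hq'.le,
        List.drop_append_of_le_length (by omega)]
      simp only [List.append_assoc, List.singleton_append]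
    simp only [Finset.sum_congr rfl (hq _), e1, List.nil_append, mul_ite, mul_zero,
      Finset.sum_ite_eq', Finset.mem_univ, if_true, List.length_cons,
      Finset.sum_range_succ', List.getElem?_cons_succ, List.take_succ_cons,
      List.drop_succ_cons, List.getElem?_cons_zero, List.take_zero, List.drop_zero,
      Option.elim_some, expand, List.append_nil]
    rw [add_assoc]
    refine congrArg₂ (· + ·) ?_ ?_
    · simp only [Finset.mul_sum]
      rw [Finset.sum_comm]
      refine Finset.sum_congr rfl fun q _ => ?_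
      split_ifs
      · exact Finset.sum_congr rfl fun l _ => by ring
      · simp
    · rw [add_comm]
      refine congrArg₂ (· + ·) ?_ (by ring)
      simp only [Finset.mul_sum]
      rw [Finset.sum_comm]
      refine Finset.sum_congr rfl fun q _ => ?_
      simp only [Finset.sum_mul, List.append_assoc, List.singleton_append, Finset.mul_sum]
      exact Finset.sum_congr rfl fun l _ => by ring

theorem expand_map_self {ι L : Type*} [Fintype L] {α : Type*} (e : ι → L → ℂ) (f : α → ι)
    (f' : α → L) (he : ∀ a (G : L → ℂ), ∑ l, e (f a) l * G l = G (f' a)) :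
    ∀ (u : List α) (w : List ι) (φ : List L → ℂ),
      expand e φ (u.map f ++ w) = expand e (fun v => φ (u.map f' ++ v)) w
  | [], w, φ => rfl
  | a :: u, w, φ => by
    simp only [List.map_cons, List.cons_append, expand]
    rw [he a]
    exact expand_map_self e f f' he u w fun v => φ (f' a :: v)

theorem gapSum_map {L L' α : Type*} [Fintype α] (f : L → L') (φ : List L' → ℂ)
    (c : L' → α → ℂ) : ∀ (w g : List L) (F : List α → ℂ),
    gapSum φ c (g.map f) (w.map f) F =
      gapSum (fun u => φ (u.map f)) (fun l => c (f l)) g w F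
  | [], g, F => by simp [gapSum]
  | l :: w, g, F => by
    have h1 := gapSum_map f φ c w (g ++ [l]) F
    simp only [List.map_append, List.map_cons, List.map_nil] at h1
    have h2 := fun i : α => gapSum_map f φ c w [] (fun K => F (i :: K))
    simp only [List.map_nil] at h2
    simp only [List.map_cons, gapSum, h1, h2]

theorem splitFirst_eq_none {α σ : Type*} : ∀ {w : List (α ⊕ σ)},
    splitFirst w = none → ∃ u : List α, w = u.map Sum.inl
  | [], _ => ⟨[], rfl⟩
  | Sum.inr i :: w, h => by simp [splitFirst] at h
  | Sum.inl a :: w, h => by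
    simp only [splitFirst, Option.map_eq_none_iff] at h
    obtain ⟨u, rfl⟩ := splitFirst_eq_none h
    exact ⟨a :: u, rfl⟩

/-- Squared `ℓ²` norm by grade as a sum over tuples. -/
theorem gradeSq_eq_sum {α : Type*} [Fintype α] : ∀ (k : ℕ) (F : List α → ℂ),
    gradeSq F k = ∑ f : Fin k → α, ‖F (List.ofFn f)‖ ^ 2
  | 0, F => by simp [gradeSq]
  | k + 1, F => by
    rw [gradeSq, ← (Fin.consEquiv fun _ : Fin (k + 1) => α).sum_comp, Fintype.sum_prod_type]
    simp [gradeSq_eq_sum k, Fin.consEquiv, List.ofFn_succ]

/-- The letters along the flow: the tuple and the normalised noise. -/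
abbrev L2 (n : ℕ) := Fin n ⊕ Fin n

variable {n : ℕ}

/-- The noise variance at time `t`. -/
def flowVar (s : Fin n → ℝ) (t : ℝ) (i : Fin n) : ℝ := s i ^ 2 + t

theorem flowVar_pos (s : Fin n → ℝ) {t : ℝ} (ht : 0 < t) (i : Fin n) : 0 < flowVar s t i := by
  unfold flowVar; positivity

/-- `(x, S')` in terms of `(x, S⁰, S)`. -/
def flowCoef (s : Fin n → ℝ) (t : ℝ) : L2 n → L3 n → ℂ
  | Sum.inl i, l => if l = Sum.inl i then 1 else 0
  | Sum.inr i, l => if l = Sum.inr (Sum.inl i) then ((s i / Real.sqrt (flowVar s t i) : ℝ) : ℂ)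
      else if l = Sum.inr (Sum.inr i) then
        ((Real.sqrt t / Real.sqrt (flowVar s t i) : ℝ) : ℂ) else 0

/-- `Y = x + √v S'` in terms of `(x, S')`. -/
def yCoef (s : Fin n → ℝ) (t : ℝ) (i : Fin n) : L2 n → ℂ
  | Sum.inl k => if k = i then 1 else 0
  | Sum.inr k => if k = i then (Real.sqrt (flowVar s t i) : ℂ) else 0

theorem flowCoef_inl (s : Fin n → ℝ) (t : ℝ) (i : Fin n) (G : L3 n → ℂ) :
    ∑ l, flowCoef s t (Sum.inl i) l * G l = G (Sum.inl i) := by
  simp [flowCoef]

theorem sum_flowCoef_inr (s : Fin n → ℝ) (t : ℝ) (i : Fin n) (G : L3 n → ℂ) :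
    ∑ l, flowCoef s t (Sum.inr i) l * G l =
      ((s i / Real.sqrt (flowVar s t i) : ℝ) : ℂ) * G (Sum.inr (Sum.inl i)) +
      ((Real.sqrt t / Real.sqrt (flowVar s t i) : ℝ) : ℂ) * G (Sum.inr (Sum.inr i)) := by
  simp [flowCoef, Fintype.sum_sum_type]

theorem flowCoef_orth (s : Fin n → ℝ) {t : ℝ} (ht : 0 < t) (i : Fin n) (a : L2 n) :
    ((s i / Real.sqrt (flowVar s t i) : ℝ) : ℂ) * flowCoef s t a (Sum.inr (Sum.inl i)) +
      ((Real.sqrt t / Real.sqrt (flowVar s t i) : ℝ) : ℂ) *
        flowCoef s t a (Sum.inr (Sum.inr i)) = if a = Sum.inr i then 1 else 0 := by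
  rcases a with k | k
  · simp [flowCoef]
  · rcases eq_or_ne k i with rfl | h
    · simp only [flowCoef, if_true, Sum.inr.injEq, reduceCtorEq, if_false]
      rw [← Complex.ofReal_mul, ← Complex.ofReal_mul, ← Complex.ofReal_add]
      norm_cast
      have hv := flowVar_pos s ht k
      rw [div_mul_div_comm, div_mul_div_comm, Real.mul_self_sqrt hv.le, ← add_div,
        Real.mul_self_sqrt ht.le, div_eq_one_iff_eq hv.ne']
      unfold flowVar; ring
    · simp [flowCoef, Ne.symm h, h]

/-- The law of `(x, S')` at time `t`. -/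
def flowLaw (μ : List (Fin n) → ℂ) (s : Fin n → ℝ) (t : ℝ) : List (L2 n) → ℂ :=
  expand (flowCoef s t) (law μ)

/-- The law of `Y` at time `t`. -/
def yLaw (μ : List (Fin n) → ℂ) (s : Fin n → ℝ) (t : ℝ) : List (Fin n) → ℂ :=
  expand (yCoef s t) (flowLaw μ s t)

theorem flowLaw_inl (μ : List (Fin n) → ℂ) (s : Fin n → ℝ) (t : ℝ) (u : List (Fin n)) :
    flowLaw μ s t (u.map Sum.inl) = μ u := by
  have := expand_map_self (flowCoef s t) Sum.inl Sum.inl (flowCoef_inl s t) u [] (law μ)
  simp only [List.append_nil, expand] at this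
  rw [flowLaw, this, law_inl]

theorem flowLaw_sd (μ : List (Fin n) → ℂ) (s : Fin n → ℝ) {t : ℝ} (ht : 0 < t)
    (u : List (Fin n)) (i : Fin n) (b : List (L2 n)) :
    flowLaw μ s t (u.map Sum.inl ++ Sum.inr i :: b) = ∑ q ∈ range b.length,
      if b[q]? = some (Sum.inr i) then
        flowLaw μ s t (b.take q) * flowLaw μ s t (u.map Sum.inl ++ b.drop (q + 1)) else 0 := by
  have hpre := fun w => expand_map_self (flowCoef s t) Sum.inl Sum.inl (flowCoef_inl s t) u w
    (law μ)
  simp only [flowLaw, hpre, expand]
  rw [sum_flowCoef_inr]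
  have hc := fun S : Fin n ⊕ Fin n => expand_contract (flowCoef s t) (law μ) (Sum.inr S)
    (u.map Sum.inl) (fun h => law_sd μ u S h) b []
  simp only [List.nil_append, List.length_nil, Finset.range_zero, Finset.sum_empty, zero_add]
    at hc
  rw [hc, hc, Finset.mul_sum, Finset.mul_sum, ← Finset.sum_add_distrib]
  refine Finset.sum_congr rfl fun q _ => ?_
  rcases hb : b[q]? with _ | a
  · simp
  · simp only [Option.elim_some, Option.some_inj]
    have := flowCoef_orth s ht i a
    split_ifs with h
    · rw [if_pos h] at this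
      linear_combination (expand (flowCoef s t) (law μ) (b.take q) *
        expand (flowCoef s t) (fun v => law μ (u.map Sum.inl ++ v)) (b.drop (q + 1))) * this
    · rw [if_neg h] at this
      linear_combination (expand (flowCoef s t) (law μ) (b.take q) *
        expand (flowCoef s t) (fun v => law μ (u.map Sum.inl ++ v)) (b.drop (q + 1))) * this

/-- Selecting among the letters of `x`. -/
def selX : L2 n → Fin n → ℂ
  | Sum.inl k, i => if k = i then 1 else 0
  | Sum.inr _, _ => 0

/-- Selecting among the noise letters. -/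
def selS : L2 n → Fin n → ℂ
  | Sum.inl _, _ => 0
  | Sum.inr k, i => if k = i then 1 else 0

/-- The identity for one marked letter. -/
theorem flowLaw_marked (μ : List (Fin n) → ℂ) (s : Fin n → ℝ) {t : ℝ} (ht : 0 < t) (j : Fin n)
    (ζ : List (Fin n) → ℂ) (hζ : ∀ w, μ (j :: w) = gapSum μ dlt [] w ζ) :
    ∀ (N : ℕ) (w : List (L2 n)), w.length ≤ N →
      flowLaw μ s t (Sum.inl j :: w) = gapSum (flowLaw μ s t) selX [] w ζ := by
  intro N
  induction N with
  | zero =>
    intro w hw
    have : w = [] := List.length_eq_zero_iff.mp (Nat.le_zero.mp hw)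
    subst this
    have h1 := flowLaw_inl μ s t [j]
    have h0 := flowLaw_inl μ s t []
    simp only [List.map_cons, List.map_nil] at h1 h0
    simp [gapSum, h1, hζ, h0]
  | succ N ih =>
    intro w hw
    rcases h : splitFirst w with _ | ⟨u, i, b⟩
    · obtain ⟨u, rfl⟩ := splitFirst_eq_none h
      have h1 := flowLaw_inl μ s t (j :: u)
      simp only [List.map_cons] at h1
      have h2 := gapSum_map Sum.inl (flowLaw μ s t) selX u [] ζ
      simp only [List.map_nil] at h2
      rw [h1, hζ, h2, show (fun v => flowLaw μ s t (v.map Sum.inl)) = μ from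
        funext (flowLaw_inl μ s t)]
      rfl
    · have hw' := splitFirst_some h
      simp only at hw'
      subst hw'
      have hl := flowLaw_sd μ s ht (j :: u) i b
      simp only [List.map_cons, List.cons_append] at hl
      rw [hl, gapSum_letter (flowLaw μ s t) selX (Sum.inr i) (fun _ => rfl)
        (fun x => ∃ k, x = Sum.inl k) ?_ b (u.map Sum.inl) [] ?_ (by simp)]
      · refine Finset.sum_congr rfl fun q hq => ?_
        have hq' := Finset.mem_range.mp hq
        split_ifs
        · rw [ih (u.map Sum.inl ++ b.drop (q + 1)) (by simp at hw ⊢; omega)]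
        · rfl
      · intro g hg hb
        obtain ⟨g', rfl⟩ : ∃ g' : List (Fin n), g = g'.map Sum.inl := by
          clear hb
          induction g with
          | nil => exact ⟨[], rfl⟩
          | cons x g ihg =>
            obtain ⟨g', rfl⟩ := ihg fun y hy => hg y (List.mem_cons_of_mem _ hy)
            obtain ⟨k, rfl⟩ := hg x (List.mem_cons_self ..)
            exact ⟨k :: g', rfl⟩
        exact flowLaw_sd μ s ht g' i hb
      · intro x hx
        obtain ⟨k, -, rfl⟩ := List.mem_map.mp hx
        exact ⟨k, rfl⟩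

theorem yCoef_selX (s : Fin n → ℝ) (t : ℝ) :
    (fun i k => ∑ a, yCoef s t i a * selX a k) = (dlt : Fin n → Fin n → ℂ) := by
  funext i k
  simp [yCoef, selX, dlt, Fintype.sum_sum_type, eq_comm]

theorem yCoef_selS (s : Fin n → ℝ) (t : ℝ) :
    (fun i k => ∑ a, yCoef s t i a * selS a k) =
      fun i k => (Real.sqrt (flowVar s t k) : ℂ) * dlt i k := by
  funext i k
  rcases eq_or_ne i k with rfl | h
  · simp [yCoef, selS, dlt, Fintype.sum_sum_type]
  · simp [yCoef, selS, dlt, Fintype.sum_sum_type, h, Ne.symm h]

section Vectors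

variable {H : Type} [NormedAddCommGroup H] [InnerProductSpace ℂ H]
variable (Ω : H) (Z : L3 n → H →L[ℂ] H) (s : Fin n → ℝ) (t : ℝ)

/-- The operators `(x, S')` at time `t`. -/
def flowOp (a : L2 n) : H →L[ℂ] H := ∑ l, flowCoef s t a l • Z l

/-- The operators `Y` at time `t`. -/
def yOp (i : Fin n) : H →L[ℂ] H := ∑ a, yCoef s t i a • flowOp Z s t a

/-- `A ↦ ⟪v, A Ω⟫`. -/
def pairing (v : H) : (H →L[ℂ] H) →ₗ[ℂ] ℂ where
  toFun A := ⟪v, A Ω⟫_ℂ
  map_add' A B := by simp [inner_add_right]
  map_smul' a A := by simp [inner_smul_right]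

theorem moments_flowOp (μ : List (Fin n) → ℂ) (hZ : ∀ w, moments Ω Z w = law μ w)
    (w : List (L2 n)) : moments Ω (flowOp Z s t) w = flowLaw μ s t w := by
  have h := map_wordProd_expand (flowCoef s t) Z (flowOp Z s t) (fun _ => rfl) w (pairing Ω Ω)
  simp only [pairing, LinearMap.coe_mk, AddHom.coe_mk] at h
  rw [moments, vstate, h, flowLaw]
  exact expand_congr _ _ _ _ fun u _ => hZ u

theorem moments_yOp (μ : List (Fin n) → ℂ) (hZ : ∀ w, moments Ω Z w = law μ w)
    (w : List (Fin n)) : moments Ω (yOp Z s t) w = yLaw μ s t w := by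
  have h := map_wordProd_expand (yCoef s t) (flowOp Z s t) (yOp Z s t) (fun _ => rfl) w
    (pairing Ω Ω)
  simp only [pairing, LinearMap.coe_mk, AddHom.coe_mk] at h
  rw [moments, vstate, h, yLaw]
  exact expand_congr _ _ _ _ fun u _ => moments_flowOp Ω Z s t μ hZ u

/-- The Wick polynomials in `S'`. -/
def wick : List (Fin n) → H →L[ℂ] H
  | [] => 1
  | [i] => flowOp Z s t (Sum.inr i)
  | i :: k :: K => flowOp Z s t (Sum.inr i) * wick (k :: K) - if i = k then wick K else 0

theorem noise_mul_wick (i : Fin n) (K : List (Fin n)) :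
    flowOp Z s t (Sum.inr i) * wick Z s t K = wick Z s t (i :: K) +
      if K.head? = some i then wick Z s t K.tail else 0 := by
  cases K with
  | nil => simp [wick]
  | cons k K =>
    simp only [wick, List.head?_cons, Option.some_inj, List.tail_cons, eq_comm (a := k)]
    split_ifs <;> simp

variable {Ω Z s t}

theorem flowOp_selfAdjoint [CompleteSpace H] (hsa : ∀ l, IsSelfAdjoint (Z l)) (a : L2 n) :
    IsSelfAdjoint (flowOp Z s t a) := by
  refine isSelfAdjoint_sum _ fun l _ => IsSelfAdjoint.smul ?_ (hsa l)
  rcases a with i | i <;> simp only [flowCoef] <;> split_ifs <;>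
    first
      | exact Complex.conj_ofReal _
      | exact IsSelfAdjoint.one ℂ
      | exact IsSelfAdjoint.zero ℂ

theorem inner_selfAdjoint [CompleteSpace H] {A : H →L[ℂ] H} (hA : IsSelfAdjoint A) (x y : H) :
    ⟪A x, y⟫_ℂ = ⟪x, A y⟫_ℂ := by
  conv_lhs => rw [← hA.adjoint_eq]
  rw [ContinuousLinearMap.adjoint_inner_left]

variable [CompleteSpace H] (μ : List (Fin n) → ℂ) (hμ : μ [] = 1)
  (hZ : ∀ w, moments Ω Z w = law μ w) (hsa : ∀ l, IsSelfAdjoint (Z l)) (ht : 0 < t)
include hμ hZ hsa ht

/-- Pairing of a Wick vector with a word. -/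
theorem wick_inner : ∀ (K : List (Fin n)) (w : List (L2 n)),
    ⟪wick Z s t K Ω, wordProd (flowOp Z s t) w Ω⟫_ℂ =
      gapSum (flowLaw μ s t) selS [] w (fun J => if J = K then 1 else 0) := by
  suffices h : ∀ (N : ℕ) (K : List (Fin n)), K.length ≤ N → ∀ w : List (L2 n),
      ⟪wick Z s t K Ω, wordProd (flowOp Z s t) w Ω⟫_ℂ =
        gapSum (flowLaw μ s t) selS [] w (fun J => if J = K then 1 else 0) from
    fun K => h K.length K le_rfl
  have hnil : ∀ w : List (L2 n), gapSum (flowLaw μ s t) selS [] w
      (fun J => if J = [] then (1 : ℂ) else 0) = flowLaw μ s t w := by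
    intro w
    rw [gapSum_first]
    simp only [reduceCtorEq, if_false, if_true, one_mul, List.nil_append]
    have hz : ∀ v : List (L2 n),
        gapSum (flowLaw μ s t) selS [] v (fun _ : List (Fin n) => (0 : ℂ)) = 0 := fun v => by
      simpa using gapSum_const_mul (flowLaw μ s t) selS 0 v [] (fun _ : List (Fin n) => (0 : ℂ))
    simp [hz]
  intro N
  induction N with
  | zero =>
    intro K hK w
    have : K = [] := List.length_eq_zero_iff.mp (Nat.le_zero.mp hK)
    subst this
    rw [hnil, ← moments_flowOp Ω Z s t μ hZ]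
    simp [wick, moments, vstate]
  | succ N ih =>
    intro K hK w
    rcases K with _ | ⟨i, K⟩
    · exact ih [] (by simp) w
    simp only [List.length_cons, Nat.add_le_add_iff_right] at hK
    have hmul : wick Z s t (i :: K) = flowOp Z s t (Sum.inr i) * wick Z s t K -
        if K.head? = some i then wick Z s t K.tail else 0 := by
      rw [noise_mul_wick]; simp
    have h0 : flowLaw μ s t [] = 1 := by simpa [hμ] using flowLaw_inl μ s t []
    have hleft : ⟪(flowOp Z s t (Sum.inr i) * wick Z s t K) Ω,
        wordProd (flowOp Z s t) w Ω⟫_ℂ =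
        gapSum (flowLaw μ s t) selS [] (Sum.inr i :: w) (fun J => if J = K then 1 else 0) := by
      rw [← ih K hK (Sum.inr i :: w), ContinuousLinearMap.mul_apply,
        inner_selfAdjoint (flowOp_selfAdjoint hsa _)]
      simp [wordProd]
    have hc := gapSum_contract (flowLaw μ s t) selS (Sum.inr i) []
      (fun h => by simpa using flowLaw_sd μ s ht [] i h) w []
      (fun J => if J = K then (1 : ℂ) else 0)
    simp only [List.nil_append, List.length_nil, Finset.range_zero, Finset.sum_empty,
      zero_add] at hc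
    have hsplit : gapSum (flowLaw μ s t) selS [] w (fun J => if J = i :: K then 1 else 0) =
        ∑ q ∈ range w.length, if w[q]? = some (Sum.inr i) then flowLaw μ s t (w.take q) *
          gapSum (flowLaw μ s t) selS [] (w.drop (q + 1))
            (fun J => if J = K then 1 else 0) else 0 := by
      rw [gapSum_first]
      simp only [List.nil_eq, reduceCtorEq, if_false, zero_mul, zero_add, List.nil_append]
      refine Finset.sum_congr rfl fun q _ => ?_
      rw [Finset.sum_eq_single i]
      · rcases w[q]? with _ | a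
        · simp
        · rcases a with k | k
          · simp [selS]
          · simp only [Option.elim_some, selS, List.cons.injEq, true_and, Option.some_inj,
              Sum.inr.injEq]
            split_ifs <;> simp
      · intro k _ hk
        have := gapSum_const_mul (flowLaw μ s t) selS 0 (w.drop (q + 1)) []
          (fun _ : List (Fin n) => (0 : ℂ))
        simp only [zero_mul] at this
        simp [hk, this]
      · simp
    have hLS : gapSum (flowLaw μ s t) selS [] (Sum.inr i :: w)
        (fun J => if J = K then (1 : ℂ) else 0) =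
        gapSum (flowLaw μ s t) selS [] w (fun J => if J = i :: K then 1 else 0) +
        gapSum (flowLaw μ s t) selS [] w (fun J => if i :: J = K then 1 else 0) := by
      rw [gapSum, List.nil_append, hc, hsplit, Finset.sum_eq_single i]
      · simp [selS, h0]
      · intro k _ hk
        simp [selS, Ne.symm hk]
      · simp
    rw [hmul, ContinuousLinearMap.sub_apply, inner_sub_left, hleft, hLS]
    rcases K with _ | ⟨k, K⟩
    · have := gapSum_const_mul (flowLaw μ s t) selS 0 w [] (fun _ : List (Fin n) => (0 : ℂ))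
      simp only [zero_mul] at this
      simp [this]
    · simp only [List.head?_cons, Option.some_inj, List.tail_cons, List.cons.injEq]
      by_cases hik : k = i
      · subst hik
        simp only [if_true, true_and]
        rw [ih K (by simp only [List.length_cons] at hK; omega) w]
        ring
      · have := gapSum_const_mul (flowLaw μ s t) selS 0 w [] (fun _ : List (Fin n) => (0 : ℂ))
        simp only [zero_mul] at this
        simp [hik, Ne.symm hik, this]

theorem wick_orthonormal : ∀ J K : List (Fin n),
    ⟪wick Z s t J Ω, wick Z s t K Ω⟫_ℂ = if J = K then 1 else 0 := by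
  have hnil : ∀ K : List (Fin n), ⟪Ω, wick Z s t K Ω⟫_ℂ = if [] = K then 1 else 0 := by
    intro K
    have h := wick_inner (s := s) μ hμ hZ hsa ht K ([] : List (L2 n))
    have h0 : flowLaw μ s t [] = 1 := by simpa [hμ] using flowLaw_inl μ s t []
    simp only [wordProd, List.map_nil, List.prod_nil, ContinuousLinearMap.one_apply, gapSum,
      h0, mul_one] at h
    rw [← inner_conj_symm, h]
    split_ifs <;> simp
  suffices h : ∀ (N : ℕ) (J : List (Fin n)), J.length ≤ N → ∀ K,
      ⟪wick Z s t J Ω, wick Z s t K Ω⟫_ℂ = if J = K then 1 else 0 from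
    fun J => h J.length J le_rfl
  intro N
  induction N with
  | zero =>
    intro J hJ K
    have : J = [] := List.length_eq_zero_iff.mp (Nat.le_zero.mp hJ)
    subst this
    simpa [wick] using hnil K
  | succ N ih =>
    intro J hJ K
    rcases J with _ | ⟨i, J⟩
    · simpa [wick] using hnil K
    simp only [List.length_cons, Nat.add_le_add_iff_right] at hJ
    have hmul : wick Z s t (i :: J) = flowOp Z s t (Sum.inr i) * wick Z s t J -
        if J.head? = some i then wick Z s t J.tail else 0 := by
      rw [noise_mul_wick]; simp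
    rw [hmul, ContinuousLinearMap.sub_apply, inner_sub_left, ContinuousLinearMap.mul_apply,
      inner_selfAdjoint (flowOp_selfAdjoint hsa _),
      ← ContinuousLinearMap.mul_apply, noise_mul_wick, ContinuousLinearMap.add_apply,
      inner_add_right, ih J hJ (i :: K)]
    have hA : ⟪wick Z s t J Ω,
        (if K.head? = some i then wick Z s t K.tail else 0) Ω⟫_ℂ =
        if K.head? = some i ∧ J = K.tail then 1 else 0 := by
      by_cases h : K.head? = some i
      · simp [h, ih J hJ]
      · simp [h]
    have hB : ⟪(if J.head? = some i then wick Z s t J.tail else 0) Ω, wick Z s t K Ω⟫_ℂ =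
        if J.head? = some i ∧ J.tail = K then 1 else 0 := by
      by_cases h : J.head? = some i
      · simp [h, ih J.tail (by simp; omega)]
      · simp [h]
    rw [hA, hB]
    have e1 : (J = i :: K) ↔ (J.head? = some i ∧ J.tail = K) := by
      cases J <;> simp
    have e2 : (i :: J = K) ↔ (K.head? = some i ∧ J = K.tail) := by
      cases K <;> simp [eq_comm]
    simp only [e1, e2]
    ring

/-- Pairing of a Wick vector with a word in `Y`. -/
theorem wick_inner_y (K w : List (Fin n)) :
    ⟪wick Z s t K Ω, wordProd (yOp Z s t) w Ω⟫_ℂ =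
      (K.map fun i => (Real.sqrt (flowVar s t i) : ℂ)).prod *
        gapSum (yLaw μ s t) dlt [] w (fun J => if J = K then 1 else 0) := by
  have h := map_wordProd_expand (yCoef s t) (flowOp Z s t) (yOp Z s t) (fun _ => rfl) w
    (pairing Ω (wick Z s t K Ω))
  simp only [pairing, LinearMap.coe_mk, AddHom.coe_mk] at h
  rw [h, expand_congr _ _ _ _ fun u _ => wick_inner μ hμ hZ hsa ht K u]
  have h2 := expand_gapSum (yCoef s t) (flowLaw μ s t) selS w []
    (fun J : List (Fin n) => if J = K then (1 : ℂ) else 0)
  simp only [expand] at h2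
  rw [← h2, yCoef_selS, gapSum_scale, ← gapSum_const_mul]
  refine gapSum_congr _ _ _ _ _ _ fun J _ => ?_
  split_ifs with h <;> simp [h]

/-- The vector `Z` of the identity, cut at degree `m`. -/
theorem exists_estimator (j : Fin n) (ζ : List (Fin n) → ℂ)
    (hζ : ∀ w, μ (j :: w) = gapSum μ dlt [] w ζ) (m : ℕ) :
    ∃ v : H, ‖v‖ ^ 2 ≤ ∑ k ∈ range (m + 1), gradeSq ζ k / t ^ k ∧
      ∀ w : List (Fin n), w.length ≤ m →
        ⟪v, wordProd (yOp Z s t) w Ω⟫_ℂ = ⟪Z (Sum.inl j) Ω, wordProd (yOp Z s t) w Ω⟫_ℂ := by
  classical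
  let P : (Σ k : Fin (m + 1), Fin (k : ℕ) → Fin n) → List (Fin n) := fun p => List.ofFn p.2
  have hP : Function.Injective P := by
    rintro ⟨k, f⟩ ⟨k', f'⟩ h
    have h' := List.ofFn_inj'.mp h
    simp only [Sigma.mk.injEq] at h'
    obtain ⟨h1, h2⟩ := h'
    obtain rfl : k = k' := Fin.ext h1
    simp [eq_of_heq h2]
  let e : (Σ k : Fin (m + 1), Fin (k : ℕ) → Fin n) → H := fun p => wick Z s t (P p) Ω
  have he : Orthonormal ℂ e := orthonormal_iff_ite.mpr fun a b => by
    rw [wick_orthonormal μ hμ hZ hsa ht]
    simp [hP.eq_iff]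
  let r : List (Fin n) → ℂ := fun K => (K.map fun i => (Real.sqrt (flowVar s t i) : ℂ)).prod
  let cf : (Σ k : Fin (m + 1), Fin (k : ℕ) → Fin n) → ℂ := fun p => conj (ζ (P p) / r (P p))
  have hr : ∀ K, r K ≠ 0 ∧ (t ^ K.length) ≤ ‖r K‖ ^ 2 := by
    intro K
    induction K with
    | nil => simp [r]
    | cons i K ihK =>
      have hv := flowVar_pos s ht i
      simp only [r, List.map_cons, List.prod_cons, List.length_cons, pow_succ'] at *
      refine ⟨mul_ne_zero (by exact_mod_cast (Real.sqrt_pos.2 hv).ne') ihK.1, ?_⟩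
      rw [norm_mul, Complex.norm_real, Real.norm_eq_abs, abs_of_nonneg (Real.sqrt_nonneg _)]
      calc t * t ^ K.length
          ≤ flowVar s t i * (‖(K.map fun i => (Real.sqrt (flowVar s t i) : ℂ)).prod‖ ^ 2) :=
            mul_le_mul (by unfold flowVar; nlinarith [sq_nonneg (s i)]) (by simpa [pow_two] using ihK.2)
              (by positivity) hv.le
        _ = _ := by
            nth_rewrite 1 [← Real.mul_self_sqrt hv.le]
            ring
  refine ⟨∑ p, cf p • e p, ?_, fun w hw => ?_⟩
  · have h1 : ⟪∑ p, cf p • e p, ∑ p, cf p • e p⟫_ℂ = ∑ p, conj (cf p) * cf p := he.inner_sum cf cf _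
    have h2 : ‖∑ p, cf p • e p‖ ^ 2 = ∑ p, ‖cf p‖ ^ 2 := by
      have := congrArg Complex.re h1
      rw [inner_self_eq_norm_sq_to_K, Complex.re_sum] at this
      simp only [Complex.conj_mul', ← Complex.ofReal_pow, Complex.ofReal_re] at this
      exact_mod_cast this
    rw [h2, Fintype.sum_sigma, ← Fin.sum_univ_eq_sum_range (fun k => gradeSq ζ k / t ^ k)]
    refine Finset.sum_le_sum fun k _ => ?_
    rw [gradeSq_eq_sum, Finset.sum_div]
    refine Finset.sum_le_sum fun f _ => ?_
    simp only [cf, P, RCLike.norm_conj, norm_div, div_pow]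
    obtain ⟨hr0, hrt⟩ := hr (List.ofFn f)
    rw [List.length_ofFn] at hrt
    exact div_le_div_of_nonneg_left (by positivity) (by positivity) hrt
  · have hA := map_wordProd_expand (yCoef s t) (flowOp Z s t) (yOp Z s t) (fun _ => rfl) w
      (pairing Ω (Z (Sum.inl j) Ω))
    simp only [pairing, LinearMap.coe_mk, AddHom.coe_mk] at hA
    have hB : ∀ u, ⟪Z (Sum.inl j) Ω, wordProd (flowOp Z s t) u Ω⟫_ℂ =
        gapSum (flowLaw μ s t) selX [] u ζ := by
      intro u
      rw [← flowLaw_marked μ s ht j ζ hζ u.length u le_rfl, ← moments_flowOp Ω Z s t μ hZ,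
        inner_selfAdjoint (hsa _)]
      have : flowOp Z s t (Sum.inl j) = Z (Sum.inl j) := by simp [flowOp, flowCoef]
      simp [moments, vstate, wordProd, this]
    have h2 := expand_gapSum (yCoef s t) (flowLaw μ s t) selX w [] ζ
    simp only [expand] at h2
    rw [hA, expand_congr _ _ _ _ fun u _ => hB u, ← h2, yCoef_selX, sum_inner]
    simp only [inner_smul_left, e, wick_inner_y μ hμ hZ hsa ht]
    have hterm : ∀ p, conj (cf p) * ((r (P p)) *
        gapSum (yLaw μ s t) dlt [] w (fun J => if J = P p then 1 else 0)) =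
        gapSum (yLaw μ s t) dlt [] w (fun J => ζ (P p) * if J = P p then 1 else 0) := by
      intro p
      rw [gapSum_const_mul]
      simp only [cf, Complex.conj_conj]
      field_simp [(hr (P p)).1]
    rw [Finset.sum_congr rfl fun p _ => hterm p, ← gapSum_sum]
    refine gapSum_congr _ _ _ _ _ _ fun J hJ => ?_
    have hJm : J.length < m + 1 := by omega
    rw [Finset.sum_eq_single (⟨⟨J.length, hJm⟩, fun i => J.get i⟩ :
      Σ k : Fin (m + 1), Fin (k : ℕ) → Fin n)]
    · simp [P]
    · intro p _ hp
      rw [if_neg, mul_zero]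
      intro h
      exact hp (hP (by rw [← h]; simp [P]))
    · simp

end Vectors

end

end Vale.Agent.P087
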