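import Mathlib
import Vale.Agent.P087.Basic
import Vale.Agent.P087.GapSum
import Vale.Agent.P087.Flow

/-!
# P087: conjugate variables along the flow and bounds on their norms
-/

namespace Vale.Agent.P087

open Finset MeasureTheory
open scoped InnerProductSpace ComplexConjugate

noncomputable section

variable {H : Type} [NormedAddCommGroup H] [InnerProductSpace ℂ H]

/-- Evaluation at `Ω`. -/
def evalAt (Ω : H) : (H →L[ℂ] H) →ₗ[ℂ] H where
  toFun A := A Ω
  map_add' _ _ := rfl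
  map_smul' _ _ := rfl

/-- The polynomials in `Y` applied to `Ω`. -/
def polySub {m : ℕ} (Ω : H) (Y : Fin m → H →L[ℂ] H) : Submodule ℂ H :=
  (Algebra.adjoin ℂ (Set.range Y)).toSubmodule.map (evalAt Ω)

theorem polySub_coe {m : ℕ} (Ω : H) (Y : Fin m → H →L[ℂ] H) :
    (polySub Ω Y : Set H) =
      (fun P : H →L[ℂ] H => P Ω) '' (Algebra.adjoin ℂ (Set.range Y) : Set (H →L[ℂ] H)) := rfl

theorem adjoin_eq_span_words {α A : Type*} [Semiring A] [Algebra ℂ A] (Y : α → A) :
    (Algebra.adjoin ℂ (Set.range Y)).toSubmodule = Submodule.span ℂ (Set.range (wordProd Y)) := by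
  rw [Algebra.adjoin_eq_span]
  congr 1
  ext x
  constructor
  · intro hx
    obtain ⟨l, hl, rfl⟩ := Submonoid.exists_list_of_mem_closure hx
    clear hx
    induction l with
    | nil => exact ⟨[], rfl⟩
    | cons a l ih =>
      obtain ⟨u, hu⟩ := ih fun y hy => hl y (List.mem_cons_of_mem _ hy)
      obtain ⟨i, rfl⟩ := hl a (List.mem_cons_self ..)
      exact ⟨i :: u, by simp [wordProd] at hu ⊢; rw [hu]⟩
  · rintro ⟨w, rfl⟩
    refine Submonoid.list_prod_mem _ fun y hy => ?_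
    obtain ⟨i, -, rfl⟩ := List.mem_map.mp hy
    exact Submonoid.subset_closure ⟨i, rfl⟩

theorem polySub_eq_span {m : ℕ} (Ω : H) (Y : Fin m → H →L[ℂ] H) :
    polySub Ω Y = Submodule.span ℂ (Set.range fun w => wordProd Y w Ω) := by
  rw [polySub, adjoin_eq_span_words, Submodule.map_span, ← Set.range_comp]
  rfl

variable [CompleteSpace H]

/-- The projection onto the closure of the polynomials in `Y` applied to `Ω`. -/
def polyProj {m : ℕ} (Ω : H) (Y : Fin m → H →L[ℂ] H) (v : H) : H :=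
  haveI : CompleteSpace (polySub Ω Y).topologicalClosure :=
    (polySub Ω Y).isClosed_topologicalClosure.completeSpace_coe
  (polySub Ω Y).topologicalClosure.starProjection v

theorem polyProj_mem {m : ℕ} (Ω : H) (Y : Fin m → H →L[ℂ] H) (v : H) :
    polyProj Ω Y v ∈ closure (polySub Ω Y : Set H) := by
  rw [← Submodule.topologicalClosure_coe]
  exact Submodule.starProjection_apply_mem _ _

theorem polyProj_inner {m : ℕ} (Ω : H) (Y : Fin m → H →L[ℂ] H) (v w : H)
    (hw : w ∈ closure (polySub Ω Y : Set H)) : ⟪polyProj Ω Y v, w⟫_ℂ = ⟪v, w⟫_ℂ := by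
  rw [← Submodule.topologicalClosure_coe] at hw
  haveI : CompleteSpace (polySub Ω Y).topologicalClosure :=
    (polySub Ω Y).isClosed_topologicalClosure.completeSpace_coe
  have h := Submodule.starProjection_inner_eq_zero v w (show w ∈ _ from hw)
  rw [inner_sub_left, sub_eq_zero] at h
  exact h.symm

theorem norm_polyProj_le {m : ℕ} (Ω : H) (Y : Fin m → H →L[ℂ] H) (v : H) :
    ‖polyProj Ω Y v‖ ≤ ‖v‖ :=
  Submodule.norm_starProjection_apply_le _ _

/-- A bound on a functional over the polynomials bounds the projection. -/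
theorem sq_norm_polyProj_le {m : ℕ} (Ω : H) (Y : Fin m → H →L[ℂ] H) (v : H) (B : ℝ) (hB : 0 ≤ B)
    (h : ∀ N : ℕ, ∃ u : H, ‖u‖ ^ 2 ≤ B ∧ ∀ w : List (Fin m), w.length ≤ N →
      ⟪u, wordProd Y w Ω⟫_ℂ = ⟪v, wordProd Y w Ω⟫_ℂ) :
    ‖polyProj Ω Y v‖ ^ 2 ≤ B := by
  have hspan : ∀ y ∈ polySub Ω Y, ∃ N : ℕ, ∀ u : H, (∀ w : List (Fin m), w.length ≤ N →
      ⟪u, wordProd Y w Ω⟫_ℂ = ⟪v, wordProd Y w Ω⟫_ℂ) → ⟪u, y⟫_ℂ = ⟪v, y⟫_ℂ := by
    intro y hy
    rw [polySub_eq_span] at hy
    induction hy using Submodule.span_induction with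
    | mem x hx => obtain ⟨w, rfl⟩ := hx; exact ⟨w.length, fun u hu => hu w le_rfl⟩
    | zero => exact ⟨0, by simp⟩
    | add x y _ _ hx hy =>
      obtain ⟨N, hN⟩ := hx
      obtain ⟨M, hM⟩ := hy
      exact ⟨max N M, fun u hu => by
        rw [inner_add_right, inner_add_right, hN u fun w hw => hu w (by omega),
          hM u fun w hw => hu w (by omega)]⟩
    | smul a x _ hx =>
      obtain ⟨N, hN⟩ := hx
      exact ⟨N, fun u hu => by rw [inner_smul_right, inner_smul_right, hN u hu]⟩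
  have hb : ∀ y ∈ closure (polySub Ω Y : Set H), ‖⟪v, y⟫_ℂ‖ ≤ Real.sqrt B * ‖y‖ := by
    intro y hy
    refine le_on_closure (fun x hx => ?_) ((continuous_const.inner continuous_id).norm.continuousOn)
      ((continuous_const.mul continuous_norm).continuousOn) hy
    obtain ⟨N, hN⟩ := hspan x hx
    obtain ⟨u, hu, huw⟩ := h N
    rw [← hN u huw]
    refine (norm_inner_le_norm u x).trans (mul_le_mul_of_nonneg_right ?_ (norm_nonneg _))
    exact Real.le_sqrt_of_sq_le hu
  have h1 := hb _ (polyProj_mem Ω Y v)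
  rw [← polyProj_inner Ω Y v _ (polyProj_mem Ω Y v), inner_self_eq_norm_sq_to_K] at h1
  simp only [norm_pow, RCLike.norm_ofReal, abs_norm] at h1
  nlinarith [Real.sq_sqrt hB, norm_nonneg (polyProj Ω Y v), Real.sqrt_nonneg B]

variable {n : ℕ} (Ω : H) (Z : L3 n → H →L[ℂ] H) (s : Fin n → ℝ)

/-- The operators `Y` at time `t`, written in the original letters. -/
def yPlain (t : ℝ) (i : Fin n) : H →L[ℂ] H :=
  (Z (Sum.inl i) + (s i : ℂ) • Z (Sum.inr (Sum.inl i))) +
    (Real.sqrt t : ℂ) • Z (Sum.inr (Sum.inr i))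

theorem yOp_eq {t : ℝ} (ht : 0 < t) (i : Fin n) : yOp Z s t i = yPlain Z s t i := by
  have hv : (Real.sqrt (flowVar s t i) : ℂ) ≠ 0 := by
    exact_mod_cast (Real.sqrt_pos.2 (flowVar_pos s ht i)).ne'
  simp [yOp, yPlain, yCoef, flowOp, flowCoef, Fintype.sum_sum_type, smul_smul, smul_add,
    mul_div_cancel₀ _ hv, Finset.sum_add_distrib, add_assoc]

/-- The conjugate variable at time `t`. -/
def xi (t : ℝ) (j : Fin n) : H :=
  ((Real.sqrt (flowVar s t j))⁻¹ : ℂ) •
    polyProj Ω (yOp Z s t) (flowOp Z s t (Sum.inr j) Ω)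

variable {Ω Z s}
variable (μ : List (Fin n) → ℂ) (hμ : μ [] = 1) (hZ : ∀ w, moments Ω Z w = law μ w)
  (hsa : ∀ l, IsSelfAdjoint (Z l)) {t : ℝ} (ht : 0 < t)
include hμ hZ hsa ht

theorem noise_inner_y (j : Fin n) (w : List (Fin n)) :
    ⟪flowOp Z s t (Sum.inr j) Ω, wordProd (yOp Z s t) w Ω⟫_ℂ =
      (Real.sqrt (flowVar s t j) : ℂ) * splitSum (yLaw μ s t) j w := by
  have h := wick_inner_y μ hμ hZ hsa ht [j] w (Z := Z) (Ω := Ω) (s := s)
  have hw : wick Z s t [j] = flowOp Z s t (Sum.inr j) := rfl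
  rw [hw] at h
  rw [h, List.map_singleton, List.prod_singleton, gapSum_first]
  congr 1
  simp only [reduceCtorEq, if_false, List.nil_eq, zero_mul, zero_add, List.nil_append, splitSum]
  have hz : ∀ v : List (Fin n),
      gapSum (yLaw μ s t) dlt [] v (fun _ : List (Fin n) => (0 : ℂ)) = 0 := fun v => by
    simpa using gapSum_const_mul (yLaw μ s t) dlt 0 v [] (fun _ : List (Fin n) => (0 : ℂ))
  have h1 : ∀ v : List (Fin n),
      gapSum (yLaw μ s t) dlt [] v (fun K => if K = [] then (1 : ℂ) else 0) = yLaw μ s t v := by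
    intro v
    rw [gapSum_first]
    simp [hz]
  refine Finset.sum_congr rfl fun q _ => ?_
  rcases w[q]? with _ | a
  · simp
  · rw [Finset.sum_eq_single j]
    · simp only [Option.elim_some, dlt, List.cons.injEq, true_and, h1, Option.some_inj]
      split_ifs <;> simp
    · intro i _ hi
      simp [hi, hz]
    · simp

theorem xi_isConjugate (j : Fin n) : IsConjugate Ω (yOp Z s t) j (xi Ω Z s t j) := by
  constructor
  · rw [← polySub_coe, ← Submodule.topologicalClosure_coe]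
    exact Submodule.smul_mem _ _ (Submodule.starProjection_apply_mem _ _)
  · intro w
    have hw : wordProd (yOp Z s t) w Ω ∈ closure (polySub Ω (yOp Z s t) : Set H) := by
      refine subset_closure ?_
      rw [polySub_eq_span]
      exact Submodule.subset_span ⟨w, rfl⟩
    have hv : (Real.sqrt (flowVar s t j) : ℂ) ≠ 0 := by
      exact_mod_cast (Real.sqrt_pos.2 (flowVar_pos s ht j)).ne'
    rw [xi, inner_smul_left, polyProj_inner _ _ _ _ hw, noise_inner_y μ hμ hZ hsa ht, map_inv₀,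
      Complex.conj_ofReal, ← mul_assoc, inv_mul_cancel₀ hv, one_mul]
    congr 1
    funext u
    exact (moments_yOp Ω Z s t μ hZ u).symm

theorem noise_norm (j : Fin n) : ‖flowOp Z s t (Sum.inr j) Ω‖ = 1 := by
  have h := wick_orthonormal μ hμ hZ hsa ht [j] [j] (Z := Z) (Ω := Ω) (s := s)
  have hw : wick Z s t [j] = flowOp Z s t (Sum.inr j) := rfl
  rw [hw, if_pos rfl, inner_self_eq_norm_sq_to_K] at h
  have h2 : ‖flowOp Z s t (Sum.inr j) Ω‖ ^ 2 = 1 := by
    simpa [pow_two] using congrArg Complex.re h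
  nlinarith [norm_nonneg (flowOp Z s t (Sum.inr j) Ω)]

theorem x_norm_sq (j : Fin n) : ‖Z (Sum.inl j) Ω‖ ^ 2 = (μ [j, j]).re := by
  have h := hZ [Sum.inl j, Sum.inl j]
  have h2 := law_inl (σ := Fin n ⊕ Fin n) μ [j, j]
  simp only [List.map_cons, List.map_nil] at h2
  rw [h2] at h
  rw [← h]
  simp only [moments, vstate, wordProd, List.map_cons, List.map_nil, List.prod_cons,
    List.prod_nil, mul_one, ContinuousLinearMap.mul_apply]
  rw [← inner_selfAdjoint (hsa _), inner_self_eq_norm_sq_to_K]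
  norm_cast

theorem x_inner_noise (j : Fin n) :
    ⟪Z (Sum.inl j) Ω, flowOp Z s t (Sum.inr j) Ω⟫_ℂ = 0 := by
  have hf : flowOp Z s t (Sum.inl j) = Z (Sum.inl j) := by simp [flowOp, flowCoef]
  have h := moments_flowOp Ω Z s t μ hZ [Sum.inl j, Sum.inr j]
  have h2 := flowLaw_sd μ s ht [j] j []
  simp only [List.map_cons, List.map_nil, List.singleton_append, List.length_nil,
    Finset.range_zero, Finset.sum_empty] at h2
  rw [h2] at h
  rw [inner_selfAdjoint (hsa _), ← h]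
  simp [moments, vstate, wordProd, hf]

theorem xi_norm_le (j : Fin n) : ‖xi Ω Z s t j‖ ^ 2 ≤ 1 / flowVar s t j := by
  have hv := flowVar_pos s ht j
  have h1 := norm_polyProj_le Ω (yOp Z s t) (flowOp Z s t (Sum.inr j) Ω)
  rw [noise_norm μ hμ hZ hsa ht] at h1
  rw [xi, norm_smul, norm_inv, Complex.norm_real, Real.norm_eq_abs,
    abs_of_nonneg (Real.sqrt_nonneg _), mul_pow, inv_pow, Real.sq_sqrt hv.le, one_div]
  refine mul_le_of_le_one_right (inv_nonneg.mpr hv.le) ?_
  nlinarith [norm_nonneg (polyProj Ω (yOp Z s t) (flowOp Z s t (Sum.inr j) Ω))]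

theorem yOp_apply (j : Fin n) : yOp Z s t j Ω =
    Z (Sum.inl j) Ω + (Real.sqrt (flowVar s t j) : ℂ) • flowOp Z s t (Sum.inr j) Ω := by
  have hf : flowOp Z s t (Sum.inl j) = Z (Sum.inl j) := by simp [flowOp, flowCoef]
  simp [yOp, yCoef, Fintype.sum_sum_type, hf]

theorem y_norm_sq (j : Fin n) :
    ‖yOp Z s t j Ω‖ ^ 2 = (μ [j, j]).re + flowVar s t j := by
  rw [yOp_apply μ hμ hZ hsa ht, @norm_add_sq ℂ, inner_smul_right, x_inner_noise μ hμ hZ hsa ht,
    norm_smul, noise_norm μ hμ hZ hsa ht, x_norm_sq μ hμ hZ hsa ht]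
  simp [Real.sq_sqrt (flowVar_pos s ht j).le]

theorem y_mem (j : Fin n) : yOp Z s t j Ω ∈ closure (polySub Ω (yOp Z s t) : Set H) :=
  subset_closure ⟨yOp Z s t j, Algebra.subset_adjoin ⟨j, rfl⟩, rfl⟩

theorem xi_norm_ge (j : Fin n) :
    1 / ((μ [j, j]).re + flowVar s t j) ≤ ‖xi Ω Z s t j‖ ^ 2 := by
  have h := (xi_isConjugate (s := s) μ hμ hZ hsa ht j).2 [j]
  have h0 : moments Ω (yOp Z s t) [] = 1 := by
    rw [moments_yOp Ω Z s t μ hZ]
    simpa [yLaw, expand, hμ] using flowLaw_inl μ s t []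
  simp [splitSum, wordProd, h0] at h
  have h1 := norm_inner_le_norm (𝕜 := ℂ) (xi Ω Z s t j) (yOp Z s t j Ω)
  rw [h, norm_one] at h1
  have hm : 0 ≤ (μ [j, j]).re := by
    rw [← x_norm_sq μ hμ hZ hsa ht]; positivity
  have hy := y_norm_sq (s := s) μ hμ hZ hsa ht j
  rw [div_le_iff₀ (by linarith [flowVar_pos s ht j]), ← hy, ← mul_pow]
  nlinarith

theorem xi_norm_sq_eq (j : Fin n) : ‖xi Ω Z s t j‖ ^ 2 = (flowVar s t j - (μ [j, j]).re +
    ‖polyProj Ω (yOp Z s t) (Z (Sum.inl j) Ω)‖ ^ 2) / flowVar s t j ^ 2 := by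
  have hv := flowVar_pos s ht j
  set r := Real.sqrt (flowVar s t j)
  have hr : r ≠ 0 := (Real.sqrt_pos.2 hv).ne'
  set S' := flowOp Z s t (Sum.inr j) Ω
  set x := Z (Sum.inl j) Ω
  set y := yOp Z s t j Ω
  set px := polyProj Ω (yOp Z s t) x
  have hS : (r : ℂ) • polyProj Ω (yOp Z s t) S' = y - px := by
    have hlin : polyProj Ω (yOp Z s t) y =
        px + (r : ℂ) • polyProj Ω (yOp Z s t) S' := by
      simp [y, yOp_apply μ hμ hZ hsa ht, polyProj, map_add, map_smul, px, x, S', r]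
    have hself : polyProj Ω (yOp Z s t) y = y := by
      refine (Submodule.starProjection_eq_self_iff).mpr ?_
      rw [← SetLike.mem_coe, Submodule.topologicalClosure_coe]
      exact y_mem μ hμ hZ hsa ht j
    rw [hself] at hlin
    rw [hlin]; abel
  have hxi : xi Ω Z s t j = ((r ^ 2)⁻¹ : ℂ) • (y - px) := by
    rw [← hS, smul_smul, xi]
    congr 1
    have : (r : ℂ) ≠ 0 := by exact_mod_cast hr
    field_simp
    exact div_self this
  have hyp : RCLike.re ⟪y, px⟫_ℂ = (μ [j, j]).re := by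
    rw [inner_re_symm, polyProj_inner _ _ _ _ (y_mem μ hμ hZ hsa ht j),
      yOp_apply μ hμ hZ hsa ht, inner_add_right,
      inner_smul_right, x_inner_noise μ hμ hZ hsa ht, mul_zero, add_zero,
      inner_self_eq_norm_sq_to_K, ← RCLike.ofReal_pow, RCLike.ofReal_re,
      x_norm_sq μ hμ hZ hsa ht]
  rw [hxi, norm_smul, mul_pow, @norm_sub_sq ℂ, hyp, y_norm_sq μ hμ hZ hsa ht, norm_inv, norm_pow,
    Complex.norm_real, Real.norm_eq_abs, sq_abs, Real.sq_sqrt hv.le]
  ring

omit ht in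
/-- Measurability of the norms of the conjugate variables. -/
theorem xi_measurable (j : Fin n) :
    AEStronglyMeasurable (fun t => ‖xi Ω Z s t j‖ ^ 2) (volume.restrict (Set.Ioi 0)) := by
  classical
  let x := Z (Sum.inl j) Ω
  let q : (List (Fin n) →₀ ℂ) → ℝ → H := fun c t =>
    ∑ w ∈ c.support, c w • wordProd (yPlain Z s t) w Ω
  let g : ℝ → ℝ := fun t => ⨆ c, (2 * RCLike.re ⟪x, q c t⟫_ℂ - ‖q c t‖ ^ 2)
  have hcw : ∀ w, Continuous fun t => wordProd (yPlain Z s t) w := by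
    intro w
    induction w with
    | nil => simpa [wordProd] using continuous_const
    | cons i w ih =>
      have h1 : Continuous fun t : ℝ => yPlain Z s t i := by
        unfold yPlain; fun_prop
      simpa [wordProd, Pi.mul_def] using h1.mul ih
  have hq : ∀ c, Continuous (q c) := fun c => continuous_finsetSum _ fun w _ =>
    ((ContinuousLinearMap.apply ℂ H Ω).continuous.comp (hcw w)).const_smul (c w)
  have hbd : ∀ (c : List (Fin n) →₀ ℂ) t, 2 * RCLike.re ⟪x, q c t⟫_ℂ - ‖q c t‖ ^ 2 ≤ ‖x‖ ^ 2 := by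
    intro c t
    nlinarith [sq_nonneg (‖x‖ - ‖q c t‖), re_inner_le_norm (𝕜 := ℂ) x (q c t)]
  have hlsc : LowerSemicontinuous g := lowerSemicontinuous_ciSup
    (fun t => ⟨‖x‖ ^ 2, by rintro _ ⟨c, rfl⟩; exact hbd c t⟩)
    fun c => ((continuous_const.mul
      (RCLike.continuous_re.comp (continuous_const.inner (hq c)))).sub
      ((hq c).norm.pow 2)).lowerSemicontinuous
  have hg : ∀ t, 0 < t → g t = ‖polyProj Ω (yOp Z s t) x‖ ^ 2 := by
    intro t ht
    have hY : yOp Z s t = yPlain Z s t := funext (yOp_eq Z s ht)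
    set px := polyProj Ω (yOp Z s t) x
    have hin : ∀ c, q c t ∈ polySub Ω (yOp Z s t) := fun c => by
      rw [polySub_eq_span]
      refine Submodule.sum_mem _ fun w _ => Submodule.smul_mem _ _ (Submodule.subset_span ⟨w, ?_⟩)
      simp [hY]
    apply le_antisymm
    · refine ciSup_le fun c => ?_
      rw [← polyProj_inner Ω (yOp Z s t) x _ (subset_closure (hin c))]
      nlinarith [sq_nonneg (‖px‖ - ‖q c t‖), re_inner_le_norm (𝕜 := ℂ) px (q c t)]
    · have hcl : IsClosed {y : H | 2 * RCLike.re ⟪x, y⟫_ℂ - ‖y‖ ^ 2 ≤ g t} :=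
        isClosed_le (by fun_prop) continuous_const
      have hsub : (polySub Ω (yOp Z s t) : Set H) ⊆
          {y : H | 2 * RCLike.re ⟪x, y⟫_ℂ - ‖y‖ ^ 2 ≤ g t} := by
        intro y hy
        rw [SetLike.mem_coe, polySub_eq_span, Finsupp.mem_span_range_iff_exists_finsupp] at hy
        obtain ⟨c, rfl⟩ := hy
        have := le_ciSup (f := fun c => 2 * RCLike.re ⟪x, q c t⟫_ℂ - ‖q c t‖ ^ 2)
          ⟨‖x‖ ^ 2, by rintro _ ⟨c, rfl⟩; exact hbd c t⟩ c
        simpa [Finsupp.sum, q, hY, g] using this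
      have h := closure_minimal hsub hcl (polyProj_mem Ω (yOp Z s t) x)
      simp only [Set.mem_setOf_eq] at h
      rw [← polyProj_inner Ω (yOp Z s t) x _ (polyProj_mem Ω (yOp Z s t) x),
        inner_self_eq_norm_sq_to_K, ← RCLike.ofReal_pow, RCLike.ofReal_re] at h
      linarith
  have hm : Measurable fun t => (flowVar s t j - (μ [j, j]).re + g t) / flowVar s t j ^ 2 := by
    have hgm : Measurable g := hlsc.measurable
    unfold flowVar
    fun_prop
  refine hm.aestronglyMeasurable.congr ?_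
  filter_upwards [ae_restrict_mem measurableSet_Ioi] with t ht
  rw [hg t ht, xi_norm_sq_eq μ hμ hZ hsa ht j]

theorem xi_norm_le_of_estimator (j : Fin n) (ζ : List (Fin n) → ℂ)
    (hζ : ∀ w, μ (j :: w) = gapSum μ dlt [] w ζ)
    (hsum : Summable fun k => gradeSq ζ k / t ^ k) :
    ‖xi Ω Z s t j‖ ^ 2 ≤ 1 / flowVar s t j -
      ((μ [j, j]).re - ∑' k, gradeSq ζ k / t ^ k) / flowVar s t j ^ 2 := by
  have hv := flowVar_pos s ht j
  have hnn : ∀ k, 0 ≤ gradeSq ζ k / t ^ k := fun k => by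
    rw [gradeSq_eq_sum]; positivity
  have hp := sq_norm_polyProj_le Ω (yOp Z s t) (Z (Sum.inl j) Ω) _ (tsum_nonneg hnn) fun N => by
    obtain ⟨u, hu, huw⟩ := exists_estimator μ hμ hZ hsa ht j ζ hζ N (Z := Z) (Ω := Ω) (s := s)
    exact ⟨u, hu.trans (hsum.sum_le_tsum _ fun k _ => hnn k), huw⟩
  rw [xi_norm_sq_eq μ hμ hZ hsa ht, one_div, sub_div]
  have e : flowVar s t j / flowVar s t j ^ 2 = (flowVar s t j)⁻¹ := by field_simp
  rw [add_div, sub_div, e]
  have := div_le_div_of_nonneg_right hp (sq_nonneg (flowVar s t j))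
  linarith

end

end Vale.Agent.P087
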