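import Mathlib
import Vale.Agent.P087.Basic

/-!
# P087: consequences of the Schwinger-Dyson equations
-/

namespace Vale.Agent.P087

open scoped InnerProductSpace

noncomputable section

namespace Free

variable {n : ℕ} {L H : Type} [NormedAddCommGroup H] [InnerProductSpace ℂ H]
  (Ω : H) (Z : L → H →L[ℂ] H) (s : Fin n → L)

omit [NormedAddCommGroup H] in
lemma wordProd_append {M : Type*} [Monoid M] (Y : L → M) (u v : List L) :
    wordProd Y (u ++ v) = wordProd Y u * wordProd Y v := by
  simp [wordProd]

lemma vs_add (A B : H →L[ℂ] H) : vstate Ω (A + B) = vstate Ω A + vstate Ω B := by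
  simp [vstate, inner_add_right]

lemma vs_smul (c : ℂ) (A : H →L[ℂ] H) : vstate Ω (c • A) = c * vstate Ω A := by
  simp [vstate, inner_smul_right]

lemma vs_zero : vstate Ω (0 : H →L[ℂ] H) = 0 := by
  simp [vstate]

lemma vs_one (hΩ : ‖Ω‖ = 1) : vstate Ω (1 : H →L[ℂ] H) = 1 := by
  simp [vstate, hΩ]

/-- Evaluation of a formal combination of words. -/
def ev (d : List (ℂ × List L)) : H →L[ℂ] H := (d.map fun p => p.1 • wordProd Z p.2).sum

/-- Product of formal combinations. -/
def mulRep (d e : List (ℂ × List L)) : List (ℂ × List L) :=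
  d.flatMap fun p => e.map fun q => (p.1 * q.1, p.2 ++ q.2)

@[simp] lemma ev_nil : ev Z [] = 0 := rfl

@[simp] lemma ev_cons (p : ℂ × List L) (d : List (ℂ × List L)) :
    ev Z (p :: d) = p.1 • wordProd Z p.2 + ev Z d := rfl

lemma ev_append (d e : List (ℂ × List L)) : ev Z (d ++ e) = ev Z d + ev Z e := by
  simp [ev]

lemma ev_smul_word (a : ℂ) (u : List L) (e : List (ℂ × List L)) :
    ev Z (e.map fun q => (a * q.1, u ++ q.2)) = (a • wordProd Z u) * ev Z e := by
  induction e with
  | nil => simp
  | cons q e ih => simp [ih, mul_add, wordProd_append, smul_smul, mul_comm]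

lemma ev_mulRep (d e : List (ℂ × List L)) : ev Z (mulRep d e) = ev Z d * ev Z e := by
  induction d with
  | nil => simp [mulRep]
  | cons p d ih =>
    rw [mulRep, List.flatMap_cons, ev_append, ← mulRep, ih, ev_smul_word, ev_cons, add_mul]

lemma vs_ev_mul (d : List (ℂ × List L)) (W : H →L[ℂ] H) :
    vstate Ω (ev Z d * W) = (d.map fun p => p.1 * vstate Ω (wordProd Z p.2 * W)).sum := by
  induction d with
  | nil => simp [vs_zero]
  | cons p d ih => simp [add_mul, vs_add, vs_smul, ih, smul_mul_assoc]

lemma ev_mem (d : List (ℂ × List L)) : ev Z d ∈ Algebra.adjoin ℂ (Set.range Z) := by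
  refine Subalgebra.list_sum_mem _ fun M hM => ?_
  obtain ⟨p, _, rfl⟩ := List.mem_map.mp hM
  refine Subalgebra.smul_mem _ (Subalgebra.list_prod_mem _ fun N hN => ?_) _
  obtain ⟨l, _, rfl⟩ := List.mem_map.mp hN
  exact Algebra.subset_adjoin ⟨l, rfl⟩

/-- Representation of elements of an algebra generated by a set of letters. -/
lemma exists_rep (S : Set L) {T : H →L[ℂ] H} (hT : T ∈ Algebra.adjoin ℂ (Z '' S)) :
    ∃ d : List (ℂ × List L), T = ev Z d ∧ ∀ p ∈ d, ∀ l ∈ p.2, l ∈ S := by
  induction hT using Algebra.adjoin_induction with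
  | mem x hx =>
    obtain ⟨l, hl, rfl⟩ := hx
    exact ⟨[(1, [l])], by simp [wordProd], by simp [hl]⟩
  | algebraMap c => exact ⟨[(c, [])], by simp [wordProd, Algebra.algebraMap_eq_smul_one], by simp⟩
  | add x y _ _ hx hy =>
    obtain ⟨d, rfl, hd⟩ := hx
    obtain ⟨e, rfl, he⟩ := hy
    refine ⟨d ++ e, (ev_append Z d e).symm, fun p hp => ?_⟩
    rcases List.mem_append.mp hp with h | h
    · exact hd p h
    · exact he p h
  | mul x y _ _ hx hy =>
    obtain ⟨d, rfl, hd⟩ := hx
    obtain ⟨e, rfl, he⟩ := hy
    refine ⟨mulRep d e, (ev_mulRep Z d e).symm, fun p hp l hl => ?_⟩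
    obtain ⟨a, ha, hp⟩ := List.mem_flatMap.mp hp
    obtain ⟨b, hb, rfl⟩ := List.mem_map.mp hp
    rcases List.mem_append.mp hl with h | h
    · exact hd a ha l h
    · exact he b hb l h

/-- The letters of a factor. -/
def allowed : Option (Fin n) → Set L
  | none => (Set.range s)ᶜ
  | some i => {s i}

/-- The algebra of a factor. -/
def alg (o : Option (Fin n)) : Subalgebra ℂ (H →L[ℂ] H) := Algebra.adjoin ℂ (Z '' allowed s o)

/-- The product of a list of factors. -/
def prodL (W : List (Option (Fin n) × (H →L[ℂ] H))) : H →L[ℂ] H := (W.map Prod.snd).prod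

omit [InnerProductSpace ℂ H] in
lemma allowed_not (i : Fin n) (hs : Function.Injective s) {o : Option (Fin n)}
    (ho : o ≠ some i) : s i ∉ allowed s o := by
  cases o with
  | none => simp [allowed]
  | some k =>
    intro h
    exact ho (by rw [hs (Set.mem_singleton_iff.mp h)])

/-- Alternating centred lists. -/
def Good (W : List (Option (Fin n) × (H →L[ℂ] H))) : Prop :=
  (∀ a ∈ W, a.2 ∈ alg Z s a.1 ∧ vstate Ω a.2 = 0) ∧ W.IsChain (fun a b => a.1 ≠ b.1)

lemma alg_le (o : Option (Fin n)) : alg Z s o ≤ Algebra.adjoin ℂ (Set.range Z) :=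
  Algebra.adjoin_mono (Set.image_subset_range _ _)

lemma prodL_mem {W : List (Option (Fin n) × (H →L[ℂ] H))} (hW : ∀ a ∈ W, a.2 ∈ alg Z s a.1) :
    prodL W ∈ Algebra.adjoin ℂ (Set.range Z) := by
  refine Subalgebra.list_prod_mem _ fun M hM => ?_
  obtain ⟨a, ha, rfl⟩ := List.mem_map.mp hM
  exact alg_le Z s _ (hW a ha)

@[simp] lemma prodL_nil : prodL ([] : List (Option (Fin n) × (H →L[ℂ] H))) = 1 := rfl

@[simp] lemma prodL_cons (a : Option (Fin n) × (H →L[ℂ] H))
    (W : List (Option (Fin n) × (H →L[ℂ] H))) : prodL (a :: W) = a.2 * prodL W := by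
  simp [prodL]

lemma prodL_append (V W : List (Option (Fin n) × (H →L[ℂ] H))) :
    prodL (V ++ W) = prodL V * prodL W := by
  simp [prodL]

section Split

variable [DecidableEq L]

/-- Splits at `j` inside the word `u` of `u W`. -/
def splitW (j : L) (u : List L) (W : H →L[ℂ] H) : ℂ :=
  ∑ l ∈ Finset.range u.length, if u[l]? = some j then
    vstate Ω (wordProd Z (u.take l)) * vstate Ω (wordProd Z (u.drop (l + 1)) * W) else 0

lemma splitW_append (j : L) (u v : List L) (W : H →L[ℂ] H) :
    splitW Ω Z j (u ++ v) W = splitW Ω Z j u (wordProd Z v * W) +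
      ∑ l ∈ Finset.range v.length, if v[l]? = some j then
        vstate Ω (wordProd Z u * wordProd Z (v.take l)) *
          vstate Ω (wordProd Z (v.drop (l + 1)) * W) else 0 := by
  rw [splitW, List.length_append, Finset.sum_range_add]
  congr 1
  · refine Finset.sum_congr rfl fun l hl => ?_
    have hl' := Finset.mem_range.mp hl
    rw [List.getElem?_append_left hl', List.take_append_of_le_length hl'.le,
      List.drop_append_of_le_length (by omega), wordProd_append, mul_assoc]
  · refine Finset.sum_congr rfl fun l _ => ?_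
    rw [List.getElem?_append_right (by omega), List.take_length_add_append, add_assoc,
      List.drop_length_add_append, wordProd_append]
    simp

lemma sum_map_zero {α : Type*} (d : List α) (f : α → ℂ) (h : ∀ p ∈ d, f p = 0) :
    (d.map f).sum = 0 :=
  List.sum_eq_zero fun x hx => by
    obtain ⟨p, hp, rfl⟩ := List.mem_map.mp hx
    exact h p hp

/-- If all splits inside the factors vanish, only those inside the prefix remain. -/
theorem sd_prefix {i : Fin n} (hs : Function.Injective s) (hsd : SDRel Ω Z (s i)) :
    ∀ (W : List (Option (Fin n) × (H →L[ℂ] H))), (∀ a ∈ W, a.2 ∈ alg Z s a.1) →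
    ∀ d : List (ℂ × List L),
    (∀ P T Q, W = P ++ (some i, T) :: Q → ∀ a b : ℕ,
      vstate Ω (ev Z d * prodL P * Z (s i) ^ a) * vstate Ω (Z (s i) ^ b * prodL Q) = 0) →
    vstate Ω (Z (s i) * (ev Z d * prodL W)) =
      (d.map fun p => p.1 * splitW Ω Z (s i) p.2 (prodL W)).sum := by
  intro W
  induction W with
  | nil =>
    intro _ d hz
    clear hz
    induction d with
    | nil => simp [vs_zero]
    | cons p d ih =>
      simp only [prodL_nil, mul_one] at ih ⊢
      rw [ev_cons, mul_add, vs_add, mul_smul_comm, vs_smul, ih, List.map_cons, List.sum_cons]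
      congr 2
      have := hsd p.2
      simp only [moments, splitSum, wordProd, List.map_cons, List.prod_cons] at this
      simpa [splitW, wordProd] using this
  | cons a W ih =>
    intro hW d hz
    obtain ⟨o, T⟩ := a
    obtain ⟨e, rfl, he⟩ := exists_rep Z _ (hW (o, T) (List.mem_cons_self ..))
    rw [prodL_cons, ← mul_assoc (ev Z d), ← ev_mulRep,
      ih (fun b hb => hW b (List.mem_cons_of_mem _ hb)) (mulRep d e) (fun P U Q hPQ a b => by
        have := hz ((o, ev Z e) :: P) U Q (by rw [hPQ]; rfl) a b
        rwa [prodL_cons, ← mul_assoc (ev Z d), ← ev_mulRep] at this)]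
    have hE : ∀ (a : ℂ) (u : List L),
        ((e.map fun q => (a * q.1, u ++ q.2)).map
          fun p => p.1 * splitW Ω Z (s i) p.2 (prodL W)).sum =
        a * (e.map fun q => q.1 * splitW Ω Z (s i) u (wordProd Z q.2 * prodL W)).sum +
        a * (e.map fun q => q.1 * ∑ l ∈ Finset.range q.2.length, if q.2[l]? = some (s i) then
          vstate Ω (wordProd Z u * wordProd Z (q.2.take l)) *
            vstate Ω (wordProd Z (q.2.drop (l + 1)) * prodL W) else 0).sum := by
      intro a u
      clear he hW hz
      induction e with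
      | nil => simp
      | cons q e ihe =>
        simp only [List.map_cons, List.sum_cons, ihe, splitW_append]
        ring
    have hlin : ∀ u : List L,
        (e.map fun q => q.1 * splitW Ω Z (s i) u (wordProd Z q.2 * prodL W)).sum =
          splitW Ω Z (s i) u (ev Z e * prodL W) := by
      intro u
      clear he hW hz hE
      induction e with
      | nil => simp [splitW, vs_zero]
      | cons q e ihe =>
        rw [List.map_cons, List.sum_cons, ihe, splitW, splitW, splitW, Finset.mul_sum,
          ← Finset.sum_add_distrib]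
        refine Finset.sum_congr rfl fun l _ => ?_
        split_ifs
        · rw [ev_cons, add_mul, mul_add, vs_add, smul_mul_assoc, mul_smul_comm, vs_smul]
          ring
        · ring
    have hsum : ((mulRep d e).map fun p => p.1 * splitW Ω Z (s i) p.2 (prodL W)).sum =
        (d.map fun p => p.1 * splitW Ω Z (s i) p.2 (ev Z e * prodL W)).sum +
        (e.map fun q => q.1 * ∑ l ∈ Finset.range q.2.length, if q.2[l]? = some (s i) then
          vstate Ω (ev Z d * wordProd Z (q.2.take l)) *
            vstate Ω (wordProd Z (q.2.drop (l + 1)) * prodL W) else 0).sum := by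
      clear hz ih hW
      induction d with
      | nil => simp [mulRep, vs_zero]
      | cons p d ihd =>
        rw [mulRep, List.flatMap_cons, ← mulRep, List.map_append, List.sum_append, ihd, hE, hlin,
          List.map_cons, List.sum_cons]
        have : (e.map fun q => q.1 * ∑ l ∈ Finset.range q.2.length, if q.2[l]? = some (s i) then
            vstate Ω (ev Z (p :: d) * wordProd Z (q.2.take l)) *
              vstate Ω (wordProd Z (q.2.drop (l + 1)) * prodL W) else 0).sum =
            p.1 * (e.map fun q => q.1 * ∑ l ∈ Finset.range q.2.length,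
              if q.2[l]? = some (s i) then
              vstate Ω (wordProd Z p.2 * wordProd Z (q.2.take l)) *
                vstate Ω (wordProd Z (q.2.drop (l + 1)) * prodL W) else 0).sum +
            (e.map fun q => q.1 * ∑ l ∈ Finset.range q.2.length, if q.2[l]? = some (s i) then
              vstate Ω (ev Z d * wordProd Z (q.2.take l)) *
                vstate Ω (wordProd Z (q.2.drop (l + 1)) * prodL W) else 0).sum := by
          rw [← List.sum_map_mul_left, ← List.sum_map_add]
          congr 1
          refine List.map_congr_left fun q _ => ?_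
          rw [Finset.mul_sum, Finset.mul_sum, Finset.mul_sum, Finset.mul_sum,
            ← Finset.sum_add_distrib]
          refine Finset.sum_congr rfl fun l _ => ?_
          split_ifs
          · rw [ev_cons, add_mul, vs_add, smul_mul_assoc, vs_smul]
            ring
          · ring
        rw [this]
        ring
    rw [hsum, sum_map_zero e _ (fun q hq => ?_), add_zero]
    refine mul_eq_zero_of_right _ (Finset.sum_eq_zero fun l hl => ?_)
    split_ifs with hql
    swap
    · rfl
    have hmem : s i ∈ allowed s o := he q hq _ (List.mem_of_getElem? hql)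
    obtain rfl : o = some i := by
      by_contra ho
      exact allowed_not s i hs ho hmem
    have hrep : ∀ v : List L, (∀ x ∈ v, x = s i) → wordProd Z v = Z (s i) ^ v.length := by
      intro v hv
      rw [List.eq_replicate_of_mem hv]
      simp [wordProd]
    rw [hrep _ fun x hx => Set.mem_singleton_iff.mp (he q hq x (List.mem_of_mem_take hx)),
      hrep _ fun x hx => Set.mem_singleton_iff.mp (he q hq x (List.mem_of_mem_drop hx))]
    have := hz [] (ev Z e) W rfl (q.2.take l).length (q.2.drop (l + 1)).length
    rwa [prodL_nil, mul_one] at this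

theorem sd_pow {i : Fin n} (hs : Function.Injective s) (hsd : SDRel Ω Z (s i))
    (W : List (Option (Fin n) × (H →L[ℂ] H))) (hW : ∀ a ∈ W, a.2 ∈ alg Z s a.1) (k : ℕ)
    (hz : ∀ P T Q, W = P ++ (some i, T) :: Q → ∀ a b : ℕ,
      vstate Ω (Z (s i) ^ k * prodL P * Z (s i) ^ a) * vstate Ω (Z (s i) ^ b * prodL Q) = 0) :
    vstate Ω (Z (s i) ^ (k + 1) * prodL W) =
      ∑ l ∈ Finset.range k,
        vstate Ω (Z (s i) ^ l) * vstate Ω (Z (s i) ^ (k - 1 - l) * prodL W) := by
  have hd : ev Z [((1 : ℂ), List.replicate k (s i))] = Z (s i) ^ k := by simp [wordProd]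
  have := sd_prefix Ω Z s hs hsd W hW [(1, List.replicate k (s i))] (by rwa [hd])
  rw [hd] at this
  rw [pow_succ', mul_assoc, this]
  simp only [List.map_cons, List.map_nil, List.sum_cons, List.sum_nil, add_zero, one_mul, splitW,
    List.length_replicate]
  refine Finset.sum_congr rfl fun l hl => ?_
  have hl' := Finset.mem_range.mp hl
  rw [if_pos (by simp [List.getElem?_replicate, hl']), List.take_replicate, List.drop_replicate,
    min_eq_left hl'.le, show k - (l + 1) = k - 1 - l by omega]
  simp [wordProd]

theorem pow_moments {i : Fin n} (hs : Function.Injective s) (hsd : SDRel Ω Z (s i))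
    (hΩ : ‖Ω‖ = 1) (k : ℕ) :
    vstate Ω (Z (s i) ^ (k + 1)) = ∑ l ∈ Finset.range k,
      vstate Ω (Z (s i) ^ l) * vstate Ω (Z (s i) ^ (k - 1 - l)) := by
  simpa using sd_pow Ω Z s hs hsd [] (by simp) k (by simp)

theorem semicircular {i : Fin n} (hs : Function.Injective s) (hsd : SDRel Ω Z (s i))
    (hΩ : ‖Ω‖ = 1) (r : ℕ) :
    vstate Ω (Z (s i) ^ (2 * r)) = (catalan r : ℂ) ∧
      vstate Ω (Z (s i) ^ (2 * r + 1)) = 0 := by
  induction r using Nat.strong_induction_on with
  | _ r ih =>
    cases r with
    | zero =>
      refine ⟨by simp [vs_one Ω hΩ], ?_⟩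
      rw [show 2 * 0 + 1 = 0 + 1 by rfl, pow_moments Ω Z s hs hsd hΩ 0]
      simp
    | succ r =>
      have hodd : ∀ l, Odd l → l < 2 * (r + 1) → vstate Ω (Z (s i) ^ l) = 0 := by
        rintro l ⟨m, rfl⟩ hl
        exact (ih m (by omega)).2
      constructor
      · rw [show 2 * (r + 1) = 2 * r + 1 + 1 by ring, pow_moments Ω Z s hs hsd hΩ,
          catalan_succ, Nat.cast_sum]
        have hfil : ∑ l ∈ Finset.range (2 * r + 1),
            vstate Ω (Z (s i) ^ l) * vstate Ω (Z (s i) ^ (2 * r + 1 - 1 - l)) =
            ∑ m ∈ Finset.range (r + 1),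
              vstate Ω (Z (s i) ^ (2 * m)) * vstate Ω (Z (s i) ^ (2 * r - 2 * m)) := by
          symm
          refine Finset.sum_bij_ne_zero (fun m _ _ => 2 * m)
            (fun m hm _ => by simp at hm ⊢; omega)
            (fun a _ _ b _ _ h => by simpa using h) (fun l hl hne => ?_) (fun m _ _ => by simp)
          have hl' := Finset.mem_range.mp hl
          rcases Nat.even_or_odd l with ⟨m, hm⟩ | ho
          · exact ⟨m, by simp; omega, by
              simpa [hm, two_mul] using hne, by omega⟩
          · exact absurd (by rw [hodd l ho (by omega), zero_mul]) hne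
        rw [hfil, Finset.sum_range fun m =>
          vstate Ω (Z (s i) ^ (2 * m)) * vstate Ω (Z (s i) ^ (2 * r - 2 * m))]
        refine Finset.sum_congr rfl fun m _ => ?_
        have := m.isLt
        rw [Nat.cast_mul, (ih m (by omega)).1, show 2 * r - 2 * (m : ℕ) = 2 * (r - m) by omega,
          (ih (r - m) (by omega)).1]
      · rw [show 2 * (r + 1) + 1 = (2 * r + 2) + 1 by ring, pow_moments Ω Z s hs hsd hΩ]
        refine Finset.sum_eq_zero fun l hl => ?_
        have hl' := Finset.mem_range.mp hl
        rcases Nat.even_or_odd l with he | ho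
        · rw [hodd (2 * r + 2 - 1 - l) (by
            obtain ⟨m, hm⟩ := he
            exact ⟨r - m, by omega⟩) (by omega), mul_zero]
        · rw [hodd l ho (by omega), zero_mul]

/-- Vanishing of centred alternating products. -/
theorem good_zero (hs : Function.Injective s) (hsd : ∀ i, SDRel Ω Z (s i)) (hΩ : ‖Ω‖ = 1)
    (htr : ∀ P ∈ Algebra.adjoin ℂ (Set.range Z), ∀ Q ∈ Algebra.adjoin ℂ (Set.range Z),
      vstate Ω (P * Q) = vstate Ω (Q * P)) :
    ∀ (m : ℕ) (W : List (Option (Fin n) × (H →L[ℂ] H))), W.length = m → Good Ω Z s W →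
      (W ≠ [] → vstate Ω (prodL W) = 0) ∧
      ∀ i, (∀ a ∈ W.head?, a.1 ≠ some i) → ∀ k : ℕ,
        vstate Ω (Z (s i) ^ k * prodL W) = vstate Ω (Z (s i) ^ k) * vstate Ω (prodL W) := by
  intro m
  induction m using Nat.strong_induction_on with
  | _ m IH =>
  intro W hlen hG
  have hzero : ∀ V, V.length < m → Good Ω Z s V → V ≠ [] → vstate Ω (prodL V) = 0 :=
    fun V hV hGV hne => (IH _ hV V rfl hGV).1 hne
  have hpowmem : ∀ (i : Fin n) (k : ℕ), Z (s i) ^ k ∈ Algebra.adjoin ℂ (Set.range Z) :=
    fun i k => Subalgebra.pow_mem _ (Algebra.subset_adjoin (Set.mem_range_self (s i))) k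
  constructor
  · intro hne
    obtain ⟨⟨o, T⟩, W', rfl⟩ := List.exists_cons_of_ne_nil hne
    rcases List.eq_nil_or_concat' W' with rfl | ⟨P, ⟨o', T'⟩, rfl⟩
    · simpa using (hG.1 (o, T) (List.mem_cons_self ..)).2
    by_cases hoo : o' = o
    · -- the two ends merge
      subst hoo
      have hP : P ≠ [] := by
        rintro rfl
        exact absurd rfl hG.2.rel
      have hgP : Good Ω Z s P := ⟨fun a ha => hG.1 a (by simp [ha]),
        (List.IsChain.tail hG.2).left_of_append⟩
      have hmem : T' * T ∈ alg Z s o' := mul_mem (hG.1 (o', T') (by simp)).1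
        (hG.1 (o', T) (by simp)).1
      have hcy : vstate Ω (prodL ((o', T) :: (P ++ [(o', T')]))) =
          vstate Ω ((T' * T) * prodL P) := by
        simp only [prodL_cons, prodL_append, prodL_nil, mul_one]
        rw [← mul_assoc, htr _ (mul_mem (alg_le Z s o' (hG.1 (o', T) (by simp)).1)
          (prodL_mem Z s fun a ha => (hgP.1 a ha).1)) _
          (alg_le Z s o' (hG.1 (o', T') (by simp)).1), mul_assoc]
      set c := vstate Ω (T' * T) with hc
      let U : Option (Fin n) × (H →L[ℂ] H) := (o', T' * T - c • 1)
      have hgU : Good Ω Z s (U :: P) := by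
        refine ⟨fun a ha => ?_, ?_⟩
        · rcases List.mem_cons.mp ha with rfl | ha
          · refine ⟨sub_mem hmem (Subalgebra.smul_mem _ (one_mem _) _), ?_⟩
            simp only [U, sub_eq_add_neg, ← neg_smul, vs_add, vs_smul, vs_one Ω hΩ]
            ring
          · exact hgP.1 a ha
        · cases P with
          | nil => exact List.isChain_singleton _
          | cons b P => exact List.isChain_cons_cons.mpr ⟨hG.2.rel, hgP.2⟩
      have hl : (o', T) :: (P ++ [(o', T')]) ≠ [] := by simp
      have h1 := hzero (U :: P) (by simp at hlen ⊢; omega) hgU (by simp)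
      have h2 := hzero P (by simp at hlen; omega) hgP hP
      rw [hcy]
      have : T' * T = U.2 + c • 1 := by simp [U]
      rw [this, add_mul, smul_mul_assoc, one_mul, vs_add, vs_smul, h2, ← prodL_cons, h1]
      ring
    · -- cyclically alternating
      set W₀ := (o, T) :: (P ++ [(o', T')]) with hW₀
      obtain ⟨i, A, B, T₀, hAB⟩ : ∃ i A B T₀, W₀ = A ++ (some i, T₀) :: B := by
        by_contra hcon
        push Not at hcon
        have hnone : ∀ a ∈ W₀, a.1 = none := by
          rintro ⟨a, S⟩ ha
          cases a with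
          | none => rfl
          | some i =>
            obtain ⟨A, B, hAB⟩ := List.mem_iff_append.mp ha
            exact absurd hAB (hcon i A B S)
        exact hoo ((hnone (o', T') (by simp [hW₀])).trans (hnone (o, T) (by simp [hW₀])).symm)
      have hgA : ∀ a ∈ A, a.2 ∈ alg Z s a.1 := fun a ha => (hG.1 a (by rw [hAB]; simp [ha])).1
      have hgB : ∀ a ∈ (some i, T₀) :: B, a.2 ∈ alg Z s a.1 :=
        fun a ha => (hG.1 a (by rw [hAB]; exact List.mem_append_right _ ha)).1
      have hBA : List.IsChain (fun a b => a.1 ≠ b.1) ((some i, T₀) :: (B ++ A)) := by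
        have h0 := hG.2
        rw [hAB] at h0
        rw [← List.cons_append]
        refine List.IsChain.append h0.right_of_append h0.left_of_append ?_
        intro x hx y hy
        have hlast : W₀.getLast? = some x := by
          rw [hAB, List.getLast?_append]
          simp [Option.mem_def.mp hx]
        have hhead : W₀.head? = some y := by
          rw [hAB, List.head?_append]
          simp [Option.mem_def.mp hy]
        rw [hW₀] at hlast hhead
        simp at hhead
        rw [← List.cons_append, List.getLast?_concat] at hlast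
        simp at hlast
        subst hlast hhead
        exact hoo
      have hg' : Good Ω Z s (B ++ A) := ⟨fun a ha => hG.1 a (by
        rw [hAB]; simp at ha ⊢; tauto), hBA.tail⟩
      have hlen' : (B ++ A).length < m := by
        rw [← hlen, hAB]; simp; omega
      have hk := (IH _ hlen' (B ++ A) rfl hg').2 i (fun a ha => by
        obtain ⟨l, hl⟩ : ∃ l, B ++ A = a :: l := List.head?_eq_some_iff.mp ha
        rw [hl] at hBA
        exact hBA.rel.symm)
      have hT₀ := hG.1 (some i, T₀) (by rw [hAB]; simp)
      rw [hAB, prodL_append, htr _ (prodL_mem Z s hgA) _ (prodL_mem Z s hgB), prodL_cons,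
        mul_assoc, ← prodL_append]
      obtain ⟨d, hd, hd'⟩ := exists_rep Z _ hT₀.1
      have h0 := hT₀.2
      simp only at hd h0
      have hev : ∀ p ∈ d, wordProd Z p.2 = Z (s i) ^ p.2.length := fun p hp => by
        rw [List.eq_replicate_of_mem (fun x hx => Set.mem_singleton_iff.mp (hd' p hp x hx))]
        simp [wordProd]
      have e1 : (d.map fun p => p.1 * vstate Ω (wordProd Z p.2 * prodL (B ++ A))).sum
          = (d.map fun p => p.1 * vstate Ω (wordProd Z p.2)).sum
            * vstate Ω (prodL (B ++ A)) := by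
        rw [← List.sum_map_mul_right]
        congr 1
        refine List.map_congr_left fun p hp => ?_
        rw [hev p hp, hk, mul_assoc]
      rw [hd, vs_ev_mul, e1]
      rw [hd, ← mul_one (ev Z d), vs_ev_mul] at h0
      simp only [mul_one] at h0
      rw [h0, zero_mul]
  · intro i hhead k
    induction k using Nat.strong_induction_on with
    | _ k ihk =>
    cases k with
    | zero => simp [vs_one Ω hΩ]
    | succ k =>
      rw [sd_pow Ω Z s hs (hsd i) W (fun a ha => (hG.1 a ha).1) k ?_,
        pow_moments Ω Z s hs (hsd i) hΩ k, Finset.sum_mul]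
      · refine Finset.sum_congr rfl fun l hl => ?_
        have := Finset.mem_range.mp hl
        rw [ihk (k - 1 - l) (by omega)]
        ring
      intro P T Q hPQ a b
      have hP : P ≠ [] := by
        rintro rfl
        exact hhead (some i, T) (by simp [hPQ]) rfl
      have hG2 := hG.2
      rw [hPQ] at hG2
      have hgP : Good Ω Z s P := ⟨fun x hx => hG.1 x (by simp [hPQ, hx]), hG2.left_of_append⟩
      have hPlen : P.length < m := by rw [← hlen, hPQ]; simp
      by_cases hQ : Q = []
      · refine mul_eq_zero_of_left ?_ _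
        rw [htr _ (mul_mem (hpowmem i k) (prodL_mem Z s fun x hx => (hgP.1 x hx).1)) _
          (hpowmem i a), ← mul_assoc, ← pow_add,
          (IH _ hPlen P rfl hgP).2 i (fun x hx => ?_) (a + k), hzero P hPlen hgP hP, mul_zero]
        refine hhead x ?_
        rw [hPQ, List.head?_append]
        simp [Option.mem_def.mp hx]
      · refine mul_eq_zero_of_right _ ?_
        have hgQ : Good Ω Z s Q := ⟨fun x hx => hG.1 x (by simp [hPQ, hx]),
          hG2.right_of_append.tail⟩
        have hQlen : Q.length < m := by rw [← hlen, hPQ]; simp; omega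
        rw [(IH _ hQlen Q rfl hgQ).2 i (fun x hx => ?_) b, hzero Q hQlen hgQ hQ, mul_zero]
        obtain ⟨l, hl⟩ : ∃ l, Q = x :: l := List.head?_eq_some_iff.mp hx
        have := hG2.right_of_append
        rw [hl] at this
        exact this.rel.symm

end Split

end Free

end

end Vale.Agent.P087
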