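import Mathlib
import Vale.Agent.P087.Basic
import Vale.Agent.P087.FreeAux

/-!
# P087: the Schwinger-Dyson equations imply freeness
-/

namespace Vale.Agent.P087

open scoped InnerProductSpace

noncomputable section

theorem free_of_sd {n : ℕ} {L H : Type} [DecidableEq L] [Fintype L] [NormedAddCommGroup H]
    [InnerProductSpace ℂ H] [CompleteSpace H] (Ω : H) (hΩ : ‖Ω‖ = 1) (Z : L → H →L[ℂ] H)
    (htr : ∀ P ∈ Algebra.adjoin ℂ (Set.range Z), ∀ Q ∈ Algebra.adjoin ℂ (Set.range Z),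
      vstate Ω (P * Q) = vstate Ω (Q * P))
    (s : Fin n → L) (hs : Function.Injective s) (hsd : ∀ i, SDRel Ω Z (s i))
    (X : Fin n → H →L[ℂ] H)
    (hX : ∀ i, X i ∈ Algebra.adjoin ℂ (Z '' (Set.range s)ᶜ)) :
    (∀ i, ∀ r : ℕ, vstate Ω (Z (s i) ^ (2 * r)) = (catalan r : ℂ) ∧
      vstate Ω (Z (s i) ^ (2 * r + 1)) = 0) ∧
    IsFree (vstate Ω) (fun o : Option (Fin n) =>
      o.elim (Algebra.adjoin ℂ (Set.range X)) (fun i => Algebra.adjoin ℂ {Z (s i)})) := by
  refine ⟨fun i r => Free.semicircular Ω Z s hs (hsd i) hΩ r, fun l hne hmem halt => ?_⟩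
  have hle : ∀ o : Option (Fin n),
      o.elim (Algebra.adjoin ℂ (Set.range X)) (fun i => Algebra.adjoin ℂ {Z (s i)}) ≤
        Free.alg Z s o := by
    intro o
    cases o with
    | none => exact Algebra.adjoin_le (by rintro _ ⟨i, rfl⟩; exact hX i)
    | some i => exact Algebra.adjoin_mono (by simp [Free.allowed])
  exact (Free.good_zero Ω Z s hs hsd hΩ htr l.length l rfl
    ⟨fun a ha => ⟨hle a.1 (hmem a ha).1, (hmem a ha).2⟩, halt⟩).1 hne

end

end Vale.Agent.P087
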