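import Mathlib
import Vale.Agent.P087.Basic

/-!
# P087: moment forms of matrix approximations
-/

namespace Vale.Agent.P087

open Filter
open scoped InnerProductSpace Topology ComplexConjugate Matrix

noncomputable section

namespace GNS

variable {L : Type}

/-- The sesquilinear form of a moment functional. -/
def form (ψ : List L → ℂ) (x y : List L →₀ ℂ) : ℂ :=
  x.sum fun u a => y.sum fun v b => conj a * b * ψ (u.reverse ++ v)

lemma form_add_left (ψ : List L → ℂ) (x y z : List L →₀ ℂ) :
    form ψ (x + y) z = form ψ x z + form ψ y z := by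
  refine Finsupp.sum_add_index' (fun u => ?_) fun u a b => ?_
  · simp
  · rw [← Finsupp.sum_add]
    simp [add_mul]

lemma form_smul_left (ψ : List L → ℂ) (r : ℂ) (x z : List L →₀ ℂ) :
    form ψ (r • x) z = conj r * form ψ x z := by
  rw [form, form, Finsupp.sum_smul_index (by simp), Finsupp.mul_sum]
  refine Finsupp.sum_congr fun u _ => ?_
  rw [Finsupp.mul_sum]
  refine Finsupp.sum_congr fun v _ => ?_
  rw [map_mul]
  ring

lemma form_single (ψ : List L → ℂ) (u v : List L) :
    form ψ (Finsupp.single u 1) (Finsupp.single v 1) = ψ (u.reverse ++ v) := by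
  simp [form]

/-- Prefixing a letter. -/
def shift (l : L) : (List L →₀ ℂ) →ₗ[ℂ] (List L →₀ ℂ) :=
  Finsupp.lmapDomain ℂ ℂ (List.cons l)

lemma form_shift (ψ : List L → ℂ) (l : L) (x y : List L →₀ ℂ) :
    form ψ (shift l x) y = form ψ x (shift l y) := by
  simp only [form, shift, Finsupp.lmapDomain_apply]
  rw [Finsupp.sum_mapDomain_index_inj (List.cons_injective)]
  refine Finsupp.sum_congr fun u _ => ?_
  rw [Finsupp.sum_mapDomain_index_inj (List.cons_injective)]
  simp

lemma tendsto_form {I : Type*} {F : Filter I} {ψ : I → List L → ℂ} {φ : List L → ℂ}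
    (h : ∀ w, Tendsto (fun i => ψ i w) F (𝓝 (φ w))) (x y : List L →₀ ℂ) :
    Tendsto (fun i => form (ψ i) x y) F (𝓝 (form φ x y)) :=
  tendsto_finsetSum _ fun _ _ => tendsto_finsetSum _ fun _ _ => (h _).const_mul _

variable {k : ℕ} (A : L → Matrix (Fin k) (Fin k) ℂ)

/-- The matrix polynomial with the given coefficients. -/
def eval (x : List L →₀ ℂ) : Matrix (Fin k) (Fin k) ℂ :=
  x.sum fun u a => a • wordProd A u

lemma wordProd_append (u v : List L) : wordProd A (u ++ v) = wordProd A u * wordProd A v := by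
  simp [wordProd]

lemma eval_shift (l : L) (x : List L →₀ ℂ) : eval A (shift l x) = A l * eval A x := by
  simp only [eval, shift, Finsupp.lmapDomain_apply]
  rw [Finsupp.sum_mapDomain_index_inj (List.cons_injective), Finsupp.mul_sum]
  simp [wordProd]

variable {A}

lemma conjTranspose_wordProd (hA : ∀ l, (A l).IsHermitian) :
    ∀ u : List L, (wordProd A u)ᴴ = wordProd A u.reverse
  | [] => by simp [wordProd]
  | l :: u => by
    rw [List.reverse_cons, wordProd_append, ← conjTranspose_wordProd hA u]
    simp [wordProd, (hA l).eq]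

lemma form_eq_ntr (hA : ∀ l, (A l).IsHermitian) (x y : List L →₀ ℂ) :
    form (fun w => ntr (wordProd A w)) x y = ntr ((eval A x)ᴴ * eval A y) := by
  simp only [form, eval, Finsupp.sum, Matrix.conjTranspose_sum, Matrix.conjTranspose_smul,
    conjTranspose_wordProd hA, Finset.sum_mul, Finset.mul_sum, ntr, Matrix.trace_sum,
    smul_mul_assoc, mul_smul_comm, Matrix.trace_smul, smul_eq_mul, wordProd_append,
    Finset.sum_div, RCLike.star_def]
  rw [Finset.sum_comm]
  refine Finset.sum_congr rfl fun v _ => Finset.sum_congr rfl fun u _ => ?_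
  ring

lemma ntr_conjTranspose (M : Matrix (Fin k) (Fin k) ℂ) : ntr Mᴴ = conj (ntr M) := by
  simp [ntr, Matrix.trace_conjTranspose]

lemma re_ntr_conjTranspose_mul_self (M : Matrix (Fin k) (Fin k) ℂ) :
    (ntr (Mᴴ * M)).re = (∑ c, ∑ i, ‖M i c‖ ^ 2) / k := by
  rw [ntr, Complex.div_natCast_re, Matrix.trace, Complex.re_sum]
  congr 1
  refine Finset.sum_congr rfl fun c _ => ?_
  simp [Matrix.diag, Matrix.mul_apply, Complex.sq_norm, Complex.normSq_apply]

lemma re_form_nonneg (hA : ∀ l, (A l).IsHermitian) (x : List L →₀ ℂ) :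
    0 ≤ (form (fun w => ntr (wordProd A w)) x x).re := by
  rw [form_eq_ntr hA, re_ntr_conjTranspose_mul_self]
  positivity

lemma conj_form (hA : ∀ l, (A l).IsHermitian) (x y : List L →₀ ℂ) :
    conj (form (fun w => ntr (wordProd A w)) y x) = form (fun w => ntr (wordProd A w)) x y := by
  rw [form_eq_ntr hA, form_eq_ntr hA, ← ntr_conjTranspose, Matrix.conjTranspose_mul,
    Matrix.conjTranspose_conjTranspose]

lemma re_form_shift_le {R : ℝ} (hA : ∀ l, (A l).IsHermitian ∧ OpBound (A l) R) (l : L)
    (x : List L →₀ ℂ) :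
    (form (fun w => ntr (wordProd A w)) (shift l x) (shift l x)).re ≤
      R ^ 2 * (form (fun w => ntr (wordProd A w)) x x).re := by
  rw [form_eq_ntr (fun l => (hA l).1), form_eq_ntr (fun l => (hA l).1), eval_shift,
    re_ntr_conjTranspose_mul_self, re_ntr_conjTranspose_mul_self, ← mul_div_assoc,
    Finset.mul_sum]
  refine div_le_div_of_nonneg_right (Finset.sum_le_sum fun c _ => ?_) (Nat.cast_nonneg k)
  exact (hA l).2 fun i => eval A x i c

/-- What the limit of matrix moments inherits. -/
structure Good (φ : List L → ℂ) (R : ℝ) : Prop where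
  one : φ [] = 1
  comm : ∀ u v, φ (u ++ v) = φ (v ++ u)
  herm : ∀ x y, conj (form φ y x) = form φ x y
  pos : ∀ x, 0 ≤ (form φ x x).re
  bound : ∀ l x, (form φ (shift l x) (shift l x)).re ≤ R ^ 2 * (form φ x x).re

theorem good_of_matApprox {φ : List L → ℂ} {R : ℝ} (h : MatApprox φ R) : Good φ R := by
  classical
  choose k hk A hA hW using fun i : Finset (List L) × ℕ =>
    h i.1 (1 / ((i.2 : ℝ) + 1)) 1 (by positivity)
  have hlim : ∀ w, Tendsto (fun i => ntr (wordProd (A i) w)) atTop (𝓝 (φ w)) := by
    intro w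
    rw [Metric.tendsto_atTop]
    intro ε hε
    obtain ⟨N, hN⟩ := exists_nat_one_div_lt hε
    refine ⟨({w}, N), fun i hi => ?_⟩
    rw [dist_eq_norm]
    refine (hW i w (hi.1 (Finset.mem_singleton_self w))).trans (lt_of_le_of_lt ?_ hN)
    have hN' : (N : ℝ) ≤ i.2 := by exact_mod_cast hi.2
    gcongr
  have hfor := fun x y => tendsto_form (ψ := fun i w => ntr (wordProd (A i) w)) hlim x y
  refine ⟨?_, fun u v => ?_, fun x y => ?_, fun x => ?_, fun l x => ?_⟩
  · refine tendsto_nhds_unique (hlim []) (tendsto_const_nhds.congr fun i => ?_)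
    have : (k i : ℂ) ≠ 0 := Nat.cast_ne_zero.mpr (by have := hk i; omega)
    simp [wordProd, ntr, this]
  · refine tendsto_nhds_unique (hlim (u ++ v)) ((hlim (v ++ u)).congr fun i => ?_)
    rw [wordProd_append, wordProd_append, ntr, ntr, Matrix.trace_mul_comm]
  · exact tendsto_nhds_unique ((Complex.continuous_conj.tendsto _).comp (hfor y x))
      ((hfor x y).congr fun i => (conj_form (fun l => (hA i l).1) x y).symm)
  · exact ge_of_tendsto' ((Complex.continuous_re.tendsto _).comp (hfor x x))
      fun i => re_form_nonneg (fun l => (hA i l).1) x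
  · exact le_of_tendsto_of_tendsto' ((Complex.continuous_re.tendsto _).comp (hfor _ _))
      (((Complex.continuous_re.tendsto _).comp (hfor x x)).const_mul _)
      fun i => re_form_shift_le (hA i) l x

end GNS

end

end Vale.Agent.P087
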