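import Mathlib
import Vale.Agent.P087.Basic
import Vale.Agent.P087.GNSAux

/-!
# P087: a Hilbert space realisation of moments with bounded matrix approximations
-/

namespace Vale.Agent.P087

open scoped InnerProductSpace

noncomputable section

namespace GNS

variable {L : Type}

theorem mem_span_wordProd {H : Type} [NormedAddCommGroup H] [InnerProductSpace ℂ H]
    {Z : L → H →L[ℂ] H} {P : H →L[ℂ] H} (hP : P ∈ Algebra.adjoin ℂ (Set.range Z)) :
    P ∈ Submodule.span ℂ (Set.range (wordProd Z)) := by
  rw [← Subalgebra.mem_toSubmodule, Algebra.adjoin_eq_span] at hP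
  refine Submodule.span_mono ?_ hP
  intro M hM
  induction hM using Submonoid.closure_induction with
  | mem x hx => obtain ⟨l, rfl⟩ := hx; exact ⟨[l], by simp [wordProd]⟩
  | one => exact ⟨[], rfl⟩
  | mul x y _ _ hx hy =>
    obtain ⟨u, rfl⟩ := hx
    obtain ⟨v, rfl⟩ := hy
    exact ⟨u ++ v, by simp [wordProd]⟩

theorem wordProd_mem_adjoin {H : Type} [NormedAddCommGroup H] [InnerProductSpace ℂ H]
    (Z : L → H →L[ℂ] H) (w : List L) : wordProd Z w ∈ Algebra.adjoin ℂ (Set.range Z) := by
  refine Subalgebra.list_prod_mem _ fun M hM => ?_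
  obtain ⟨l, _, rfl⟩ := List.mem_map.mp hM
  exact Algebra.subset_adjoin ⟨l, rfl⟩

end GNS

theorem exists_gns {L : Type} [Fintype L] (φ : List L → ℂ) (R : ℝ) (hR : 0 ≤ R)
    (h : MatApprox φ R) :
    ∃ (H : Type) (_ : NormedAddCommGroup H) (_ : InnerProductSpace ℂ H) (_ : CompleteSpace H)
      (Ω : H) (Z : L → H →L[ℂ] H),
      ‖Ω‖ = 1 ∧ (∀ l, IsSelfAdjoint (Z l)) ∧ (∀ w, moments Ω Z w = φ w) ∧
      (∀ P ∈ Algebra.adjoin ℂ (Set.range Z), ∀ Q ∈ Algebra.adjoin ℂ (Set.range Z),
        vstate Ω (P * Q) = vstate Ω (Q * P)) ∧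
      closure ((fun P : H →L[ℂ] H => P Ω) ''
        (Algebra.adjoin ℂ (Set.range Z) : Set (H →L[ℂ] H))) = Set.univ := by
  have hg := GNS.good_of_matApprox h
  let cd : PreInnerProductSpace.Core ℂ (List L →₀ ℂ) :=
    { inner := GNS.form φ
      conj_inner_symm := hg.herm
      re_inner_nonneg := hg.pos
      add_left := GNS.form_add_left φ
      smul_left := fun x y r => GNS.form_smul_left φ r x y }
  letI sn : SeminormedAddCommGroup (List L →₀ ℂ) :=
    @InnerProductSpace.Core.toSeminormedAddCommGroup ℂ _ _ _ _ cd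
  letI ip : InnerProductSpace ℂ (List L →₀ ℂ) := InnerProductSpace.ofCore cd
  let e : (List L →₀ ℂ) →L[ℂ] UniformSpace.Completion (List L →₀ ℂ) :=
    UniformSpace.Completion.toComplL
  have hd : DenseRange e.toLinearMap := UniformSpace.Completion.denseRange_coe
  have hinn : ∀ x y, ⟪e x, e y⟫_ℂ = GNS.form φ x y := fun x y =>
    UniformSpace.Completion.inner_coe x y
  have hnorm : ∀ x, ‖e x‖ ^ 2 = (GNS.form φ x x).re := fun x => by
    rw [@norm_sq_eq_re_inner ℂ, hinn]; rfl
  have hb : ∀ l x, ‖e (GNS.shift l x)‖ ≤ R * ‖e x‖ := fun l x => by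
    refine le_of_pow_le_pow_left₀ two_ne_zero (by positivity) ?_
    rw [mul_pow, hnorm, hnorm]
    exact hg.bound l x
  let Z : L → UniformSpace.Completion (List L →₀ ℂ) →L[ℂ]
      UniformSpace.Completion (List L →₀ ℂ) :=
    fun l => (e.toLinearMap ∘ₗ GNS.shift l).extendOfNorm e.toLinearMap
  have hZ : ∀ l x, Z l (e x) = e (GNS.shift l x) := fun l x =>
    LinearMap.extendOfNorm_eq hd ⟨R, hb l⟩ x
  have hw : ∀ w, wordProd Z w (e (Finsupp.single [] 1)) = e (Finsupp.single w 1) := by
    intro w
    induction w with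
    | nil => simp [wordProd]
    | cons l u ih =>
      have : wordProd Z (l :: u) = Z l * wordProd Z u := by simp [wordProd]
      rw [this, mul_apply_eq_comp, ih, hZ]
      simp [GNS.shift]
  have hmom : ∀ w, moments (e (Finsupp.single [] 1)) Z w = φ w := fun w => by
    rw [moments, vstate, hw, hinn, GNS.form_single]
    simp
  refine ⟨UniformSpace.Completion (List L →₀ ℂ), inferInstance, inferInstance, inferInstance,
    e (Finsupp.single [] 1), Z, ?_, fun l => ?_, hmom, ?_, ?_⟩
  · refine (pow_left_inj₀ (norm_nonneg _) zero_le_one two_ne_zero).mp ?_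
    rw [hnorm, GNS.form_single]
    simp [hg.one]
  · rw [ContinuousLinearMap.isSelfAdjoint_iff_isSymmetric]
    intro x y
    induction x, y using UniformSpace.Completion.induction_on₂ with
    | hp => exact isClosed_eq (by fun_prop) (by fun_prop)
    | ih a b =>
      change ⟪Z l (e a), e b⟫_ℂ = ⟪e a, Z l (e b)⟫_ℂ
      rw [hZ, hZ, hinn, hinn, GNS.form_shift]
  · intro P hP Q hQ
    set Ω := e (Finsupp.single [] 1)
    have key : ∀ u v, vstate Ω (wordProd Z u * wordProd Z v)
        = vstate Ω (wordProd Z v * wordProd Z u) := fun u v => by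
      have e1 : ∀ u v, wordProd Z u * wordProd Z v = wordProd Z (u ++ v) := fun u v => by
        simp [wordProd]
      rw [e1, e1]
      exact (hmom _).trans ((hg.comm u v).trans (hmom _).symm)
    have hlin : ∀ u, ∀ T ∈ Submodule.span ℂ (Set.range (wordProd Z)),
        vstate Ω (wordProd Z u * T) = vstate Ω (T * wordProd Z u) := by
      intro u T hT
      induction hT using Submodule.span_induction with
      | mem x hx => obtain ⟨v, rfl⟩ := hx; exact key u v
      | zero => simp [vstate]
      | add x y _ _ hx hy =>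
        simp only [vstate, mul_add, add_mul, add_apply, inner_add_right] at hx hy ⊢
        rw [hx, hy]
      | smul c x _ hx =>
        simp only [vstate, mul_smul_comm, smul_mul_assoc, smul_apply, inner_smul_right] at hx ⊢
        rw [hx]
    have hQ' := GNS.mem_span_wordProd hQ
    have hP' := GNS.mem_span_wordProd hP
    clear hP
    induction hP' using Submodule.span_induction with
    | mem x hx => obtain ⟨u, rfl⟩ := hx; exact hlin u Q hQ'
    | zero => simp [vstate]
    | add x y _ _ hx hy =>
      simp only [vstate, mul_add, add_mul, add_apply, inner_add_right] at hx hy ⊢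
      rw [hx, hy]
    | smul c x _ hx =>
      simp only [vstate, mul_smul_comm, smul_mul_assoc, smul_apply, inner_smul_right] at hx ⊢
      rw [hx]
  · refine Set.eq_univ_of_univ_subset (hd.closure_range.symm.subset.trans (closure_mono ?_))
    rintro _ ⟨x, rfl⟩
    have hx : x = ∑ w ∈ x.support, x w • Finsupp.single w (1 : ℂ) := by
      conv_lhs => rw [← Finsupp.sum_single x]
      simp [Finsupp.sum]
    refine ⟨∑ w ∈ x.support, x w • wordProd Z w, ?_, ?_⟩
    · exact Subalgebra.sum_mem _ fun w _ =>
        Subalgebra.smul_mem _ (GNS.wordProd_mem_adjoin Z w) _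
    · conv_rhs => rw [hx]
      simp only [ContinuousLinearMap.coe_coe, map_sum, map_smul, sum_apply, smul_apply, hw]

end

end Vale.Agent.P087
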