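import Vale.Agent.P087.GaussPoly

/-! # The Schwinger-Dyson identity for products of traces -/

namespace Vale.Agent.P087

open Matrix MvPolynomial

noncomputable section

variable {n : Type*} [Fintype n] [DecidableEq n]

/-- The matrices `B` satisfy the completeness relation of an orthonormal basis of the Hermitian
matrices. -/
def BasisComplete (B : n × n → Matrix n n ℂ) : Prop :=
  ∀ p r t q, ∑ cd, B cd p r * B cd t q = if p = q ∧ r = t then 1 else 0

variable {R : Type*} [CommRing R] [Algebra ℂ R]

/-- The basis element with entries in an algebra. -/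
def hermBasisR (R : Type*) [CommRing R] [Algebra ℂ R] (B : n × n → Matrix n n ℂ) (c d : n) :
    Matrix n n R :=
  (B (c, d)).map (algebraMap ℂ R)

theorem hermBasisR_complete {B : n × n → Matrix n n ℂ} (hB : BasisComplete B) (p r t q : n) :
    ∑ cd : n × n, hermBasisR R B cd.1 cd.2 p r * hermBasisR R B cd.1 cd.2 t q
      = if p = q ∧ r = t then 1 else 0 := by
  simp only [hermBasisR, Matrix.map_apply, ← map_mul, ← map_sum, Prod.mk.eta, hB p r t q]
  split_ifs <;> simp

theorem sum_conj_eq {B : n × n → Matrix n n ℂ} (hB : BasisComplete B) (X : Matrix n n R) :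
    ∑ cd : n × n, hermBasisR R B cd.1 cd.2 * X * hermBasisR R B cd.1 cd.2 = X.trace • 1 := by
  ext p q
  simp only [Matrix.sum_apply, Matrix.mul_apply, Finset.sum_mul, Matrix.smul_apply, smul_eq_mul,
    Matrix.one_apply]
  rw [Finset.sum_comm]
  calc ∑ t, ∑ cd : n × n, ∑ r, hermBasisR R B cd.1 cd.2 p r * X r t * hermBasisR R B cd.1 cd.2 t q
      = ∑ t, ∑ r, X r t * ∑ cd : n × n,
          hermBasisR R B cd.1 cd.2 p r * hermBasisR R B cd.1 cd.2 t q := by
        refine Finset.sum_congr rfl fun t _ => ?_
        rw [Finset.sum_comm]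
        refine Finset.sum_congr rfl fun r _ => ?_
        rw [Finset.mul_sum]
        exact Finset.sum_congr rfl fun cd _ => by ring
    _ = _ := by
        simp only [hermBasisR_complete hB, mul_ite, mul_one, mul_zero, ite_and]
        by_cases h : p = q <;> simp [h, Matrix.trace]

theorem sum_trace_mul_trace {B : n × n → Matrix n n ℂ} (hB : BasisComplete B) (X Y : Matrix n n R) :
    ∑ cd : n × n, (hermBasisR R B cd.1 cd.2 * X).trace * (hermBasisR R B cd.1 cd.2 * Y).trace
      = (X * Y).trace := by
  have e1 : ∀ cd : n × n, (hermBasisR R B cd.1 cd.2 * X).trace * (hermBasisR R B cd.1 cd.2 * Y).trace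
      = ∑ q, ∑ p, ∑ t, ∑ r,
          hermBasisR R B cd.1 cd.2 q t * X t q * (hermBasisR R B cd.1 cd.2 p r * Y r p) := by
    intro cd
    simp only [Matrix.trace, Matrix.diag, Matrix.mul_apply, Finset.sum_mul_sum]
  simp only [e1]
  calc ∑ cd : n × n, ∑ q, ∑ p, ∑ t, ∑ r,
          hermBasisR R B cd.1 cd.2 q t * X t q * (hermBasisR R B cd.1 cd.2 p r * Y r p)
      = ∑ q, ∑ p, ∑ t, ∑ r, X t q * Y r p * ∑ cd : n × n,
          hermBasisR R B cd.1 cd.2 q t * hermBasisR R B cd.1 cd.2 p r := by
        rw [Finset.sum_comm]
        refine Finset.sum_congr rfl fun q _ => ?_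
        rw [Finset.sum_comm]
        refine Finset.sum_congr rfl fun p _ => ?_
        rw [Finset.sum_comm]
        refine Finset.sum_congr rfl fun t _ => ?_
        rw [Finset.sum_comm]
        refine Finset.sum_congr rfl fun r _ => ?_
        rw [Finset.mul_sum]
        exact Finset.sum_congr rfl fun cd _ => by ring
    _ = _ := by
        simp only [hermBasisR_complete hB, mul_ite, mul_one, mul_zero, ite_and,
          Finset.sum_ite_eq, Finset.sum_ite_eq', Finset.mem_univ, if_true]
        rw [Finset.sum_comm]
        simp [Matrix.trace, Matrix.mul_apply]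

variable {κ I : Type*} [Fintype I] [DecidableEq I]

/-- Polynomials in the Gaussian coordinates. -/
abbrev GPoly (I n : Type*) := MvPolynomial (I × n × n) ℂ

/-- The Gaussian matrix with a given index. -/
def gueH (B : n × n → Matrix n n ℂ) (i : I) : Matrix n n (GPoly I n) :=
  ∑ cd : n × n, (X (i, cd.1, cd.2) : GPoly I n) • hermBasisR (GPoly I n) B cd.1 cd.2

/-- The matrix of a letter. -/
def letterMat (B : n × n → Matrix n n ℂ) (A : κ → Matrix n n ℂ) (s : ℂ) : κ ⊕ I → Matrix n n (GPoly I n)
  | Sum.inl j => (A j).map (algebraMap ℂ (GPoly I n))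
  | Sum.inr i => (C s : GPoly I n) • gueH B i

/-- The matrix of a word. -/
def wordMat (B : n × n → Matrix n n ℂ) (A : κ → Matrix n n ℂ) (s : ℂ) (w : List (κ ⊕ I)) : Matrix n n (GPoly I n) :=
  (w.map (letterMat B A s)).prod

theorem wordMat_append (B : n × n → Matrix n n ℂ) (A : κ → Matrix n n ℂ) (s : ℂ) (u v : List (κ ⊕ I)) :
    wordMat B A s (u ++ v) = wordMat B A s u * wordMat B A s v := by
  simp [wordMat]

theorem wordMat_cons (B : n × n → Matrix n n ℂ) (A : κ → Matrix n n ℂ) (s : ℂ) (a : κ ⊕ I) (v : List (κ ⊕ I)) :
    wordMat B A s (a :: v) = letterMat B A s a * wordMat B A s v := by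
  simp [wordMat]

/-- Differentiation of every entry. -/
def dMat (v : I × n × n) (M : Matrix n n (GPoly I n)) : Matrix n n (GPoly I n) :=
  M.map (pderiv v)

theorem dMat_mul (v : I × n × n) (M N : Matrix n n (GPoly I n)) :
    dMat v (M * N) = dMat v M * N + M * dMat v N := by
  refine Matrix.ext fun p q => ?_
  simp only [dMat, Matrix.map_apply, Matrix.mul_apply, Matrix.add_apply, map_sum, pderiv_mul,
    Finset.sum_add_distrib]

theorem dMat_const (v : I × n × n) (M : Matrix n n ℂ) :
    dMat v (M.map (algebraMap ℂ (GPoly I n))) = 0 := by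
  refine Matrix.ext fun p q => ?_
  simp [dMat, MvPolynomial.algebraMap_eq, pderiv_C]

theorem pderiv_trace (v : I × n × n) (M : Matrix n n (GPoly I n)) :
    pderiv v M.trace = (dMat v M).trace := by
  simp [Matrix.trace, dMat]

theorem dMat_gueH (B : n × n → Matrix n n ℂ) (j i : I) (c d : n) :
    dMat (j, c, d) (gueH B i)
      = if i = j then hermBasisR (GPoly I n) B c d else 0 := by
  refine Matrix.ext fun p q => ?_
  simp only [dMat, gueH, Matrix.map_apply, Matrix.sum_apply, Matrix.smul_apply, smul_eq_mul,
    map_sum, pderiv_mul, hermBasisR, MvPolynomial.algebraMap_eq, pderiv_C, mul_zero, add_zero]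
  split_ifs with h
  · subst h
    rw [Finset.sum_eq_single (c, d)]
    · simp
    · intro cd _ hne
      rw [pderiv_X_of_ne (by intro h; simp [Prod.ext_iff] at h; exact hne (Prod.ext h.1 h.2)),
        zero_mul]
    · simp
  · rw [Matrix.zero_apply]
    refine Finset.sum_eq_zero fun cd _ => ?_
    rw [pderiv_X_of_ne (by intro e; simp [Prod.ext_iff] at e; exact h e.1), zero_mul]

/-- The ways of cutting a word at an occurrence of a Gaussian letter. -/
def cuts (i : I) : List (κ ⊕ I) → List (List (κ ⊕ I) × List (κ ⊕ I))
  | [] => []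
  | Sum.inl j :: w => (cuts i w).map fun uv => (Sum.inl j :: uv.1, uv.2)
  | Sum.inr i' :: w =>
      (if i' = i then [([], w)] else []) ++ (cuts i w).map fun uv => (Sum.inr i' :: uv.1, uv.2)

theorem dMat_wordMat (B : n × n → Matrix n n ℂ) (A : κ → Matrix n n ℂ) (s : ℂ) (i : I) (c d : n) :
    ∀ w : List (κ ⊕ I), dMat (i, c, d) (wordMat B A s w)
      = ((cuts i w).map fun uv => (C s : GPoly I n) •
          (wordMat B A s uv.1 * hermBasisR (GPoly I n) B c d * wordMat B A s uv.2)).sum
  | [] => by
      refine Matrix.ext fun p q => ?_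
      simp [wordMat, dMat, cuts, Matrix.one_apply, apply_ite (pderiv (i, c, d))]
  | Sum.inl j :: w => by
      rw [wordMat_cons, dMat_mul, dMat_wordMat B A s i c d w]
      simp only [letterMat, dMat_const, zero_mul, zero_add, cuts, List.map_map]
      rw [← List.sum_map_mul_left]
      refine congrArg List.sum (List.map_congr_left fun uv _ => ?_)
      simp [wordMat_cons, letterMat, Matrix.mul_assoc]
  | Sum.inr i' :: w => by
      rw [wordMat_cons, dMat_mul, dMat_wordMat B A s i c d w]
      have hd : dMat (i, c, d) (letterMat B A s (Sum.inr i'))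
          = if i' = i then (C s : GPoly I n) • hermBasisR (GPoly I n) B c d else 0 := by
        have e : dMat (i, c, d) ((C s : GPoly I n) • gueH B i')
            = (C s : GPoly I n) • dMat (i, c, d) (gueH B (n := n) i') := by
          refine Matrix.ext fun p q => ?_; simp [dMat, pderiv_mul, pderiv_C]
        rw [letterMat, e, dMat_gueH]
        split_ifs <;> simp
      simp only [hd, cuts, List.map_append, List.sum_append, List.map_map]
      congr 1
      · split_ifs with h <;> simp [wordMat]
      · rw [← List.sum_map_mul_left]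
        refine congrArg List.sum (List.map_congr_left fun uv _ => ?_)
        simp [wordMat_cons, Matrix.mul_assoc]

/-- The normalised trace of a word. -/
def wordTr (B : n × n → Matrix n n ℂ) (A : κ → Matrix n n ℂ) (s a : ℂ) (w : List (κ ⊕ I)) : GPoly I n :=
  C a * (wordMat B A s w).trace

theorem wordTr_rotate (B : n × n → Matrix n n ℂ) (A : κ → Matrix n n ℂ) (s a : ℂ) (u v : List (κ ⊕ I)) :
    wordTr B A s a (u ++ v) = wordTr B A s a (v ++ u) := by
  rw [wordTr, wordTr, wordMat_append, wordMat_append, trace_mul_comm]

/-- The words produced by differentiating a product of other traces. -/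
def crossWords (i : I) (w : List (κ ⊕ I)) :
    List (List (κ ⊕ I)) → List (List (List (κ ⊕ I)))
  | [] => []
  | l :: ls => ((cuts i l).map fun uv => (w ++ (uv.2 ++ uv.1)) :: ls)
      ++ (crossWords i w ls).map fun ls' => l :: ls'

/-- The expected product of normalised traces. -/
def trExp (B : n × n → Matrix n n ℂ) (A : κ → Matrix n n ℂ) (s a : ℂ) (ls : List (List (κ ⊕ I))) : ℂ :=
  gExp (ls.map (wordTr B A s a)).prod

theorem trace_list_sum {S : Type*} [AddCommMonoid S] (l : List (Matrix n n S)) :
    l.sum.trace = (l.map Matrix.trace).sum := by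
  induction l with
  | nil => simp
  | cons x l ih => simp [ih]

theorem sum_trace_dMat {B : n × n → Matrix n n ℂ} (hB : BasisComplete B) (A : κ → Matrix n n ℂ) (s : ℂ) (i : I) (w : List (κ ⊕ I)) :
    ∑ cd : n × n, (hermBasisR (GPoly I n) B cd.1 cd.2 * dMat (i, cd.1, cd.2) (wordMat B A s w)).trace
      = C s * ((cuts i w).map fun uv =>
          (wordMat B A s uv.1).trace * (wordMat B A s uv.2).trace).sum := by
  simp only [dMat_wordMat, ← List.sum_map_mul_left, trace_list_sum, List.map_map, Function.comp_def,
    Matrix.mul_smul, Matrix.trace_smul, smul_eq_mul]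
  generalize cuts i w = L
  induction L with
  | nil => simp
  | cons uv L ih =>
    simp only [List.map_cons, List.sum_cons, Finset.sum_add_distrib, ih, ← Finset.mul_sum]
    congr 2
    rw [← Matrix.trace_sum]
    simp only [← Matrix.mul_assoc]
    rw [← Finset.sum_mul, sum_conj_eq hB, smul_mul, Matrix.one_mul, Matrix.trace_smul, smul_eq_mul]

theorem sum_trace_pderiv {B : n × n → Matrix n n ℂ} (hB : BasisComplete B) (A : κ → Matrix n n ℂ) (s a : ℂ) (i : I) (w : List (κ ⊕ I)) :
    ∀ ls : List (List (κ ⊕ I)),
      ∑ cd : n × n, (hermBasisR (GPoly I n) B cd.1 cd.2 * wordMat B A s w).trace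
          * pderiv (i, cd.1, cd.2) (ls.map (wordTr B A s a)).prod
        = C s * ((crossWords i w ls).map fun ls' => (ls'.map (wordTr B A s a)).prod).sum
  | [] => by simp [crossWords]
  | l :: ls => by
      simp only [List.map_cons, List.prod_cons, pderiv_mul, mul_add, Finset.sum_add_distrib,
        crossWords, List.map_append, List.sum_append, List.map_map]
      congr 1
      · simp only [wordTr, pderiv_mul, pderiv_C, zero_mul, zero_add, pderiv_trace, dMat_wordMat,
          trace_list_sum, List.map_map, ← List.sum_map_mul_left, ← List.sum_map_mul_right]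
        generalize cuts i l = L
        induction L with
        | nil => simp
        | cons uv L ih =>
          simp only [List.map_cons, List.sum_cons, Finset.sum_add_distrib, ih]
          congr 1
          simp only [Function.comp_apply, List.map_cons, List.prod_cons, wordTr, Matrix.trace_smul,
            smul_eq_mul, wordMat_append]
          rw [← sum_trace_mul_trace hB, Finset.mul_sum, Finset.sum_mul, Finset.mul_sum]
          refine Finset.sum_congr rfl fun cd _ => ?_
          rw [Matrix.trace_mul_comm (wordMat B A s uv.1 * hermBasisR (GPoly I n) B cd.1 cd.2),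
            ← Matrix.mul_assoc (wordMat B A s uv.2), Matrix.trace_mul_comm
              (wordMat B A s uv.2 * wordMat B A s uv.1)]
          ring
      · have ih := sum_trace_pderiv hB A s a i w ls
        calc ∑ cd : n × n, (hermBasisR (GPoly I n) B cd.1 cd.2 * wordMat B A s w).trace
              * (wordTr B A s a l * pderiv (i, cd.1, cd.2) (ls.map (wordTr B A s a)).prod)
            = wordTr B A s a l * ∑ cd : n × n, (hermBasisR (GPoly I n) B cd.1 cd.2 * wordMat B A s w).trace
              * pderiv (i, cd.1, cd.2) (ls.map (wordTr B A s a)).prod := by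
              rw [Finset.mul_sum]; exact Finset.sum_congr rfl fun cd _ => by ring
          _ = _ := by
              rw [ih, mul_left_comm, ← List.sum_map_mul_left]
              simp [Function.comp_def]

/-- The Schwinger-Dyson identity. -/
theorem trExp_step {B : n × n → Matrix n n ℂ} (hB : BasisComplete B) (A : κ → Matrix n n ℂ) {s a : ℂ} (hs : s * s = a) (i : I)
    (w : List (κ ⊕ I)) (ls : List (List (κ ⊕ I))) :
    trExp B A s a ((Sum.inr i :: w) :: ls)
      = ((cuts i w).map fun uv => trExp B A s a (uv.1 :: uv.2 :: ls)).sum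
        + a * a * ((crossWords i w ls).map (trExp B A s a)).sum := by
  have h0 : gExp (wordTr B A s a (Sum.inr i :: w) * (ls.map (wordTr B A s a)).prod)
      = gExp (∑ cd : n × n, (C (a * s) : GPoly I n) *
          ((hermBasisR (GPoly I n) B cd.1 cd.2 * dMat (i, cd.1, cd.2) (wordMat B A s w)).trace
              * (ls.map (wordTr B A s a)).prod
            + (hermBasisR (GPoly I n) B cd.1 cd.2 * wordMat B A s w).trace
              * pderiv (i, cd.1, cd.2) (ls.map (wordTr B A s a)).prod)) := by
    have e : wordTr B A s a (Sum.inr i :: w) * (ls.map (wordTr B A s a)).prod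
        = ∑ cd : n × n, X (i, cd.1, cd.2) * ((C (a * s) : GPoly I n) *
            ((hermBasisR (GPoly I n) B cd.1 cd.2 * wordMat B A s w).trace
              * (ls.map (wordTr B A s a)).prod)) := by
      simp only [wordTr, wordMat_cons, letterMat, gueH, smul_mul, Matrix.trace_smul, smul_eq_mul,
        Finset.sum_mul, Matrix.trace_sum, Finset.mul_sum, map_mul]
      exact Finset.sum_congr rfl fun cd _ => by ring
    rw [e, map_sum, map_sum]
    refine Finset.sum_congr rfl fun cd _ => ?_
    rw [gExp_X_mul]
    refine congrArg gExp ?_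
    simp only [pderiv_mul, pderiv_C, zero_mul, zero_add, pderiv_trace, dMat_mul, hermBasisR,
      dMat_const]
  rw [trExp, List.map_cons, List.prod_cons, h0, ← Finset.mul_sum, Finset.sum_add_distrib,
    ← Finset.sum_mul, sum_trace_dMat hB, sum_trace_pderiv hB, mul_add, map_add]
  have hCC : ∀ p : GPoly I n, C (a * s) * (C s * p) = C (a * a) * p := fun p => by
    rw [← mul_assoc, ← map_mul, mul_assoc a, hs]
  congr 1
  · rw [mul_assoc, hCC, ← List.sum_map_mul_right, ← List.sum_map_mul_left]
    rw [map_list_sum, List.map_map]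
    refine congrArg List.sum (List.map_congr_left fun uv _ => ?_)
    simp only [Function.comp_apply, trExp, List.map_cons, List.prod_cons, wordTr, map_mul]
    exact congrArg gExp (by ring)
  · rw [hCC, ← MvPolynomial.smul_eq_C_mul, map_smul, smul_eq_mul, map_list_sum, List.map_map]
    rfl

end

end Vale.Agent.P087
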