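import Mathlib
import Vale.Agent.P087.Basic

/-!
# P087: the law of independent Gaussian Hermitian matrices
-/

namespace Vale.Agent.P087

open MeasureTheory ProbabilityTheory
open scoped ENNReal NNReal

noncomputable section

/-- Independent centred Gaussian coordinates of variance `1 / k`. -/
def gueCoord (k : ℕ) : Measure (Coord k) :=
  (Measure.pi fun _ : Fin k × Fin k => gaussianReal 0 ((k : ℝ≥0)⁻¹)).map (WithLp.toLp 2)

/-- An independent family of Gaussian Hermitian matrices. -/
def gue (σ : Type*) [Fintype σ] (k : ℕ) : Measure (σ → Coord k) :=
  Measure.pi fun _ : σ => gueCoord k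

end

end Vale.Agent.P087
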