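import Vale.Agent.P087.Basic
import Vale.Agent.P087.GUEAlg
import Vale.Agent.P087.GaussDefs

/-! # The polynomial model of the Gaussian Hermitian matrices -/

namespace Vale.Agent.P087

open MeasureTheory ProbabilityTheory Matrix
open scoped NNReal ENNReal

noncomputable section

variable {k : ℕ}

/-- The Hermitian matrix of a coordinate vector. -/
def hermB (k : ℕ) (cd : Fin k × Fin k) : Matrix (Fin k) (Fin k) ℂ := fun p r =>
  if p = r then (if cd = (p, p) then 1 else 0)
  else if p < r then ((if cd = (p, r) then 1 else 0)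
    + (if cd = (r, p) then 1 else 0) * Complex.I) / (Real.sqrt 2 : ℂ)
  else ((if cd = (r, p) then 1 else 0)
    - (if cd = (p, r) then 1 else 0) * Complex.I) / (Real.sqrt 2 : ℂ)

theorem herm_eq_sum (x : Coord k) : herm x = ∑ cd, (x cd : ℂ) • hermB k cd := by
  ext p r
  simp only [herm, hermB, Matrix.sum_apply, Matrix.smul_apply, smul_eq_mul]
  split_ifs with h1 h2 <;>
    simp [mul_div_assoc', mul_add, mul_sub, ← Finset.sum_div, Finset.sum_add_distrib,
      Finset.sum_sub_distrib, ← mul_assoc, Finset.mul_sum, h1]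

theorem sum_mul_hermB (f : Fin k × Fin k → ℂ) (p r : Fin k) :
    ∑ cd, hermB k cd p r * f cd = if p = r then f (p, p)
      else if p < r then (f (p, r) + f (r, p) * Complex.I) / (Real.sqrt 2 : ℂ)
      else (f (r, p) - f (p, r) * Complex.I) / (Real.sqrt 2 : ℂ) := by
  simp only [hermB]
  split_ifs with h1 h2 <;>
    simp [div_mul_eq_mul_div, add_mul, sub_mul, ← Finset.sum_div, Finset.sum_add_distrib,
      Finset.sum_sub_distrib, mul_comm Complex.I, Finset.sum_mul]

theorem hermB_diag (a t q : Fin k) : hermB k (a, a) t q = if t = a ∧ q = a then 1 else 0 := by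
  simp only [hermB, Prod.mk.injEq]
  split_ifs <;> first | rfl | omega | simp

theorem hermB_upper {a b : Fin k} (h : a < b) (t q : Fin k) :
    hermB k (a, b) t q = ((if t = a ∧ q = b then 1 else 0) + if t = b ∧ q = a then 1 else 0)
      / (Real.sqrt 2 : ℂ) := by
  simp only [hermB, Prod.mk.injEq]
  split_ifs <;> first | rfl | omega | simp

theorem hermB_lower {a b : Fin k} (h : a < b) (t q : Fin k) :
    hermB k (b, a) t q = Complex.I * ((if t = a ∧ q = b then 1 else 0)
      - if t = b ∧ q = a then 1 else 0) / (Real.sqrt 2 : ℂ) := by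
  simp only [hermB, Prod.mk.injEq]
  split_ifs <;> first | rfl | omega | simp

theorem hermB_complete (k : ℕ) : BasisComplete (hermB k) := by
  intro p r t q
  rw [sum_mul_hermB]
  have h2 : (Real.sqrt 2 : ℂ) * (Real.sqrt 2 : ℂ) = 2 := by
    rw [← Complex.ofReal_mul, Real.mul_self_sqrt (by norm_num)]; norm_num
  have key : ∀ X Y : ℂ, ((X + Y) / (Real.sqrt 2 : ℂ)
      + Complex.I * (X - Y) / (Real.sqrt 2 : ℂ) * Complex.I) / (Real.sqrt 2 : ℂ) = Y := by
    intro X Y
    rw [div_mul_eq_mul_div, ← add_div, div_div, h2]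
    linear_combination (X - Y) / 2 * Complex.I_mul_I
  have key' : ∀ X Y : ℂ, ((X + Y) / (Real.sqrt 2 : ℂ)
      - Complex.I * (X - Y) / (Real.sqrt 2 : ℂ) * Complex.I) / (Real.sqrt 2 : ℂ) = X := by
    intro X Y
    rw [div_mul_eq_mul_div, ← sub_div, div_div, h2]
    linear_combination (Y - X) / 2 * Complex.I_mul_I
  rcases lt_trichotomy p r with h | h | h
  · rw [if_neg h.ne, if_pos h, hermB_upper h, hermB_lower h, key]
    split_ifs <;> first | rfl | omega
  · subst h
    rw [if_pos rfl, hermB_diag]
    split_ifs <;> first | rfl | omega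
  · rw [if_neg h.ne', if_neg h.not_gt, hermB_upper h, hermB_lower h, key']
    split_ifs <;> first | rfl | omega

variable {σ : Type} [Fintype σ]

/-- The scaling of the Gaussian coordinates. -/
def gueScale (k : ℕ) : ℝ := (Real.sqrt k)⁻¹

/-- The coordinates of the matrices from standard Gaussian variables. -/
def gueMap (σ : Type) (k : ℕ) (g : σ × Fin k × Fin k → ℝ) : σ → Coord k :=
  fun s => WithLp.toLp 2 fun cd => gueScale k * g (s, cd)

theorem gue_eq_map (σ : Type) [Fintype σ] (k : ℕ) :
    gue σ k = (stdGauss (σ × Fin k × Fin k)).map (gueMap σ k) := by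
  have hv : gaussianReal 0 ((k : ℝ≥0)⁻¹) = (gaussianReal 0 1).map (gueScale k * ·) := by
    rw [gaussianReal_map_const_mul, mul_zero, mul_one]
    congr 1
    ext
    simp [gueScale, Real.sq_sqrt]
  have hc : gueCoord k = (stdGauss (Fin k × Fin k)).map
      (fun x => WithLp.toLp 2 fun cd => gueScale k * x cd) := by
    rw [gueCoord, hv, ← Measure.pi_map_pi (fun _ => (measurable_const_mul _).aemeasurable),
      Measure.map_map (by fun_prop) (by fun_prop)]
    rfl
  have hcur : (stdGauss (σ × Fin k × Fin k)).map (MeasurableEquiv.curry σ (Fin k × Fin k) ℝ)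
      = Measure.pi fun _ : σ => stdGauss (Fin k × Fin k) := by
    simp only [stdGauss, ← Measure.infinitePi_eq_pi]
    exact Measure.infinitePi_map_curry fun _ _ => gaussianReal 0 1
  have hm : Measurable fun x : Fin k × Fin k → ℝ =>
      (WithLp.toLp 2 fun cd => gueScale k * x cd : Coord k) :=
    (WithLp.measurable_toLp 2 _).comp
      (measurable_pi_lambda _ fun cd => (measurable_pi_apply cd).const_mul _)
  haveI : IsProbabilityMeasure (gueCoord k) := by
    rw [hc]; exact Measure.isProbabilityMeasure_map hm.aemeasurable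
  have hm' : Measurable fun (x : σ → Fin k × Fin k → ℝ) i =>
      (WithLp.toLp 2 fun cd => gueScale k * x i cd : Coord k) :=
    measurable_pi_lambda _ fun i => hm.comp (measurable_pi_apply i)
  rw [gue, hc, ← Measure.pi_map_pi (fun _ => hm.aemeasurable), ← hcur,
    Measure.map_map hm' (MeasurableEquiv.measurable _)]
  rfl

variable [DecidableEq σ] {α : Type}

theorem evalR_gueH (g : σ × Fin k × Fin k → ℝ) (i : σ) :
    ((MvPolynomial.C (gueScale k : ℂ) : GPoly σ (Fin k)) • gueH (hermB k) i).map (evalR g)
      = herm (gueMap σ k g i) := by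
  rw [herm_eq_sum]
  refine Matrix.ext fun p r => ?_
  simp only [Matrix.map_apply, Matrix.smul_apply, gueH, Matrix.sum_apply, smul_eq_mul, map_mul,
    map_sum, evalR, hermBasisR, MvPolynomial.algebraMap_eq, MvPolynomial.eval_C,
    MvPolynomial.eval_X, Finset.mul_sum]
  exact Finset.sum_congr rfl fun cd _ => by simp [gueMap]; ring

theorem evalR_wordTr (A : α → Matrix (Fin k) (Fin k) ℂ) (g : σ × Fin k × Fin k → ℝ)
    (w : List (α ⊕ σ)) :
    evalR g (wordTr (hermB k) A (gueScale k : ℂ) (k : ℂ)⁻¹ w)
      = ntr (wordProd (Sum.elim A fun s => herm (gueMap σ k g s)) w) := by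
  rw [wordTr, map_mul, AddMonoidHom.map_trace (evalR g), wordMat, ntr, wordProd, div_eq_inv_mul]
  congr 1
  · simp [evalR]
  congr 1
  show (evalR g).mapMatrix (List.map _ w).prod = _
  rw [map_list_prod, List.map_map]
  congr 1
  refine List.map_congr_left fun a _ => ?_
  cases a with
  | inl j =>
    refine Matrix.ext fun p r => ?_
    simp [letterMat, evalR, MvPolynomial.algebraMap_eq]
  | inr i => exact evalR_gueH g i

end

end Vale.Agent.P087
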