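import Vale.Agent.P087.GUEBridge

/-! # Expected products of traces converge to the free law -/

namespace Vale.Agent.P087

open MeasureTheory Filter Matrix
open scoped Topology

noncomputable section

variable {α σ : Type} [DecidableEq α] [DecidableEq σ]

/-- The number of Gaussian letters. -/
def numR (w : List (α ⊕ σ)) : ℕ := w.countP Sum.isRight

/-- The number of Gaussian letters in all words. -/
def numRs (ls : List (List (α ⊕ σ))) : ℕ := (ls.map numR).sum

theorem numR_append (u v : List (α ⊕ σ)) : numR (u ++ v) = numR u + numR v := by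
  simp [numR]

theorem numR_inl (u : List α) : numR (u.map (Sum.inl : α → α ⊕ σ)) = 0 := by
  simp [numR, List.countP_eq_zero]

theorem eq_map_inl_of_numR : ∀ {w : List (α ⊕ σ)}, numR w = 0 → ∃ u : List α, w = u.map Sum.inl
  | [], _ => ⟨[], rfl⟩
  | Sum.inl a :: w, h => by
    obtain ⟨u, hu⟩ := eq_map_inl_of_numR (w := w) (by simpa [numR] using h)
    exact ⟨a :: u, by simp [hu]⟩
  | Sum.inr i :: w, h => by simp [numR] at h

theorem splitFirst_of_numR : ∀ {w : List (α ⊕ σ)}, numR w ≠ 0 → ∃ t, splitFirst w = some t
  | [], h => by simp [numR] at h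
  | Sum.inl a :: w, h => by
    obtain ⟨t, ht⟩ := splitFirst_of_numR (w := w) (by simpa [numR] using h)
    exact ⟨(a :: t.1, t.2), by simp [splitFirst, ht]⟩
  | Sum.inr i :: w, _ => ⟨_, rfl⟩

theorem mem_cuts (i : σ) : ∀ {w : List (α ⊕ σ)} {uv}, uv ∈ cuts i w →
    w = uv.1 ++ Sum.inr i :: uv.2
  | [], _, h => by simp [cuts] at h
  | Sum.inl j :: w, uv, h => by
    simp only [cuts, List.mem_map] at h
    obtain ⟨x, hx, rfl⟩ := h
    simpa using mem_cuts i hx
  | Sum.inr i' :: w, uv, h => by
    simp only [cuts, List.mem_append, List.mem_map] at h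
    rcases h with h | ⟨x, hx, rfl⟩
    · split_ifs at h with e
      · simp only [List.mem_singleton] at h; subst h; simp [e]
      · simp at h
    · simpa using mem_cuts i hx

theorem cuts_append_inl (i : σ) (u : List α) : ∀ b : List (α ⊕ σ),
    cuts i (b ++ u.map Sum.inl) = (cuts i b).map fun xy => (xy.1, xy.2 ++ u.map Sum.inl)
  | [] => by induction u with
    | nil => simp [cuts]
    | cons a u ih => simp only [List.nil_append] at ih; simp [cuts, ih]
  | Sum.inl j :: b => by
    simp [cuts, cuts_append_inl i u b, List.map_map, Function.comp_def]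
  | Sum.inr i' :: b => by
    simp only [List.cons_append, cuts, cuts_append_inl i u b, List.map_map, List.map_append,
      Function.comp_def]
    split_ifs <;> simp

theorem sum_map_cuts {M : Type*} [AddCommMonoid M] (i : σ) :
    ∀ (b : List (α ⊕ σ)) (F : List (α ⊕ σ) × List (α ⊕ σ) → M),
    ((cuts i b).map F).sum
      = ∑ l ∈ Finset.range b.length,
          if b[l]? = some (Sum.inr i) then F (b.take l, b.drop (l + 1)) else 0
  | [], F => by simp [cuts]
  | Sum.inl j :: b, F => by
    simp only [cuts, List.map_map, List.length_cons, Finset.sum_range_succ']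
    rw [sum_map_cuts i b]
    simp
  | Sum.inr i' :: b, F => by
    simp only [cuts, List.map_append, List.sum_append, List.map_map, List.length_cons,
      Finset.sum_range_succ']
    rw [sum_map_cuts i b, add_comm]
    simp only [List.getElem?_cons_succ, List.take_succ_cons, List.drop_succ_cons,
      List.getElem?_cons_zero, List.take_zero, Option.some.injEq, Sum.inr.injEq,
      Function.comp_apply]
    congr 1
    split_ifs <;> simp

theorem crossWords_num (i : σ) (w : List (α ⊕ σ)) : ∀ (ls : List (List (α ⊕ σ))) {ls'},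
    ls' ∈ crossWords i w ls → numRs ls' + 1 = numR w + numRs ls
  | [], _, h => by simp [crossWords] at h
  | l :: ls, ls', h => by
    simp only [crossWords, List.mem_append, List.mem_map] at h
    rcases h with ⟨uv, huv, rfl⟩ | ⟨x, hx, rfl⟩
    · simp only [numRs, List.map_cons, List.sum_cons]
      have := congrArg numR (mem_cuts i huv)
      simp only [numR_append] at this
      have e : numR (Sum.inr i :: uv.2) = numR uv.2 + 1 := by simp [numR, List.countP_cons]
      simp only [numR_append]
      omega
    · have := crossWords_num i w ls hx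
      simp only [numRs, List.map_cons, List.sum_cons] at this ⊢
      omega

variable [Fintype σ] {k : ℕ}

/-- The expected product of normalised traces of the Gaussian model. -/
def gueExp (A : α → Matrix (Fin k) (Fin k) ℂ) (ls : List (List (α ⊕ σ))) : ℂ :=
  trExp (hermB k) A (gueScale k : ℂ) (k : ℂ)⁻¹ ls

theorem gueScale_sq (k : ℕ) : (gueScale k : ℂ) * (gueScale k : ℂ) = (k : ℂ)⁻¹ := by
  rw [← Complex.ofReal_mul, gueScale, ← mul_inv, Real.mul_self_sqrt (Nat.cast_nonneg k)]
  simp

theorem gueExp_perm (A : α → Matrix (Fin k) (Fin k) ℂ) {ls ls' : List (List (α ⊕ σ))}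
    (h : ls.Perm ls') : gueExp A ls = gueExp A ls' := by
  unfold gueExp trExp
  rw [(h.map _).prod_eq]

theorem gueExp_rotate (A : α → Matrix (Fin k) (Fin k) ℂ) (u v : List (α ⊕ σ))
    (ls : List (List (α ⊕ σ))) : gueExp A ((u ++ v) :: ls) = gueExp A ((v ++ u) :: ls) := by
  simp only [gueExp, trExp, List.map_cons, List.prod_cons, wordTr_rotate (u := u)]

theorem gueExp_rotate₂ (A : α → Matrix (Fin k) (Fin k) ℂ) (x u v : List (α ⊕ σ))
    (ls : List (List (α ⊕ σ))) :
    gueExp A (x :: (u ++ v) :: ls) = gueExp A (x :: (v ++ u) :: ls) := by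
  simp only [gueExp, trExp, List.map_cons, List.prod_cons, wordTr_rotate (u := u)]

theorem gueExp_pure (A : α → Matrix (Fin k) (Fin k) ℂ) : ∀ us : List (List α),
    gueExp (σ := σ) A (us.map fun u => u.map Sum.inl)
      = (us.map fun u => ntr (wordProd A u)).prod := by
  intro us
  have h : ∀ u : List α, wordTr (hermB k) A (gueScale k : ℂ) (k : ℂ)⁻¹
      (u.map (Sum.inl : α → α ⊕ σ)) = MvPolynomial.C (ntr (wordProd A u)) := by
    intro u
    have e : wordMat (hermB k) A (gueScale k : ℂ) (u.map (Sum.inl : α → α ⊕ σ))
        = (wordProd A u).map (algebraMap ℂ (GPoly σ (Fin k))) := by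
      show _ = (algebraMap ℂ (GPoly σ (Fin k))).mapMatrix _
      rw [wordMat, wordProd, map_list_prod, List.map_map, List.map_map]
      rfl
    rw [wordTr, e, ntr, div_eq_inv_mul, map_mul,
      AddMonoidHom.map_trace (MvPolynomial.C : ℂ →+* GPoly σ (Fin k))]
    rfl
  simp only [gueExp, trExp, List.map_map, Function.comp_def, h]
  rw [show (us.map fun u => (MvPolynomial.C (ntr (wordProd A u)) : GPoly σ (Fin k)))
      = (us.map fun u => ntr (wordProd A u)).map MvPolynomial.C by rw [List.map_map]; rfl,
    ← map_list_prod, gExp_C]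

theorem gueExp_step (A : α → Matrix (Fin k) (Fin k) ℂ) (u : List α) (i : σ) (b : List (α ⊕ σ))
    (ls : List (List (α ⊕ σ))) :
    gueExp A ((u.map Sum.inl ++ Sum.inr i :: b) :: ls)
      = (∑ l ∈ Finset.range b.length, if b[l]? = some (Sum.inr i) then
          gueExp A (b.take l :: (u.map Sum.inl ++ b.drop (l + 1)) :: ls) else 0)
        + (k : ℂ)⁻¹ * (k : ℂ)⁻¹
          * ((crossWords i (b ++ u.map Sum.inl) ls).map (gueExp A)).sum := by
  rw [gueExp_rotate, List.cons_append]
  have h : gueExp A ((Sum.inr i :: (b ++ u.map Sum.inl)) :: ls)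
      = ((cuts i (b ++ u.map Sum.inl)).map fun uv => gueExp A (uv.1 :: uv.2 :: ls)).sum
        + (k : ℂ)⁻¹ * (k : ℂ)⁻¹
          * ((crossWords i (b ++ u.map Sum.inl) ls).map (gueExp A)).sum := by
    unfold gueExp
    exact trExp_step (hermB_complete k) A (gueScale_sq k) i (b ++ u.map Sum.inl) ls
  rw [h, cuts_append_inl, List.map_map,
    sum_map_cuts i b ((fun uv => gueExp A (uv.1 :: uv.2 :: ls)) ∘
      fun xy => (xy.1, xy.2 ++ u.map Sum.inl))]
  simp only [Function.comp_apply]
  refine congrArg₂ (· + ·) (Finset.sum_congr rfl fun l _ => ?_) rfl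
  rw [gueExp_rotate₂]

theorem tendsto_list_sum_map {β γ : Type*} (L : List β) (F : β → γ → ℂ) {f : Filter γ}
    (h : ∀ x ∈ L, ∃ c, Tendsto (F x) f (𝓝 c)) :
    ∃ c, Tendsto (fun N => (L.map fun x => F x N).sum) f (𝓝 c) := by
  induction L with
  | nil => exact ⟨0, by simpa using tendsto_const_nhds⟩
  | cons x L ih =>
    obtain ⟨c, hc⟩ := h x (by simp)
    obtain ⟨d, hd⟩ := ih fun y hy => h y (by simp [hy])
    exact ⟨c + d, by simpa using hc.add hd⟩

variable (μ : List α → ℂ) (kk : ℕ → ℕ) (D : ∀ N, α → Matrix (Fin (kk N)) (Fin (kk N)) ℂ)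

theorem gueExp_tendsto (hk : Tendsto kk atTop atTop)
    (hμ : ∀ w, Tendsto (fun N => ntr (wordProd (D N) w)) atTop (𝓝 (μ w))) :
    ∀ (T : ℕ) (ls : List (List (α ⊕ σ))), numRs ls = T →
      Tendsto (fun N => gueExp (D N) ls) atTop (𝓝 (ls.map (law μ)).prod) := by
  intro T
  induction T using Nat.strong_induction_on with
  | _ T ih =>
    intro ls hT
    by_cases h0 : T = 0
    · have hall : ∀ w ∈ ls, numR w = 0 := fun w hw => by
        have := List.le_sum_of_mem (List.mem_map_of_mem (f := numR) hw)
        rw [← numRs, hT, h0] at this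
        omega
      have hus : ∃ us : List (List α), ls = us.map fun u => u.map Sum.inl := by
        clear ih hT
        induction ls with
        | nil => exact ⟨[], rfl⟩
        | cons w ls ihl =>
          obtain ⟨u, hu⟩ := eq_map_inl_of_numR (hall w (by simp))
          obtain ⟨us, hus⟩ := ihl fun x hx => hall x (by simp [hx])
          exact ⟨u :: us, by simp [hu, hus]⟩
      obtain ⟨us, rfl⟩ := hus
      simp only [gueExp_pure, List.map_map, Function.comp_def, law_inl]
      exact tendsto_list_prod us fun u _ => hμ u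
    · obtain ⟨w, hw, hw0⟩ : ∃ w ∈ ls, numR w ≠ 0 := by
        by_contra hne
        push Not at hne
        refine h0 (hT ▸ List.sum_eq_zero fun x hx => ?_)
        obtain ⟨w, hw, rfl⟩ := List.mem_map.mp hx
        exact hne w hw
      obtain ⟨pre, post, hpp⟩ := List.append_of_mem hw
      set rest := pre ++ post
      have hperm : ls.Perm (w :: rest) := hpp ▸ List.perm_middle
      obtain ⟨⟨u, i, b⟩, ht⟩ := splitFirst_of_numR hw0
      have hwe : w = u.map Sum.inl ++ Sum.inr i :: b := splitFirst_some ht
      have hTe : T = numR w + numRs rest := by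
        rw [← hT]; exact (hperm.map numR).sum_eq
      have hnw : numR w = numR b + 1 := by
        rw [hwe, numR_append, numR_inl, zero_add]; simp [numR, List.countP_cons]
      simp only [fun N => gueExp_perm (D N) hperm, (hperm.map (law μ)).prod_eq, List.map_cons,
        List.prod_cons]
      rw [hwe, law_sd, Finset.sum_mul]
      simp only [gueExp_step]
      have hz : Tendsto (fun N => ((kk N : ℂ))⁻¹) atTop (𝓝 0) :=
        (tendsto_inv_atTop_nhds_zero_nat (𝕜 := ℂ)).comp hk
      obtain ⟨c, hc⟩ := tendsto_list_sum_map (crossWords i (b ++ u.map Sum.inl) rest)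
        (fun x N => gueExp (D N) x) fun x hx => ⟨_, ih (numRs x) (by
          have := crossWords_num i _ rest hx
          rw [numR_append, numR_inl] at this
          omega) x rfl⟩
      rw [← add_zero (∑ l ∈ Finset.range b.length, _)]
      refine (tendsto_finsetSum _ fun l hl => ?_).add ?_
      · split_ifs with hl'
        · rw [mul_assoc]
          have hb : numR b = numR (b.take l) + (numR (b.drop (l + 1)) + 1) := by
            conv_lhs => rw [← List.take_append_drop l b]
            rw [numR_append]
            congr 1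
            obtain ⟨hll, hget⟩ := List.getElem?_eq_some_iff.mp hl'
            rw [List.drop_eq_getElem_cons hll, hget]
            simp [numR, List.countP_cons]
          have := ih (numRs (b.take l :: (u.map Sum.inl ++ b.drop (l + 1)) :: rest)) (by
            simp only [numRs, List.map_cons, List.sum_cons, numR_append, numR_inl]
            simp only [numRs] at hTe
            omega) _ rfl
          simpa using this
        · simp
      · have := (hz.mul hz).mul hc
        simpa using this

end

end Vale.Agent.P087
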