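import Vale.Agent.P087.GUELimit

/-! # Moments and norms of the Gaussian matrices -/

namespace Vale.Agent.P087

open MeasureTheory Matrix Filter
open scoped Topology

noncomputable section

/-- The weight bounding an expected normalised trace of a power. -/
def mBound (n : ℕ) : ℝ := 8 ^ n / ((n : ℝ) + 1) ^ 2

theorem mBound_pos (n : ℕ) : 0 < mBound n := by unfold mBound; positivity

theorem mBound_le (n : ℕ) : mBound n ≤ 8 ^ n := by
  unfold mBound
  exact div_le_self (by positivity) (one_le_pow₀ (by linarith [Nat.cast_nonneg (α := ℝ) n]))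

theorem sum_inv_sq_succ : ∀ m : ℕ,
    ∑ j ∈ Finset.range m, 1 / ((j : ℝ) + 1) ^ 2 ≤ 2 - 2 / ((m : ℝ) + 1)
  | 0 => by norm_num
  | m + 1 => by
    rw [Finset.sum_range_succ]
    refine le_trans (add_le_add (sum_inv_sq_succ m) le_rfl) ?_
    have h : 2 / ((m : ℝ) + 1) - 2 / (((m + 1 : ℕ) : ℝ) + 1) - 1 / ((m : ℝ) + 1) ^ 2
        = (m : ℝ) / (((m : ℝ) + 1) ^ 2 * ((m : ℝ) + 2)) := by
      push_cast; field_simp; ring
    have : 0 ≤ (m : ℝ) / (((m : ℝ) + 1) ^ 2 * ((m : ℝ) + 2)) := by positivity
    linarith

theorem mBound_conv (m : ℕ) :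
    ∑ j ∈ Finset.range m, mBound j * mBound (m - 1 - j) ≤ mBound (m + 1) / 2 := by
  have hterm : ∀ j ∈ Finset.range m, mBound j * mBound (m - 1 - j)
      ≤ 8 ^ (m - 1) * (2 / ((m : ℝ) + 1) ^ 2)
        * (1 / ((j : ℝ) + 1) ^ 2 + 1 / (((m - 1 - j : ℕ) : ℝ) + 1) ^ 2) := by
    intro j hj
    have hj' := Finset.mem_range.mp hj
    set x : ℝ := (j : ℝ) + 1
    set y : ℝ := ((m - 1 - j : ℕ) : ℝ) + 1
    have hx : 0 < x := by positivity
    have hy : 0 < y := by positivity
    have hxy : (m : ℝ) + 1 = x + y := by
      have : (j : ℝ) + ((m - 1 - j : ℕ) : ℝ) + 1 = (m : ℝ) := by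
        exact_mod_cast (by omega : j + (m - 1 - j) + 1 = m)
      simp only [x, y]; linarith
    have e : mBound j * mBound (m - 1 - j) = 8 ^ (m - 1) * (1 / (x ^ 2 * y ^ 2)) := by
      rw [show (8 : ℝ) ^ (m - 1) = 8 ^ j * 8 ^ (m - 1 - j) by rw [← pow_add]; congr 1; omega]
      simp only [x, y]; unfold mBound; field_simp
    rw [e, mul_assoc, hxy]
    refine mul_le_mul_of_nonneg_left ?_ (by positivity)
    rw [div_add_div _ _ (by positivity) (by positivity), div_mul_div_comm,
      div_le_div_iff₀ (by positivity) (by positivity)]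
    nlinarith [mul_nonneg (mul_nonneg (sq_nonneg x) (sq_nonneg y)) (sq_nonneg (x - y))]
  refine (Finset.sum_le_sum hterm).trans ?_
  rw [← Finset.mul_sum, Finset.sum_add_distrib,
    Finset.sum_range_reflect (fun j => 1 / ((j : ℝ) + 1) ^ 2) m]
  rcases m with _ | m
  · simp only [Finset.range_zero, Finset.sum_empty, add_zero, mul_zero]
    exact (div_pos (mBound_pos _) two_pos).le
  refine (mul_le_mul_of_nonneg_left 
    (add_le_add ((sum_inv_sq_succ _).trans (sub_le_self _ (by positivity)))
      ((sum_inv_sq_succ _).trans (sub_le_self _ (by positivity)))) (by positivity)).trans ?_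
  simp only [mBound, Nat.add_sub_cancel]
  rw [show (8 : ℝ) ^ (m + 1 + 1) = 8 ^ m * 64 by rw [pow_succ, pow_succ]; ring]
  push_cast
  have hm : (0 : ℝ) ≤ m := Nat.cast_nonneg m
  rw [mul_div_assoc', div_mul_eq_mul_div, div_div, div_le_div_iff₀ (by positivity) (by positivity)]
  have h8 : (0 : ℝ) < 8 ^ m := by positivity
  have h9 : 0 ≤ 4 * ((m : ℝ) + 2) ^ 2 - ((m : ℝ) + 3) ^ 2 := by nlinarith
  nlinarith [mul_nonneg h8.le h9]

/-- The exponent lists produced by the cross terms. -/
def crossN (m : ℕ) : List ℕ → List (List ℕ)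
  | [] => []
  | l :: ls => List.replicate l ((m + (l - 1)) :: ls) ++ (crossN m ls).map fun x => l :: x

theorem crossN_mem {m : ℕ} : ∀ {ns ns' : List ℕ}, ns' ∈ crossN m ns → ns'.sum + 1 = m + ns.sum
  | [], _, h => by simp [crossN] at h
  | l :: ls, ns', h => by
    simp only [crossN, List.mem_append, List.mem_replicate, List.mem_map] at h
    rcases h with ⟨hl, rfl⟩ | ⟨x, hx, rfl⟩
    · simp only [List.sum_cons]; omega
    · have := crossN_mem hx
      simp only [List.sum_cons]; omega

/-- The product of the weights. -/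
def mProd (ns : List ℕ) : ℝ := (ns.map mBound).prod

theorem mProd_pos (ns : List ℕ) : 0 < mProd ns := by
  refine List.prod_pos fun x hx => ?_
  obtain ⟨n, -, rfl⟩ := List.mem_map.mp hx
  exact mBound_pos n

theorem mProd_cons (n : ℕ) (ns : List ℕ) : mProd (n :: ns) = mBound n * mProd ns := by
  simp [mProd]

theorem crossN_sum_le {m q : ℕ} : ∀ ns : List ℕ, m + 1 + ns.sum ≤ q →
    ((crossN m ns).map mProd).sum
      ≤ ((q : ℝ) + 1) ^ 4 / 64 * (ns.sum : ℝ) * (mBound (m + 1) * mProd ns)
  | [], _ => by simp [crossN]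
  | l :: ls, h => by
    simp only [List.sum_cons] at h
    have ih := crossN_sum_le (m := m) (q := q) ls (by omega)
    simp only [crossN, List.map_append, List.sum_append, List.map_replicate, List.sum_replicate,
      nsmul_eq_mul, List.map_map, Function.comp_def, mProd_cons, List.sum_map_mul_left,
      List.sum_cons, Nat.cast_add]
    have h1 : (l : ℝ) * mBound (m + (l - 1))
        ≤ (l : ℝ) * (((q : ℝ) + 1) ^ 4 / 64 * (mBound (m + 1) * mBound l)) := by
      rcases Nat.eq_zero_or_pos l with rfl | hl
      · simp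
      refine mul_le_mul_of_nonneg_left ?_ (Nat.cast_nonneg _)
      obtain ⟨l, rfl⟩ : ∃ l', l = l' + 1 := ⟨l - 1, by omega⟩
      have a1 : (m : ℝ) + 2 ≤ (q : ℝ) + 1 := by exact_mod_cast (by omega : m + 2 ≤ q + 1)
      have a2 : (l : ℝ) + 2 ≤ (q : ℝ) + 1 := by exact_mod_cast (by omega : l + 2 ≤ q + 1)
      have a3 : ((m : ℝ) + 2) ^ 2 * ((l : ℝ) + 2) ^ 2 ≤ ((q : ℝ) + 1) ^ 4 := by
        rw [show ((q : ℝ) + 1) ^ 4 = ((q : ℝ) + 1) ^ 2 * ((q : ℝ) + 1) ^ 2 by ring]
        gcongr
      have a4 : (1 : ℝ) ≤ ((m : ℝ) + l + 1) ^ 2 :=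
        one_le_pow₀ (by linarith [Nat.cast_nonneg (α := ℝ) m, Nat.cast_nonneg (α := ℝ) l])
      unfold mBound
      simp only [Nat.add_sub_cancel, pow_add]
      push_cast
      rw [div_mul_div_comm, div_mul_div_comm, div_le_div_iff₀ (by positivity) (by positivity)]
      have a5 : ((m : ℝ) + 2) ^ 2 * ((l : ℝ) + 2) ^ 2
          ≤ ((q : ℝ) + 1) ^ 4 * ((m : ℝ) + l + 1) ^ 2 :=
        a3.trans (le_mul_of_one_le_right (by positivity) a4)
      nlinarith [mul_le_mul_of_nonneg_left a5 (by positivity : (0 : ℝ) ≤ 8 ^ m * 8 ^ l * 64)]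
    have h2 := mul_le_mul_of_nonneg_right h1 (mProd_pos ls).le
    have h3 := mul_le_mul_of_nonneg_left ih (mBound_pos l).le
    linarith

variable {σ : Type} [Fintype σ] [DecidableEq σ] {k : ℕ}

/-- The deterministic letters of the pure Gaussian model: none. -/
def noLetters (k : ℕ) : Empty → Matrix (Fin k) (Fin k) ℂ := fun e => e.elim

/-- A power of one letter. -/
def repWord (i : σ) (m : ℕ) : List (Empty ⊕ σ) := List.replicate m (Sum.inr i)

theorem cuts_repWord (i : σ) : ∀ m : ℕ,
    cuts i (repWord i m) = (List.range m).map fun j => (repWord i j, repWord i (m - 1 - j))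
  | 0 => by simp [repWord, cuts]
  | m + 1 => by
    have ih := cuts_repWord i m
    simp only [repWord] at ih ⊢
    rw [List.replicate_succ, cuts, ih, List.range_succ_eq_map]
    simp only [if_true, List.map_map, List.map_cons, List.singleton_append, Function.comp_def]
    refine congrArg₂ List.cons (by simp) (List.map_congr_left fun j hj => ?_)
    have := List.mem_range.mp hj
    simp [List.replicate_succ]
    omega

theorem crossWords_repWord (i : σ) (m : ℕ) : ∀ ns : List ℕ,
    crossWords i (repWord i m) (ns.map (repWord i))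
      = (crossN m ns).map (List.map (repWord i))
  | [] => by simp [crossWords, crossN]
  | l :: ls => by
    simp only [List.map_cons, crossWords, crossN, List.map_append, crossWords_repWord i m ls,
      cuts_repWord, List.map_map, List.map_replicate]
    refine congrArg₂ (· ++ ·) ?_ rfl
    rw [List.eq_replicate_iff]
    refine ⟨by simp, fun x hx => ?_⟩
    simp only [List.mem_map, List.mem_range, Function.comp_apply] at hx
    obtain ⟨j, hj, rfl⟩ := hx
    simp only [repWord, List.replicate_append_replicate]
    congr 3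
    omega

theorem gueExp_repWord_le (hk : 0 < k) {q : ℕ} (hq : ((q : ℝ) + 1) ^ 5 ≤ (k : ℝ) ^ 2) (i : σ) :
    ∀ (T : ℕ) (ns : List ℕ), ns.sum = T → T ≤ q →
      ‖gueExp (noLetters k) (ns.map (repWord i))‖ ≤ mProd ns := by
  intro T
  induction T using Nat.strong_induction_on with
  | _ T ih =>
    intro ns
    induction ns with
    | nil =>
      intro _ _
      rw [gueExp, trExp, List.map_nil, List.map_nil, List.prod_nil, ← MvPolynomial.C_1, gExp_C]
      simp [mProd]
    | cons n ns ihn =>
      intro hT hTq
      rcases n with _ | m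
      · simp only [List.map_cons, mProd_cons, List.sum_cons, zero_add] at hT ⊢
        have e : gueExp (noLetters k) (repWord i 0 :: ns.map (repWord i))
            = gueExp (noLetters k) (ns.map (repWord i)) := by
          unfold gueExp trExp
          have hk0 : (k : ℂ) ≠ 0 := Nat.cast_ne_zero.mpr hk.ne'
          have : wordTr (hermB k) (noLetters k) (gueScale k : ℂ) (k : ℂ)⁻¹
              (repWord i 0) = 1 := by
            rw [wordTr, show repWord i 0 = ([] : List (Empty ⊕ σ)) from rfl, wordMat, List.map_nil,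
              List.prod_nil, Matrix.trace_one, Fintype.card_fin, ← map_natCast MvPolynomial.C,
              ← map_mul, inv_mul_cancel₀ hk0, MvPolynomial.C_1]
          rw [List.map_cons, List.prod_cons, this, one_mul]
        rw [e, show mBound 0 = 1 by simp [mBound], one_mul]
        exact ihn hT hTq
      · simp only [List.sum_cons] at hT
        have hstep := gueExp_step (noLetters k) [] i (repWord i m) (ns.map (repWord i))
        simp only [List.map_nil, List.nil_append, List.append_nil] at hstep
        rw [crossWords_repWord, List.map_map] at hstep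
        rw [List.map_cons, show repWord i (m + 1) = Sum.inr i :: repWord i m from rfl, hstep,
          mProd_cons]
        refine (norm_add_le _ _).trans ?_
        have h1 : ‖∑ l ∈ Finset.range (repWord i m).length,
            if (repWord i m)[l]? = some (Sum.inr i) then gueExp (noLetters k)
              ((repWord i m).take l :: (repWord i m).drop (l + 1) :: ns.map (repWord i)) else 0‖
            ≤ mBound (m + 1) * mProd ns / 2 := by
          refine (norm_sum_le _ _).trans ?_
          rw [show (repWord i m).length = m by simp [repWord]]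
          refine le_trans (Finset.sum_le_sum (g := fun l => mBound l * mBound (m - 1 - l) * mProd ns)
            fun l hl => ?_) ?_
          · have hl' := Finset.mem_range.mp hl
            have ht : (repWord i m).take l = repWord i l := by
              simp [repWord, List.take_replicate, min_eq_left hl'.le]
            have hd : (repWord i m).drop (l + 1) = repWord i (m - 1 - l) := by
              simp only [repWord, List.drop_replicate]; congr 1; omega
            rw [if_pos (by simp [repWord, hl']), ht, hd]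
            have := ih (l + (m - 1 - l) + ns.sum) (by omega) (l :: (m - 1 - l) :: ns)
              (by simp only [List.sum_cons]; omega) (by omega)
            simpa [mProd_cons, mul_assoc] using this
          · rw [← Finset.sum_mul, mul_div_right_comm]
            exact mul_le_mul_of_nonneg_right (mBound_conv m) (mProd_pos ns).le
        have h2 : ‖(k : ℂ)⁻¹ * (k : ℂ)⁻¹
            * ((crossN m ns).map (gueExp (noLetters k) ∘ List.map (repWord i))).sum‖
            ≤ mBound (m + 1) * mProd ns / 2 := by
          rw [norm_mul, norm_mul, norm_inv, Complex.norm_natCast]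
          have hsum : ‖((crossN m ns).map (gueExp (noLetters k) ∘ List.map (repWord i))).sum‖
              ≤ ((crossN m ns).map mProd).sum := by
            have hmem : ∀ x ∈ crossN m ns,
                ‖gueExp (noLetters k) (x.map (repWord i))‖ ≤ mProd x := by
              intro x hx
              have := crossN_mem hx
              exact ih x.sum (by omega) x rfl (by omega)
            generalize crossN m ns = L at hmem
            induction L with
            | nil => simp
            | cons x L ihL =>
              simp only [List.map_cons, List.sum_cons, Function.comp_apply]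
              exact (norm_add_le _ _).trans (add_le_add (hmem x (by simp))
                (ihL fun y hy => hmem y (by simp [hy])))
          refine (mul_le_mul_of_nonneg_left (hsum.trans (crossN_sum_le (q := q) ns (by omega)))
            (by positivity)).trans ?_
          have hP : 0 ≤ mBound (m + 1) * mProd ns :=
            mul_nonneg (mBound_pos _).le (mProd_pos _).le
          have hs : (ns.sum : ℝ) ≤ (q : ℝ) + 1 := by exact_mod_cast (by omega : ns.sum ≤ q + 1)
          have hc : ((k : ℝ)⁻¹ * (k : ℝ)⁻¹) * (((q : ℝ) + 1) ^ 4 / 64 * (ns.sum : ℝ)) ≤ 1 / 2 := by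
            refine (mul_le_mul_of_nonneg_left (mul_le_mul_of_nonneg_left hs (by positivity))
              (by positivity)).trans ?_
            rw [← mul_inv, div_mul_eq_mul_div, ← mul_div_assoc, inv_mul_eq_div, div_div,
              div_le_div_iff₀ (by positivity) two_pos]
            nlinarith
          calc (k : ℝ)⁻¹ * (k : ℝ)⁻¹ * (((q : ℝ) + 1) ^ 4 / 64 * (ns.sum : ℝ)
                * (mBound (m + 1) * mProd ns))
              = ((k : ℝ)⁻¹ * (k : ℝ)⁻¹ * (((q : ℝ) + 1) ^ 4 / 64 * (ns.sum : ℝ)))
                * (mBound (m + 1) * mProd ns) := by ring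
            _ ≤ 1 / 2 * (mBound (m + 1) * mProd ns) := mul_le_mul_of_nonneg_right hc hP
            _ = _ := by ring
        linarith

/-- An even moment controls the operator norm. -/
theorem opBound_of_trace_pow {H : Matrix (Fin k) (Fin k) ℂ} (hH : H.IsHermitian) {p : ℕ}
    (hp : p ≠ 0) {R : ℝ} (hR : 0 ≤ R) (h : (H ^ (2 * p)).trace.re ≤ R ^ (2 * p)) :
    0 ≤ (H ^ (2 * p)).trace.re ∧ OpBound H R := by
  set U : Matrix (Fin k) (Fin k) ℂ := (hH.eigenvectorUnitary : Matrix (Fin k) (Fin k) ℂ)
  set Λ := hH.eigenvalues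
  have hU : star U * U = 1 := Unitary.star_mul_self_of_mem hH.eigenvectorUnitary.2
  have hU' : U * star U = 1 := mul_eq_one_comm.mp hU
  have hsp : H = U * diagonal (fun a => (Λ a : ℂ)) * star U := by
    conv_lhs => rw [hH.spectral_theorem, Unitary.conjStarAlgAut_apply]
    rfl
  have hpow : ∀ j : ℕ, H ^ j = U * diagonal (fun a => ((Λ a ^ j : ℝ) : ℂ)) * star U := by
    intro j
    induction j with
    | zero => simp [hU']
    | succ j ihj =>
      rw [pow_succ, ihj]
      conv_lhs => rw [hsp]
      simp only [Matrix.mul_assoc]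
      rw [← Matrix.mul_assoc (star U) U, hU, Matrix.one_mul,
        ← Matrix.mul_assoc (diagonal _) (diagonal _), diagonal_mul_diagonal]
      simp [pow_succ]
  have htr : (H ^ (2 * p)).trace.re = ∑ a, Λ a ^ (2 * p) := by
    rw [hpow, Matrix.trace_mul_comm, ← Matrix.mul_assoc, hU, Matrix.one_mul, trace_diagonal,
      Complex.re_sum]
    simp [← Complex.ofReal_pow]
  have hnn : ∀ a, 0 ≤ Λ a ^ (2 * p) := fun a => by rw [pow_mul]; positivity
  refine ⟨htr ▸ Finset.sum_nonneg fun a _ => hnn a, fun v => ?_⟩
  have hle : ∀ a, Λ a ^ 2 ≤ R ^ 2 := by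
    intro a
    have : Λ a ^ (2 * p) ≤ R ^ (2 * p) :=
      (Finset.single_le_sum (fun b _ => hnn b) (Finset.mem_univ a)).trans (htr ▸ h)
    rw [pow_mul, pow_mul] at this
    exact le_of_pow_le_pow_left₀ hp (sq_nonneg R) this
  set w := star U *ᵥ v with hw
  have e0 : ∀ x : Fin k → ℂ, ∑ a, ‖x a‖ ^ 2 = (star x ⬝ᵥ x).re := fun x => by
    simp [dotProduct, Complex.re_sum, ← Complex.normSq_eq_norm_sq, Complex.normSq_apply]
  have e1 : ∀ x : Fin k → ℂ, ∑ a, ‖(U *ᵥ x) a‖ ^ 2 = ∑ a, ‖x a‖ ^ 2 := fun x => by
    rw [e0, e0, star_mulVec, ← dotProduct_mulVec, mulVec_mulVec, ← star_eq_conjTranspose, hU,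
      one_mulVec]
  have e2 : H *ᵥ v = U *ᵥ (fun a => (Λ a : ℂ) * w a) := by
    conv_lhs => rw [hsp]
    rw [← mulVec_mulVec, ← mulVec_mulVec, ← hw]
    congr 1
    funext a
    rw [mulVec_diagonal]
  have e3 : ∑ a, ‖v a‖ ^ 2 = ∑ a, ‖w a‖ ^ 2 := by
    rw [← e1 w, hw, mulVec_mulVec, hU', one_mulVec]
  rw [e2, e1, e3, Finset.mul_sum]
  refine Finset.sum_le_sum fun a _ => ?_
  rw [norm_mul, mul_pow, Complex.norm_real, Real.norm_eq_abs, sq_abs]
  exact mul_le_mul_of_nonneg_right (hle a) (sq_nonneg _)

end

end Vale.Agent.P087
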