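import Mathlib
import Vale.Agent.P087.Basic
import Vale.Agent.P087.GaussDefs
import Vale.Agent.P087.GUENorm

/-!
# P087: Gaussian Hermitian matrices converge to the free law
-/

namespace Vale.Agent.P087

open MeasureTheory ProbabilityTheory Filter
open scoped Topology ENNReal NNReal

noncomputable section

theorem gauss_herm_isHermitian {k : ℕ} (x : Coord k) : (herm x).IsHermitian := by
  ext i l
  simp only [Matrix.conjTranspose_apply, herm]
  rcases lt_trichotomy i l with h | h | h
  · rw [if_neg h.ne', if_neg h.not_gt, if_neg h.ne, if_pos h]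
    simp [Complex.ext_iff, Complex.div_re, Complex.div_im]
  · subst h; simp
  · rw [if_neg h.ne, if_pos h, if_neg h.ne', if_neg h.not_gt]
    simp [Complex.ext_iff, Complex.div_re, Complex.div_im]

theorem star_ntr_wordProd {k : ℕ} {L : Type*} (Z : L → Matrix (Fin k) (Fin k) ℂ)
    (hZ : ∀ l, (Z l).IsHermitian) (w : List L) :
    star (ntr (wordProd Z w)) = ntr (wordProd Z w.reverse) := by
  have h : (wordProd Z w).conjTranspose = wordProd Z w.reverse := by
    rw [wordProd, Matrix.conjTranspose_list_prod, wordProd, List.map_map, List.map_reverse]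
    congr 2
    exact List.map_congr_left fun l _ => hZ l
  rw [ntr, ntr, star_div₀, ← Matrix.trace_conjTranspose, h, star_natCast]

variable {α σ : Type} [DecidableEq α] [DecidableEq σ] [Fintype σ]

/-- The failure probability for one word. -/
theorem gue_word_tendsto (μ : List α → ℂ) (kk : ℕ → ℕ) (hk : Tendsto kk atTop atTop)
    (D : ∀ N, α → Matrix (Fin (kk N)) (Fin (kk N)) ℂ) (hH : ∀ N a, (D N a).IsHermitian)
    (hμ : ∀ w, Tendsto (fun N => ntr (wordProd (D N) w)) atTop (𝓝 (μ w)))
    (w : List (α ⊕ σ)) {ε : ℝ} (hε : 0 < ε) :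
    Tendsto (fun N => (stdGauss (σ × Fin (kk N) × Fin (kk N))).real {g | ε ≤
      ‖ntr (wordProd (Sum.elim (D N) fun s => herm (gueMap σ (kk N) g s)) w) - law μ w‖})
      atTop (𝓝 0) := by
  set L := law μ w
  have lim1 := gueExp_tendsto μ kk D hk hμ _ [w, w.reverse] rfl
  have lim2 := gueExp_tendsto μ kk D hk hμ _ [w] rfl
  have lim3 := gueExp_tendsto μ kk D hk hμ _ [w.reverse] rfl
  have hlim : Tendsto (fun N => (gueExp (D N) [w, w.reverse]
      + -(starRingEnd ℂ L) * gueExp (D N) [w] + -L * gueExp (D N) [w.reverse]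
      + L * starRingEnd ℂ L).re) atTop (𝓝 0) := by
    have h := (((lim1.add (lim2.const_mul (-(starRingEnd ℂ L)))).add (lim3.const_mul (-L))).add
      tendsto_const_nhds (g := fun _ => L * starRingEnd ℂ L))
    have h' := (Complex.continuous_re.tendsto _).comp h
    refine h'.trans (le_of_eq ?_)
    congr 1
    simp only [List.map_cons, List.map_nil, List.prod_cons, List.prod_nil, mul_one, L]
    rw [show law μ w * law μ w.reverse + -starRingEnd ℂ (law μ w) * law μ w
      + -law μ w * law μ w.reverse + law μ w * starRingEnd ℂ (law μ w) = 0 by ring,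
      Complex.zero_re]
  refine squeeze_zero (fun N => measureReal_nonneg)
    (fun N => ?_) (by
      have := hlim.div_const (ε ^ 2)
      rwa [zero_div] at this)
  set P := wordTr (hermB (kk N)) (D N) (gueScale (kk N) : ℂ) ((kk N : ℕ) : ℂ)⁻¹ with hP
  set X := fun g : σ × Fin (kk N) × Fin (kk N) → ℝ =>
    ntr (wordProd (Sum.elim (D N) fun s => herm (gueMap σ (kk N) g s)) w)
  set p : GPoly σ (Fin (kk N)) := (P w - MvPolynomial.C L)
    * (P w.reverse - MvPolynomial.C (starRingEnd ℂ L)) with hp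
  have he : ∀ g, evalR g p = ((‖X g - L‖ ^ 2 : ℝ) : ℂ) := by
    intro g
    have h1 : evalR g (P w.reverse) = starRingEnd ℂ (X g) := by
      rw [hP, evalR_wordTr]
      refine (star_ntr_wordProd _ (fun l => ?_) w).symm
      cases l with
      | inl a => exact hH N a
      | inr s => exact gauss_herm_isHermitian _
    have h2 : evalR g (P w) = X g := evalR_wordTr _ g w
    have h3 : ∀ c : ℂ, evalR g (MvPolynomial.C c : GPoly σ (Fin (kk N))) = c := fun c => by
      simp [evalR]
    rw [hp, map_mul, map_sub, map_sub, h1, h2, h3, h3, ← map_sub, Complex.mul_conj,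
      Complex.normSq_eq_norm_sq]
  have hint : Integrable (fun g => ‖X g - L‖ ^ 2)
      (stdGauss (σ × Fin (kk N) × Fin (kk N))) := by
    refine (integrable_evalR p).re.congr (ae_of_all _ fun g => ?_)
    simp [he]; norm_cast
  have hval : ∫ g, ‖X g - L‖ ^ 2 ∂stdGauss (σ × Fin (kk N) × Fin (kk N))
      = (gueExp (D N) [w, w.reverse] + -(starRingEnd ℂ L) * gueExp (D N) [w]
        + -L * gueExp (D N) [w.reverse] + L * starRingEnd ℂ L).re := by
    have h : gExp p = ((∫ g, ‖X g - L‖ ^ 2 ∂stdGauss (σ × Fin (kk N) × Fin (kk N)) : ℝ) : ℂ) := by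
      rw [gExp_apply, ← integral_complex_ofReal]
      simp only [he]
    have h2 : gExp p = gueExp (D N) [w, w.reverse] + -(starRingEnd ℂ L) * gueExp (D N) [w]
        + -L * gueExp (D N) [w.reverse] + L * starRingEnd ℂ L := by
      simp only [gueExp, trExp, List.map_cons, List.map_nil, List.prod_cons, List.prod_nil, mul_one]
      rw [← hP]
      rw [show p = P w * P w.reverse + (-(starRingEnd ℂ L)) • P w + (-L) • P w.reverse
          + MvPolynomial.C (L * starRingEnd ℂ L) by
        simp only [hp, MvPolynomial.smul_eq_C_mul, map_neg, map_mul]; ring]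
      simp only [map_add, map_smul, gExp_C, smul_eq_mul]
    rw [← h2, h, Complex.ofReal_re]
  rw [le_div_iff₀ (pow_pos hε 2), ← hval, mul_comm]
  refine le_trans (mul_le_mul_of_nonneg_left (measureReal_mono fun g hg => ?_) (sq_nonneg ε))
    (mul_meas_ge_le_integral_of_nonneg (ae_of_all _ fun g => sq_nonneg ‖X g - L‖) hint (ε ^ 2))
  exact pow_le_pow_left₀ hε.le hg 2

/-- The failure probability for the norm. -/
theorem gue_norm_le (s : σ) {k p : ℕ} (hk : 0 < k) (hp : p ≠ 0)
    (hpk : (((2 * p : ℕ) : ℝ) + 1) ^ 5 ≤ (k : ℝ) ^ 2) :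
    (stdGauss (σ × Fin k × Fin k)).real {g | ¬OpBound (herm (gueMap σ k g s)) 40}
      ≤ (k : ℝ) * (1 / 25) ^ p := by
  set Q := wordTr (hermB k) (noLetters k) (gueScale k : ℂ) (k : ℂ)⁻¹ (repWord s (2 * p)) with hQ
  have hk' : (0 : ℝ) < k := by exact_mod_cast hk
  have he : ∀ g, (evalR g Q).re = ((herm (gueMap σ k g s)) ^ (2 * p)).trace.re / k := by
    intro g
    rw [hQ, evalR_wordTr, wordProd, repWord, List.map_replicate, List.prod_replicate, ntr]
    simp
  have hnn : ∀ g, 0 ≤ (evalR g Q).re := by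
    intro g
    rw [he]
    refine div_nonneg ?_ hk'.le
    set H := herm (gueMap σ k g s)
    set R : ℝ := |(H ^ (2 * p)).trace.re| + 1
    have hR : 1 ≤ R := by simp [R]
    exact (opBound_of_trace_pow (gauss_herm_isHermitian _) hp (zero_le_one.trans hR)
      (((le_abs_self _).trans (le_add_of_nonneg_right zero_le_one)).trans
        (le_self_pow₀ hR (by omega)))).1
  have hsub : {g | ¬OpBound (herm (gueMap σ k g s)) 40}
      ⊆ {g | (40 : ℝ) ^ (2 * p) / k ≤ (evalR g Q).re} := by
    intro g hg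
    rw [Set.mem_ofPred_eq, he, div_le_div_iff_of_pos_right hk']
    by_contra hlt
    exact hg (opBound_of_trace_pow (gauss_herm_isHermitian _) hp (by norm_num) (not_le.mp hlt).le).2
  have hint : Integrable (fun g => (evalR g Q).re) (stdGauss (σ × Fin k × Fin k)) :=
    (integrable_evalR Q).re
  have hmk := mul_meas_ge_le_integral_of_nonneg (ae_of_all _ hnn) hint ((40 : ℝ) ^ (2 * p) / k)
  have hI : ∫ g, (evalR g Q).re ∂stdGauss (σ × Fin k × Fin k) ≤ 8 ^ (2 * p) := by
    have e : ∫ g, (evalR g Q).re ∂stdGauss (σ × Fin k × Fin k) = (gExp Q).re :=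
      integral_re (integrable_evalR Q)
    have h := gueExp_repWord_le (σ := σ) hk hpk s (2 * p) [2 * p] (by simp) le_rfl
    simp only [gueExp, trExp, List.map_cons, List.map_nil, List.prod_cons, List.prod_nil, mul_one,
      mProd] at h
    rw [e]
    exact (Complex.re_le_norm _).trans (h.trans (mBound_le _))
  refine (measureReal_mono hsub).trans ?_
  have h3 := hmk.trans hI
  rw [div_mul_eq_mul_div, div_le_iff₀ hk', ← le_div_iff₀' (by positivity)] at h3
  refine h3.trans (le_of_eq ?_)
  rw [mul_comm, mul_div_assoc, ← div_pow, pow_mul]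
  norm_num

theorem gue_norm_tendsto (kk : ℕ → ℕ) (hk : Tendsto kk atTop atTop) (s : σ) :
    Tendsto (fun N => (stdGauss (σ × Fin (kk N) × Fin (kk N))).real
      {g | ¬OpBound (herm (gueMap σ (kk N) g s)) 40}) atTop (𝓝 0) := by
  set r : ℕ → ℕ := fun N => Nat.sqrt (Nat.sqrt (kk N))
  have hsq : Tendsto Nat.sqrt atTop atTop :=
    tendsto_atTop_atTop_of_monotone (fun a b h => Nat.sqrt_le_sqrt h)
      fun b => ⟨b * b, (Nat.sqrt_eq b).ge⟩
  have hr : Tendsto r atTop atTop := hsq.comp (hsq.comp hk)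
  have hlim : Tendsto (fun m : ℕ => ((m : ℝ) + 1) ^ 4 * (1 / 25 : ℝ) ^ m) atTop (𝓝 0) := by
    have h := (tendsto_pow_const_mul_const_pow_of_lt_one 4 (by norm_num : (0 : ℝ) ≤ 1 / 25)
      (by norm_num)).const_mul (16 : ℝ)
    rw [mul_zero] at h
    refine squeeze_zero' (Eventually.of_forall fun m => by positivity) ?_ h
    filter_upwards [eventually_ge_atTop 1] with m hm
    rw [← mul_assoc]
    refine mul_le_mul_of_nonneg_right ?_ (by positivity)
    have : ((m : ℝ) + 1) ≤ 2 * m := by
      have : (1 : ℝ) ≤ m := by exact_mod_cast hm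
      linarith
    calc ((m : ℝ) + 1) ^ 4 ≤ (2 * m) ^ 4 := by gcongr
      _ = 16 * (m : ℝ) ^ 4 := by ring
  refine squeeze_zero' (Eventually.of_forall fun N => measureReal_nonneg) ?_ (hlim.comp hr)
  filter_upwards [hk.eventually (eventually_gt_atTop 0), hr.eventually (eventually_ge_atTop 243)]
    with N hN hr'
  have h1 : Nat.sqrt (Nat.sqrt (kk N)) ^ 2 ≤ Nat.sqrt (kk N) := Nat.sqrt_le' _
  have h2 : Nat.sqrt (kk N) ^ 2 ≤ kk N := Nat.sqrt_le' _
  have hlow : r N ^ 4 ≤ kk N := by
    calc r N ^ 4 = (r N ^ 2) ^ 2 := by ring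
      _ ≤ Nat.sqrt (kk N) ^ 2 := by gcongr
      _ ≤ kk N := h2
  have hup : kk N ≤ (r N + 1) ^ 4 := by
    have a1 := Nat.lt_succ_sqrt' (kk N)
    have a2 : Nat.sqrt (kk N) + 1 ≤ (r N + 1) ^ 2 := Nat.lt_succ_sqrt' (Nat.sqrt (kk N))
    calc kk N ≤ (Nat.sqrt (kk N) + 1) ^ 2 := a1.le
      _ ≤ ((r N + 1) ^ 2) ^ 2 := by gcongr
      _ = (r N + 1) ^ 4 := by ring
  refine (gue_norm_le s hN (p := r N) (by omega) ?_).trans ?_
  · have h5 : (2 * r N + 1) ^ 5 ≤ kk N ^ 2 := by
      calc (2 * r N + 1) ^ 5 ≤ (3 * r N) ^ 5 := by gcongr; omega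
        _ = 243 * r N ^ 5 := by ring
        _ ≤ r N * r N ^ 5 * r N * r N := by
          calc 243 * r N ^ 5 ≤ r N * r N ^ 5 := Nat.mul_le_mul_right _ hr'
            _ = r N * r N ^ 5 * 1 * 1 := by ring
            _ ≤ _ := by gcongr <;> omega
        _ = (r N ^ 4) ^ 2 := by ring
        _ ≤ kk N ^ 2 := by gcongr
    exact_mod_cast h5
  · refine mul_le_mul_of_nonneg_right ?_ (by positivity)
    exact_mod_cast hup

theorem gue_tendsto {α σ : Type} [Fintype α] [Fintype σ] [DecidableEq α] [DecidableEq σ]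
    (μ : List α → ℂ) (kk : ℕ → ℕ) (hk : Tendsto kk atTop atTop)
    (D : ∀ N, α → Matrix (Fin (kk N)) (Fin (kk N)) ℂ) (C : ℝ)
    (hD : ∀ N a, (D N a).IsHermitian ∧ OpBound (D N a) C)
    (hμ : ∀ w, Tendsto (fun N => ntr (wordProd (D N) w)) atTop (𝓝 (μ w)))
    (W : Finset (List (α ⊕ σ))) (ε : ℝ) (hε : 0 < ε) :
    Tendsto (fun N => gue σ (kk N) {g | (∀ s, OpBound (herm (g s)) 40) ∧ ∀ w ∈ W,
      ‖ntr (wordProd (Sum.elim (D N) (fun s => herm (g s))) w) - law μ w‖ < ε})
      atTop (𝓝 1) := by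
  set b : ℕ → ℝ := fun N =>
    (∑ s, (stdGauss (σ × Fin (kk N) × Fin (kk N))).real
      {g | ¬OpBound (herm (gueMap σ (kk N) g s)) 40})
    + ∑ w ∈ W, (stdGauss (σ × Fin (kk N) × Fin (kk N))).real {g | ε ≤
      ‖ntr (wordProd (Sum.elim (D N) fun s => herm (gueMap σ (kk N) g s)) w) - law μ w‖}
  have hb : Tendsto b atTop (𝓝 0) := by
    simpa using (tendsto_finsetSum Finset.univ fun s _ => gue_norm_tendsto kk hk s).add
      (tendsto_finsetSum W fun w _ => gue_word_tendsto μ kk hk D (fun N a => (hD N a).1) hμ w hε)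
  have h1 : Tendsto (fun N => ENNReal.ofReal (1 - b N)) atTop (𝓝 1) := by
    have := (ENNReal.continuous_ofReal.tendsto _).comp (hb.const_sub 1)
    rw [sub_zero, ENNReal.ofReal_one] at this
    exact this
  refine tendsto_of_tendsto_of_tendsto_of_le_of_le h1 tendsto_const_nhds (fun N => ?_)
    (fun N => ?_)
  · set G := {g : σ → Coord (kk N) | (∀ s, OpBound (herm (g s)) 40) ∧ ∀ w ∈ W,
      ‖ntr (wordProd (Sum.elim (D N) (fun s => herm (g s))) w) - law μ w‖ < ε}
    set ν := stdGauss (σ × Fin (kk N) × Fin (kk N))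
    show ENNReal.ofReal (1 - b N) ≤ gue σ (kk N) G
    rw [gue_eq_map]
    have hm : AEMeasurable (gueMap σ (kk N)) ν := by
      refine (measurable_pi_lambda _ fun s => (WithLp.measurable_toLp 2 _).comp
        (measurable_pi_lambda _ fun cd => (measurable_pi_apply (s, cd)).const_mul _)).aemeasurable
    refine le_trans ?_ (Measure.le_map_apply hm G)
    refine ENNReal.ofReal_le_of_le_toReal ?_
    show 1 - b N ≤ ν.real (gueMap σ (kk N) ⁻¹' G)
    set good := gueMap σ (kk N) ⁻¹' G
    have hc : (1 : ℝ) ≤ ν.real good + ν.real goodᶜ := by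
      have := measureReal_union_le (μ := ν) good goodᶜ
      rwa [Set.union_compl_self, probReal_univ] at this
    have hsub : goodᶜ ⊆ (⋃ s ∈ (Finset.univ : Finset σ),
          {g | ¬OpBound (herm (gueMap σ (kk N) g s)) 40})
        ∪ ⋃ w ∈ W, {g | ε ≤
          ‖ntr (wordProd (Sum.elim (D N) fun s => herm (gueMap σ (kk N) g s)) w) - law μ w‖} := by
      intro g hg
      simp only [good, G, Set.mem_compl_iff, Set.mem_preimage, Set.mem_ofPred_eq, not_and_or,
        not_forall, not_lt] at hg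
      rcases hg with ⟨s, hs⟩ | ⟨w, hw, hle⟩
      · exact Or.inl (Set.mem_biUnion (Finset.mem_univ s) hs)
      · exact Or.inr (Set.mem_biUnion hw hle)
    have h2 := ((measureReal_mono (μ := ν) hsub).trans (measureReal_union_le _ _)).trans
      (add_le_add (measureReal_biUnion_finset_le _ _) (measureReal_biUnion_finset_le _ _))
    linarith
  · haveI : IsProbabilityMeasure (gue σ (kk N)) := by
      rw [gue_eq_map]
      exact Measure.isProbabilityMeasure_map (measurable_pi_lambda _ fun s =>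
        (WithLp.measurable_toLp 2 _).comp (measurable_pi_lambda _ fun cd =>
          (measurable_pi_apply (s, cd)).const_mul _)).aemeasurable
    exact prob_le_one

end

end Vale.Agent.P087
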