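import Mathlib

/-! # Gaussian expectations of polynomials and integration by parts -/

namespace Vale.Agent.P087

open MeasureTheory ProbabilityTheory

noncomputable section

theorem gauss_pdf_hasDeriv (x : ℝ) :
    HasDerivAt (gaussianPDFReal 0 1) (-x * gaussianPDFReal 0 1 x) x := by
  have h : gaussianPDFReal 0 1
      = fun y => (Real.sqrt (2 * Real.pi))⁻¹ * Real.exp (-(y ^ 2) / 2) := by
    funext y; simp [gaussianPDFReal]
  rw [h]
  convert! (((hasDerivAt_pow 2 x).neg.div_const 2).exp).const_mul
    ((Real.sqrt (2 * Real.pi))⁻¹) using 1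
  simp
  ring

theorem gauss_integrable_pow (n : ℕ) : Integrable (fun x : ℝ => x ^ n) (gaussianReal 0 1) := by
  have h := memLp_id_gaussianReal' (μ := (0 : ℝ)) (v := (1 : NNReal)) (n : ENNReal)
    (ENNReal.natCast_ne_top n)
  have h2 := h.integrable_norm_pow'
  exact h2.mono' (by fun_prop) (ae_of_all _ fun x => by simp)

theorem gauss_integrable_pdf_pow (n : ℕ) :
    Integrable fun x : ℝ => gaussianPDFReal 0 1 x * x ^ n := by
  have hf := gauss_integrable_pow n
  rw [gaussianReal_of_var_ne_zero _ one_ne_zero,
    integrable_withDensity_iff (measurable_gaussianPDF 0 1) (ae_of_all _ fun x => by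
      simp [gaussianPDF])] at hf
  refine hf.congr (ae_of_all _ fun x => ?_)
  simp [gaussianPDF, ENNReal.toReal_ofReal (gaussianPDFReal_nonneg 0 1 x), mul_comm]

/-- The moment recursion of the standard Gaussian. -/
theorem gauss_moment_succ (n : ℕ) :
    ∫ x, x ^ (n + 1) ∂gaussianReal 0 1 = (n : ℝ) * ∫ x, x ^ (n - 1) ∂gaussianReal 0 1 := by
  have h := integral_mul_deriv_eq_deriv_mul_of_integrable (u := fun x : ℝ => x ^ n)
    (u' := fun x => (n : ℝ) * x ^ (n - 1))
    (v := gaussianPDFReal 0 1) (v' := fun x => -x * gaussianPDFReal 0 1 x)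
    (fun x _ => hasDerivAt_pow n x) (fun x _ => gauss_pdf_hasDeriv x)
    ((gauss_integrable_pdf_pow (n + 1)).neg.congr
      (ae_of_all _ fun x => by simp only [Pi.neg_apply, Pi.mul_apply]; ring))
    (((gauss_integrable_pdf_pow (n - 1)).const_mul (n : ℝ)).congr
      (ae_of_all _ fun x => by simp only [Pi.mul_apply]; ring))
    ((gauss_integrable_pdf_pow n).congr (ae_of_all _ fun x => by simp only [Pi.mul_apply]; ring))
  rw [integral_gaussianReal_eq_integral_smul one_ne_zero,
    integral_gaussianReal_eq_integral_smul one_ne_zero, ← integral_const_mul]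
  simp only [smul_eq_mul]
  calc ∫ x, gaussianPDFReal 0 1 x * x ^ (n + 1)
      = -∫ x, x ^ n * (-x * gaussianPDFReal 0 1 x) := by
        rw [← integral_neg]; congr 1; funext x; ring
    _ = ∫ x, (n : ℝ) * (gaussianPDFReal 0 1 x * x ^ (n - 1)) := by
        rw [h, neg_neg]; congr 1; funext x; ring

variable {ι : Type*} [Fintype ι]

/-- The standard Gaussian measure on `ι → ℝ`. -/
abbrev stdGauss (ι : Type*) [Fintype ι] : Measure (ι → ℝ) :=
  Measure.pi fun _ : ι => gaussianReal 0 1

/-- Evaluation of a complex polynomial at a real point. -/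
def evalR (g : ι → ℝ) : MvPolynomial ι ℂ →+* ℂ := MvPolynomial.eval fun i => (g i : ℂ)

theorem evalR_monomial (g : ι → ℝ) (m : ι →₀ ℕ) (a : ℂ) :
    evalR g (MvPolynomial.monomial m a) = a * ((∏ i, g i ^ m i : ℝ) : ℂ) := by
  rw [evalR, MvPolynomial.eval_monomial, Finsupp.prod_fintype _ _ (fun i => pow_zero _)]
  push_cast; rfl

theorem integrable_evalR (p : MvPolynomial ι ℂ) :
    Integrable (fun g => evalR g p) (stdGauss ι) := by
  induction p using MvPolynomial.induction_on' with
  | monomial m a =>
    simp only [evalR_monomial]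
    exact ((Integrable.fintype_prod (μ := fun _ : ι => gaussianReal 0 1)
      (f := fun i x => x ^ m i) fun i => gauss_integrable_pow _).ofReal).const_mul a
  | add p q hp hq => simp only [map_add]; exact hp.add hq

/-- The Gaussian expectation of a polynomial. -/
def gExp : MvPolynomial ι ℂ →ₗ[ℂ] ℂ where
  toFun p := ∫ g, evalR g p ∂stdGauss ι
  map_add' p q := by
    simp only [map_add]; exact integral_add (integrable_evalR p) (integrable_evalR q)
  map_smul' a p := by
    simp only [MvPolynomial.smul_eq_C_mul, map_mul, RingHom.id_apply, smul_eq_mul,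
      ← integral_const_mul]
    simp [evalR]

theorem gExp_apply (p : MvPolynomial ι ℂ) : gExp p = ∫ g, evalR g p ∂stdGauss ι := rfl

theorem gExp_C (a : ℂ) : gExp (MvPolynomial.C a : MvPolynomial ι ℂ) = a := by
  simp [gExp_apply, evalR]

theorem gExp_monomial (m : ι →₀ ℕ) (a : ℂ) :
    gExp (MvPolynomial.monomial m a)
      = a * ((∏ i, ∫ x, x ^ m i ∂gaussianReal 0 1 : ℝ) : ℂ) := by
  simp only [gExp_apply, evalR_monomial, integral_const_mul, integral_complex_ofReal]
  rw [integral_fintype_prod_eq_prod (f := fun i x => x ^ m i)]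

/-- Gaussian integration by parts. -/
theorem gExp_X_mul [DecidableEq ι] (i : ι) (p : MvPolynomial ι ℂ) :
    gExp (MvPolynomial.X i * p) = gExp (MvPolynomial.pderiv i p) := by
  induction p using MvPolynomial.induction_on' with
  | add p q hp hq => simp only [mul_add, map_add, hp, hq]
  | monomial m a =>
    rw [mul_comm, ← pow_one (MvPolynomial.X i : MvPolynomial ι ℂ), ← MvPolynomial.monomial_add_single,
      MvPolynomial.pderiv_monomial, gExp_monomial,
      gExp_monomial, mul_assoc]
    congr 1
    rw [← Complex.ofReal_natCast, ← Complex.ofReal_mul]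
    congr 1
    rw [← Finset.mul_prod_erase _ _ (Finset.mem_univ i),
      ← Finset.mul_prod_erase Finset.univ (fun j => ∫ x, x ^ (((m - Finsupp.single i 1 : ι →₀ ℕ)) j)
        ∂gaussianReal 0 1) (Finset.mem_univ i), ← mul_assoc]
    simp only [Finsupp.add_apply, Finsupp.tsub_apply, Finsupp.single_eq_same]
    rw [gauss_moment_succ]
    congr 1
    refine Finset.prod_congr rfl fun j hj => ?_
    simp [Finsupp.single_eq_of_ne (Finset.ne_of_mem_erase hj)]

end

end Vale.Agent.P087
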