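import Mathlib
import Vale.Agent.P087.Basic
import Vale.Agent.P087.Gauss

/-!
# P087: the lower bound for microstates entropy

The translated and scaled Gaussian law of a microstate has density at most
`prod_i (k / (2 pi s_i ^ 2)) ^ (k ^ 2 / 2)`, so the microstate set has volume at least its
probability divided by this number.
-/

namespace Vale.Agent.P087

open MeasureTheory ProbabilityTheory Filter
open scoped Topology ENNReal NNReal

noncomputable section

namespace Micro

/-! ### Comparison of product measures -/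

lemma pi_le {ι : Type*} [Fintype ι] {α : ι → Type*} [∀ i, MeasurableSpace (α i)]
    (μ ν : ∀ i, Measure (α i)) [∀ i, SigmaFinite (μ i)]
    (c : ι → ℝ≥0∞) (hc : ∀ i, c i ≠ 0) (hc' : ∀ i, c i ≠ ∞) (h : ∀ i, μ i ≤ c i • ν i) :
    Measure.pi μ ≤ (∏ i, c i) • Measure.pi ν := by
  have h0 : ∏ i, c i ≠ 0 := Finset.prod_ne_zero_iff.2 fun i _ => hc i
  have ht : ∏ i, c i ≠ ∞ := ENNReal.prod_ne_top fun i _ => hc' i
  refine Measure.le_iff.2 fun t htm => ?_
  have key : (∏ i, c i)⁻¹ • (Measure.pi μ).toOuterMeasure ≤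
      OuterMeasure.pi fun i => (ν i).toOuterMeasure := by
    rw [OuterMeasure.le_pi]
    intro s _
    rw [smul_apply, Measure.toOuterMeasure_apply, Measure.pi_pi, smul_eq_mul]
    calc (∏ i, c i)⁻¹ * ∏ i, μ i (s i) ≤ (∏ i, c i)⁻¹ * ∏ i, (c i * ν i (s i)) := by
          gcongr with i
          exact h i (s i)
      _ = _ := by
          rw [Finset.prod_mul_distrib, ← mul_assoc, ENNReal.inv_mul_cancel h0 ht, one_mul]
          rfl
  have h2 : (OuterMeasure.pi fun i => (ν i).toOuterMeasure) t = Measure.pi ν t := by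
    rw [Measure.pi, toMeasure_apply _ _ htm]
  have h1 := (key t).trans_eq h2
  rw [smul_apply, smul_eq_mul, Measure.toOuterMeasure_apply] at h1
  rw [Measure.smul_apply, smul_eq_mul]
  calc Measure.pi μ t = (∏ i, c i) * ((∏ i, c i)⁻¹ * Measure.pi μ t) := by
        rw [← mul_assoc, ENNReal.mul_inv_cancel h0 ht, one_mul]
    _ ≤ _ := mul_le_mul_right h1 _

/-! ### The density bound -/

/-- The largest value of the Gaussian density of variance `v`. -/
def peak (v : ℝ) : ℝ≥0∞ := ENNReal.ofReal ((Real.sqrt (2 * Real.pi * v))⁻¹)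

lemma peak_ne_zero {v : ℝ} (hv : 0 < v) : peak v ≠ 0 := by
  simp only [peak, ne_eq, ENNReal.ofReal_eq_zero, not_le]
  positivity

lemma gaussianReal_le (m : ℝ) {v : ℝ≥0} (hv : v ≠ 0) :
    gaussianReal m v ≤ peak v • (volume : Measure ℝ) := by
  rw [gaussianReal_of_var_ne_zero m hv, ← withDensity_const]
  refine withDensity_mono (Eventually.of_forall fun x => ENNReal.ofReal_le_ofReal ?_)
  rw [gaussianPDFReal_def]
  refine mul_le_of_le_one_right (by positivity) (Real.exp_le_one_iff.2 ?_)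
  exact div_nonpos_of_nonpos_of_nonneg (by nlinarith [sq_nonneg (x - m)]) (by positivity)

lemma gueCoord_affine_le {k : ℕ} (hk : k ≠ 0) (d : Coord k) {s : ℝ} (hs : 0 < s) :
    (gueCoord k).map (fun y => d + s • y) ≤ peak (s ^ 2 / k) ^ (k * k) • volume := by
  have hf : Measurable fun z : Fin k × Fin k → ℝ => fun e => d e + s * z e :=
    by fun_prop
  have htl : Measurable (WithLp.toLp 2 : (Fin k × Fin k → ℝ) → Coord k) :=
    WithLp.measurable_toLp 2 _
  rw [gueCoord, Measure.map_map (by fun_prop) htl]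
  have e1 : (fun y => d + s • y) ∘ (WithLp.toLp 2 : (Fin k × Fin k → ℝ) → Coord k) =
      WithLp.toLp 2 ∘ (fun z => fun e => d e + s * z e) := by
    funext z
    refine PiLp.ext fun e => ?_
    simp
  rw [e1, ← Measure.map_map htl hf,
    Measure.pi_map_pi (f := fun e x => d e + s * x) (fun e => (by fun_prop))]
  set v : ℝ≥0 := NNReal.mk (s ^ 2) (sq_nonneg s) * (k : ℝ≥0)⁻¹ with hv
  have hvr : (v : ℝ) = s ^ 2 / k := by simp [hv, div_eq_mul_inv]
  have hv0 : v ≠ 0 := fun h => by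
    rw [h, NNReal.coe_zero] at hvr
    exact absurd hvr.symm (by positivity)
  have e2 : ∀ e : Fin k × Fin k, (gaussianReal 0 (k : ℝ≥0)⁻¹).map (fun x => d e + s * x) =
      gaussianReal (d e) v := by
    intro e
    rw [show (fun x => d e + s * x) = (fun x => d e + x) ∘ (fun x => s * x) from rfl,
      ← Measure.map_map (by fun_prop) (by fun_prop), gaussianReal_map_const_mul,
      gaussianReal_map_const_add]
    simp [hv]
  simp only [e2]
  have h1 := pi_le (fun e => gaussianReal (d e) v) (fun _ : Fin k × Fin k => volume)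
    (fun _ => peak v) (fun _ => peak_ne_zero (by rw [hvr]; positivity))
    (fun _ => ENNReal.ofReal_ne_top) (fun e => gaussianReal_le _ hv0)
  rw [Finset.prod_const, Finset.card_univ, Fintype.card_prod, Fintype.card_fin, hvr] at h1
  refine (Measure.map_mono h1 htl).trans (le_of_eq ?_)
  rw [Measure.map_smul, ← volume_pi, (PiLp.volume_preserving_toLp (Fin k × Fin k)).map_eq]

instance (k : ℕ) : IsProbabilityMeasure (gueCoord k) :=
  Measure.isProbabilityMeasure_map (WithLp.measurable_toLp 2 _).aemeasurable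

lemma gue_preimage_le {n k : ℕ} (hk : k ≠ 0) (d : Fin n → Coord k) (s : Fin n → ℝ)
    (hs : ∀ i, 0 < s i) (E : Set (Fin n → Coord k)) :
    gue (Fin n ⊕ Fin n) k {g | (fun i => d i + s i • g (Sum.inl i)) ∈ E} ≤
      (∏ i, peak (s i ^ 2 / k) ^ (k * k)) * volume E := by
  set f : (Fin n → Coord k) → (Fin n → Coord k) := fun y i => d i + s i • y i
  have hf : Measurable f :=
    measurable_pi_lambda _ fun i => ((measurable_pi_apply i).const_smul (s i)).const_add _
  have hπ : MeasurePreserving (Prod.fst ∘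
      (MeasurableEquiv.sumPiEquivProdPi fun _ : Fin n ⊕ Fin n => Coord k))
      (gue (Fin n ⊕ Fin n) k) (Measure.pi fun _ : Fin n => gueCoord k) :=
    MeasurePreserving.comp ⟨measurable_fst, by simp [Measure.map_fst_prod]⟩
      (measurePreserving_sumPiEquivProdPi _)
  calc gue (Fin n ⊕ Fin n) k {g | (fun i => d i + s i • g (Sum.inl i)) ∈ E}
      = gue (Fin n ⊕ Fin n) k ((Prod.fst ∘
          (MeasurableEquiv.sumPiEquivProdPi fun _ : Fin n ⊕ Fin n => Coord k)) ⁻¹' (f ⁻¹' E)) := rfl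
    _ ≤ (gue (Fin n ⊕ Fin n) k).map (Prod.fst ∘
          (MeasurableEquiv.sumPiEquivProdPi fun _ : Fin n ⊕ Fin n => Coord k)) (f ⁻¹' E) :=
        Measure.le_map_apply hπ.aemeasurable _
    _ = Measure.pi (fun _ : Fin n => gueCoord k) (f ⁻¹' E) := by rw [hπ.map_eq]
    _ ≤ (Measure.pi fun _ : Fin n => gueCoord k).map f E :=
        Measure.le_map_apply hf.aemeasurable _
    _ ≤ _ := by
      have hm : ∀ i, AEMeasurable (fun y => d i + s i • y) (gueCoord k) := fun i =>
        ((measurable_id.const_smul (s i)).const_add _).aemeasurable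
      rw [show f = fun y i => (fun y => d i + s i • y) (y i) from rfl, Measure.pi_map_pi hm]
      have : ∀ i, IsProbabilityMeasure ((gueCoord k).map fun y => d i + s i • y) := fun i =>
        Measure.isProbabilityMeasure_map (hm i)
      have hk' : (0 : ℝ) < k := by exact_mod_cast Nat.pos_of_ne_zero hk
      exact pi_le _ (fun _ : Fin n => volume) (fun i => peak (s i ^ 2 / k) ^ (k * k))
        (fun i => pow_ne_zero _ (peak_ne_zero (div_pos (pow_pos (hs i) 2) hk')))
        (fun i => ENNReal.pow_ne_top ENNReal.ofReal_ne_top)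
        (fun i => gueCoord_affine_le hk (d i) (hs i)) E

/-! ### Matrices -/

/-- The coordinates of a self-adjoint matrix. -/
def coords {k : ℕ} (A : Matrix (Fin k) (Fin k) ℂ) : Coord k :=
  WithLp.toLp 2 fun e => if e.1 = e.2 then (A e.1 e.1).re
    else if e.1 < e.2 then Real.sqrt 2 * (A e.1 e.2).re else Real.sqrt 2 * (A e.2 e.1).im

lemma herm_coords {k : ℕ} {A : Matrix (Fin k) (Fin k) ℂ} (hA : A.IsHermitian) :
    herm (coords A) = A := by
  have h2 : (Real.sqrt 2 : ℂ) ≠ 0 := by simp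
  ext i l
  simp only [herm, coords]
  rcases lt_trichotomy i l with h | h | h
  · rw [if_neg h.ne, if_pos h, if_neg h.ne, if_pos h, if_neg h.ne', if_neg h.asymm]
    rw [Complex.ofReal_mul, Complex.ofReal_mul, mul_assoc, ← mul_add, mul_div_cancel_left₀ _ h2,
      Complex.re_add_im]
  · subst h
    simp only [if_true]
    exact hA.coe_re_apply_self i
  · rw [if_neg h.ne', if_neg h.asymm, if_neg h.ne, if_pos h, if_neg h.ne', if_neg h.asymm]
    rw [Complex.ofReal_mul, Complex.ofReal_mul, mul_assoc, ← mul_sub, mul_div_cancel_left₀ _ h2,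
      ← hA.apply i l, Complex.star_def]
    apply Complex.ext <;> simp

lemma herm_add_smul {k : ℕ} (x y : Coord k) (c : ℝ) :
    herm (x + c • y) = herm x + (c : ℂ) • herm y := by
  ext i l
  simp only [herm, Matrix.add_apply, Matrix.smul_apply, PiLp.add_apply, PiLp.smul_apply,
    smul_eq_mul]
  split_ifs <;> push_cast <;> ring

lemma opBound_iff {k : ℕ} {A : Matrix (Fin k) (Fin k) ℂ} {R : ℝ} : OpBound A R ↔
    ∀ v : Fin k → ℂ, ‖(WithLp.toLp 2 (A.mulVec v) : EuclideanSpace ℂ (Fin k))‖ ≤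
      |R| * ‖(WithLp.toLp 2 v : EuclideanSpace ℂ (Fin k))‖ := by
  refine forall_congr' fun v => ?_
  rw [← pow_le_pow_iff_left₀ (norm_nonneg _) (by positivity) two_ne_zero, mul_pow, sq_abs,
    EuclideanSpace.norm_sq_eq, EuclideanSpace.norm_sq_eq]

lemma opBound_add_smul {k : ℕ} {A B : Matrix (Fin k) (Fin k) ℂ} {a b R : ℝ} {c : ℝ}
    (hA : OpBound A a) (hB : OpBound B b) (hR : |a| + |c| * |b| ≤ R) :
    OpBound (A + (c : ℂ) • B) R := by
  rw [opBound_iff] at hA hB ⊢
  intro v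
  rw [Matrix.add_mulVec, Matrix.smul_mulVec, WithLp.toLp_add, WithLp.toLp_smul]
  refine (norm_add_le _ _).trans ?_
  rw [norm_smul, Complex.norm_real, Real.norm_eq_abs]
  calc _ ≤ |a| * ‖(WithLp.toLp 2 v : EuclideanSpace ℂ (Fin k))‖ +
        |c| * (|b| * ‖(WithLp.toLp 2 v : EuclideanSpace ℂ (Fin k))‖) := by
        gcongr
        · exact hA v
        · exact hB v
    _ = (|a| + |c| * |b|) * ‖(WithLp.toLp 2 v : EuclideanSpace ℂ (Fin k))‖ := by ring
    _ ≤ _ := mul_le_mul_of_nonneg_right (hR.trans (le_abs_self R)) (norm_nonneg _)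

/-- The normalised trace as a linear map. -/
def ntrLin (k : ℕ) : Matrix (Fin k) (Fin k) ℂ →ₗ[ℂ] ℂ :=
  ((k : ℂ))⁻¹ • Matrix.traceLinearMap (Fin k) ℂ ℂ

lemma ntrLin_apply {k : ℕ} (A : Matrix (Fin k) (Fin k) ℂ) : ntrLin k A = ntr A := by
  simp [ntrLin, ntr, Matrix.traceLinearMap_apply, div_eq_inv_mul]

/-! ### The entropy bound along the subsequence -/

lemma log_lower {n k : ℕ} (hk : 1 ≤ k) (s : Fin n → ℝ) (hs : ∀ i, 0 < s i) (V : ℝ≥0∞)
    (h : (2 : ℝ≥0∞)⁻¹ ≤ (∏ i, peak (s i ^ 2 / k) ^ (k * k)) * V) :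
    ((((∑ i, Real.log (2 * Real.pi * s i ^ 2)) / 2 - Real.log 2 : ℝ)) : EReal) ≤
      ((((k : ℝ) ^ 2)⁻¹ : ℝ) : EReal) * ENNReal.log V +
        ((((n : ℝ) / 2 * Real.log k : ℝ)) : EReal) := by
  have hk' : (0 : ℝ) < k := by exact_mod_cast hk
  set a : Fin n → ℝ := fun i => (Real.sqrt (2 * Real.pi * (s i ^ 2 / k)))⁻¹ with ha
  have ha0 : ∀ i, 0 < a i := fun i => by
    have := hs i
    positivity
  set A : ℝ := ∏ i, a i ^ (k * k) with hA
  have hA0 : 0 < A := Finset.prod_pos fun i _ => pow_pos (ha0 i) _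
  have hc : (∏ i, peak (s i ^ 2 / k) ^ (k * k)) = ENNReal.ofReal A := by
    rw [hA, ENNReal.ofReal_prod_of_nonneg fun i _ => (pow_pos (ha0 i) _).le]
    exact Finset.prod_congr rfl fun i _ => (ENNReal.ofReal_pow (ha0 i).le _).symm
  rw [hc] at h
  have hV : ENNReal.ofReal (A⁻¹ * 2⁻¹) ≤ V := by
    rw [ENNReal.ofReal_mul (inv_nonneg.2 hA0.le), ENNReal.ofReal_inv_of_pos hA0,
      ENNReal.inv_mul_le_iff (by simpa using hA0) ENNReal.ofReal_ne_top]
    simpa [ENNReal.ofReal_inv_of_pos] using h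
  have hlog : ((Real.log (A⁻¹ * 2⁻¹) : ℝ) : EReal) ≤ ENNReal.log V := by
    refine le_trans (le_of_eq ?_) (ENNReal.log_monotone hV)
    rw [ENNReal.log_ofReal_of_pos (by positivity)]
  refine le_trans ?_ (add_le_add_left (mul_le_mul_of_nonneg_left hlog
    (EReal.coe_nonneg.2 (inv_nonneg.2 (sq_nonneg (k : ℝ))))) _)
  rw [← EReal.coe_mul, ← EReal.coe_add, EReal.coe_le_coe_iff]
  have hlA : Real.log A = ∑ i, ((k : ℝ) * k) *
      (-((Real.log (2 * Real.pi * s i ^ 2) - Real.log k) / 2)) := by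
    rw [hA, Real.log_prod fun i _ => (pow_pos (ha0 i) _).ne']
    refine Finset.sum_congr rfl fun i _ => ?_
    have := hs i
    rw [Real.log_pow, ha, Real.log_inv, Real.log_sqrt (by positivity), mul_div_assoc',
      Real.log_div (by positivity) hk'.ne']
    push_cast
    ring
  rw [Real.log_mul (inv_ne_zero hA0.ne') (by norm_num), Real.log_inv, Real.log_inv, hlA]
  rw [← Finset.mul_sum, Finset.sum_neg_distrib, ← Finset.sum_div, Finset.sum_sub_distrib,
    Finset.sum_const, Finset.card_univ, Fintype.card_fin, nsmul_eq_mul]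
  have h2 : 0 ≤ Real.log 2 := Real.log_nonneg one_le_two
  have hk2 : ((k : ℝ) ^ 2)⁻¹ ≤ 1 :=
    inv_le_one_of_one_le₀ (one_le_pow₀ (by exact_mod_cast hk))
  have h3 := mul_le_mul_of_nonneg_right hk2 h2
  rw [show ((k : ℝ) ^ 2)⁻¹ * (-((k : ℝ) * k *
      -((∑ i, Real.log (2 * Real.pi * s i ^ 2) - n * Real.log k) / 2)) + -Real.log 2) =
      (∑ i, Real.log (2 * Real.pi * s i ^ 2) - n * Real.log k) / 2 -
        ((k : ℝ) ^ 2)⁻¹ * Real.log 2 by field_simp; ring]
  linarith

lemma le_chiR {n : ℕ} (μ : List (Fin n) → ℂ) (kk : ℕ → ℕ) (hk : Tendsto kk atTop atTop)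
    (D : ∀ N, Fin n → Matrix (Fin (kk N)) (Fin (kk N)) ℂ) (C : ℝ)
    (hD : ∀ N a, (D N a).IsHermitian ∧ OpBound (D N a) C)
    (hμ : ∀ w, Tendsto (fun N => ntr (wordProd (D N) w)) atTop (𝓝 (μ w)))
    (s : Fin n → ℝ) (hs : ∀ i, 0 < s i) :
    ((((∑ i, Real.log (2 * Real.pi * s i ^ 2)) / 2 - Real.log 2 : ℝ)) : EReal) ≤
      chiR (noisyLaw μ s) (|C| + 40 * (∑ i, s i) + 1) := by
  refine le_iInf fun m => le_iInf fun ε => le_iInf fun hε => ?_
  refine le_limsup_of_frequently_le ?_ (by isBoundedDefault)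
  set R := |C| + 40 * (∑ i, s i) + 1 with hRdef
  have hsum : ∀ i, s i ≤ ∑ j, s j := fun i =>
    Finset.single_le_sum (fun j _ => (hs j).le) (Finset.mem_univ i)
  have hS0 : 0 ≤ ∑ i, s i := Finset.sum_nonneg fun i _ => (hs i).le
  set C₀ : ℝ := (Fintype.card (L3 n) : ℝ) * (1 + ∑ i, s i) with hC₀
  have hC₀0 : 0 ≤ C₀ := by positivity
  have hC₀le : ∀ i, ∑ l, ‖noisyCoef s i l‖ ≤ C₀ := by
    intro i
    refine (Finset.sum_le_card_nsmul _ _ (1 + ∑ i, s i) fun l _ => ?_).trans
      (le_of_eq (by rw [hC₀, Finset.card_univ, nsmul_eq_mul]))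
    simp only [noisyCoef]
    split_ifs <;> simp [abs_of_pos (hs i)] <;> linarith [hsum i]
  set η : ℝ := ε / (2 * max 1 C₀ ^ m) with hηdef
  have hη : 0 < η := by positivity
  set W := (List.finite_length_le (L3 n) m).toFinset
  have hev : ∀ᶠ N in atTop, (2 : ℝ≥0∞)⁻¹ ≤ gue (Fin n ⊕ Fin n) (kk N)
      {g | (∀ t, OpBound (herm (g t)) 40) ∧ ∀ w ∈ W,
        ‖ntr (wordProd (Sum.elim (D N) (fun t => herm (g t))) w) - law μ w‖ < η} :=
    (gue_tendsto μ kk hk D C hD hμ W η hη).eventually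
      (eventually_ge_nhds (ENNReal.inv_lt_one.2 ENNReal.one_lt_two))
  refine hk.frequently (Eventually.frequently ?_)
  filter_upwards [hev, hk.eventually_ge_atTop 1] with N hN hN1
  refine log_lower hN1 s hs _ ((hN.trans (measure_mono ?_)).trans
    (gue_preimage_le (by omega) (fun i => coords (D N i)) s hs _))
  rintro g ⟨hg, hw⟩
  have hY : ∀ j, herm (coords (D N j) + s j • g (Sum.inl j)) =
      D N j + (s j : ℂ) • herm (g (Sum.inl j)) := fun j => by
    rw [herm_add_smul, herm_coords (hD N j).1]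
  refine ⟨fun j => ?_, fun w _ hw2 => ?_⟩
  · rw [hY]
    refine opBound_add_smul (hD N j).2 (hg _) ?_
    rw [abs_of_pos (hs j), abs_of_pos (by norm_num : (0 : ℝ) < 40), hRdef]
    linarith [hsum j]
  · simp only [hY]
    have hcoef : ∀ j, D N j + (s j : ℂ) • herm (g (Sum.inl j)) =
        ∑ l, noisyCoef s j l • Sum.elim (D N) (fun t => herm (g t)) l := fun j => by
      simp [Fintype.sum_sum_type, noisyCoef, ite_smul]
    have hexp := map_wordProd_expand (noisyCoef s)
      (Sum.elim (D N) (fun t => herm (g t)))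
      (fun j => D N j + (s j : ℂ) • herm (g (Sum.inl j))) hcoef w (ntrLin (kk N))
    simp only [ntrLin_apply] at hexp
    rw [hexp, noisyLaw]
    refine lt_of_le_of_lt (expand_sub_le _ C₀ hC₀0 hC₀le η hη.le w _ _ fun u hu => ?_) ?_
    · exact (hw u (by simpa [W] using hu.le.trans hw2)).le
    · have h1 : C₀ ^ w.length ≤ max 1 C₀ ^ m :=
        (pow_le_pow_left₀ hC₀0 (le_max_right _ _) _).trans
          (pow_le_pow_right₀ (le_max_left _ _) hw2)
      calc C₀ ^ w.length * η ≤ max 1 C₀ ^ m * η := mul_le_mul_of_nonneg_right h1 hη.le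
        _ = ε / 2 := by rw [hηdef]; field_simp
        _ < ε := half_lt_self hε

end Micro

theorem bot_lt_chi {n : ℕ} (μ : List (Fin n) → ℂ) (kk : ℕ → ℕ) (hk : Tendsto kk atTop atTop)
    (D : ∀ N, Fin n → Matrix (Fin (kk N)) (Fin (kk N)) ℂ) (C : ℝ)
    (hD : ∀ N a, (D N a).IsHermitian ∧ OpBound (D N a) C)
    (hμ : ∀ w, Tendsto (fun N => ntr (wordProd (D N) w)) atTop (𝓝 (μ w)))
    (s : Fin n → ℝ) (hs : ∀ i, 0 < s i) :
    ⊥ < chi (noisyLaw μ s) := by
  have h0 : (0 : ℝ) < |C| + 40 * (∑ i, s i) + 1 := by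
    have := Finset.sum_nonneg fun i (_ : i ∈ Finset.univ) => (hs i).le
    positivity
  refine (EReal.bot_lt_coe _).trans_le
    ((Micro.le_chiR μ kk hk D C hD hμ s hs).trans ?_)
  exact le_iSup₂_of_le _ h0 le_rfl

end

end Vale.Agent.P087
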