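import Vale.Agent.P087.PermModel

/-!
# Free symmetries tensor a uniform central variable: finite exact-in-words models

Letters are `some i` for the symmetries and `none` for the variable uniform on `[0, 1]`.
-/

namespace Vale.Agent.P087.PermModel

open Matrix
open scoped Kronecker

variable {ι : Type} [DecidableEq ι]

/-- The moment of a word in free symmetries and a central variable uniform on `[0, 1]`. -/
noncomputable def wordMoment (w : List (Option ι)) : ℝ :=
  if red (w.filterMap id) = [] then 1 / ((w.count none : ℝ) + 1) else 0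

lemma wordMoment_nonneg (w : List (Option ι)) : 0 ≤ wordMoment w := by
  unfold wordMoment; split_ifs <;> positivity

/-- Power sums against their integrals. -/
lemma sum_pow_bounds (c N : ℕ) :
    ((c : ℝ) + 1) * ∑ l ∈ Finset.range N, (l : ℝ) ^ c ≤ (N : ℝ) ^ (c + 1) ∧
      (N : ℝ) ^ (c + 1) ≤ ((c : ℝ) + 1) * (∑ l ∈ Finset.range N, (l : ℝ) ^ c + (N : ℝ) ^ c) := by
  have key : ∀ x : ℝ, 0 ≤ x → ∀ d : ℕ, ((d : ℝ) + 1) * x ^ d ≤ (x + 1) ^ (d + 1) - x ^ (d + 1) ∧
      (x + 1) ^ (d + 1) - x ^ (d + 1) ≤ ((d : ℝ) + 1) * (x + 1) ^ d := by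
    intro x hx d
    have hsum : (x + 1) ^ (d + 1) - x ^ (d + 1) =
        ∑ i ∈ Finset.range (d + 1), (x + 1) ^ i * x ^ (d - i) := by
      have := geom_sum₂_mul (x + 1) x (d + 1)
      simp only [add_sub_cancel_left, mul_one] at this
      rw [← this]
      simp
    rw [hsum]
    refine ⟨?_, ?_⟩
    · calc ((d : ℝ) + 1) * x ^ d = ∑ i ∈ Finset.range (d + 1), x ^ d := by simp
        _ ≤ _ := Finset.sum_le_sum fun i hi => by
          have hid : i ≤ d := by simp at hi; omega
          calc x ^ d = x ^ i * x ^ (d - i) := by rw [← pow_add, Nat.add_sub_cancel' hid]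
            _ ≤ _ := by gcongr; linarith
    · calc ∑ i ∈ Finset.range (d + 1), (x + 1) ^ i * x ^ (d - i)
          ≤ ∑ i ∈ Finset.range (d + 1), (x + 1) ^ d := Finset.sum_le_sum fun i hi => by
            have hid : i ≤ d := by simp at hi; omega
            calc (x + 1) ^ i * x ^ (d - i) ≤ (x + 1) ^ i * (x + 1) ^ (d - i) := by
                  gcongr; linarith
              _ = _ := by rw [← pow_add, Nat.add_sub_cancel' hid]
        _ = _ := by simp
  induction N with
  | zero =>
    refine ⟨by simp, ?_⟩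
    simp only [Nat.cast_zero, zero_pow (Nat.succ_ne_zero c), Finset.range_zero, Finset.sum_empty]
    positivity
  | succ N ih =>
    have h := key N (Nat.cast_nonneg N) c
    rw [Finset.sum_range_succ, Nat.cast_succ]
    constructor <;> nlinarith [ih.1, ih.2, h.1, h.2]

lemma grid_moment (c N : ℕ) (hN : 0 < N) :
    |(∑ l : Fin N, ((l : ℝ) / N) ^ c) / N - 1 / ((c : ℝ) + 1)| ≤ 1 / N := by
  have hN' : (0 : ℝ) < N := by exact_mod_cast hN
  have hc : (0 : ℝ) < (c : ℝ) + 1 := by positivity
  obtain ⟨h1, h2⟩ := sum_pow_bounds c N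
  set S := ∑ l ∈ Finset.range N, (l : ℝ) ^ c
  have hS : (∑ l : Fin N, ((l : ℝ) / N) ^ c) / N = S / (N : ℝ) ^ (c + 1) := by
    rw [Fin.sum_univ_eq_sum_range (fun l => ((l : ℝ) / N) ^ c) N]
    simp only [div_pow, ← Finset.sum_div, div_div, pow_succ]
    rfl
  have hp : (0 : ℝ) < (N : ℝ) ^ (c + 1) := by positivity
  rw [hS, abs_le]
  constructor
  · rw [le_sub_iff_add_le, le_div_iff₀ hp, add_mul]
    have : -(1 / (N : ℝ)) * (N : ℝ) ^ (c + 1) = -(N : ℝ) ^ c := by
      rw [pow_succ]; field_simp
    rw [this, div_mul_eq_mul_div, one_mul]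
    have : (N : ℝ) ^ (c + 1) / ((c : ℝ) + 1) ≤ S + (N : ℝ) ^ c := by
      rw [div_le_iff₀ hc]; linarith
    linarith
  · have : S / (N : ℝ) ^ (c + 1) ≤ 1 / ((c : ℝ) + 1) := by
      rw [div_le_div_iff₀ hp hc]; linarith
    have : (0 : ℝ) ≤ 1 / N := by positivity
    linarith

/-- Pairs of nearby grid points. -/
lemma card_band_le {G : Type} [Fintype G] {k : ℕ} (e : G × Fin k ≃ Fin (Fintype.card G * k))
    (hk : 0 < k) (d : ℝ) (hd : 0 ≤ d) :
    (((Finset.univ : Finset (Fin (Fintype.card G * k) × Fin (Fintype.card G * k))).filter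
      fun q => |((e.symm q.1).2 : ℝ) / k - ((e.symm q.2).2 : ℝ) / k| ≤ d).card : ℝ) ≤
      (2 * d + 1 / (k : ℝ)) * ((Fintype.card G * k : ℕ) : ℝ) ^ 2 := by
  classical
  set S := ((Finset.univ : Finset (Fin (Fintype.card G * k) × Fin (Fintype.card G * k))).filter
      fun q => |((e.symm q.1).2 : ℝ) / k - ((e.symm q.2).2 : ℝ) / k| ≤ d)
  have hk' : (0 : ℝ) < k := by exact_mod_cast hk
  set M := ⌊d * k⌋₊
  set T : Finset ((G × G) × Fin k × ℕ) := (Finset.univ : Finset (G × G)) ×ˢ
    ((Finset.univ : Finset (Fin k)).biUnion fun i : Fin k =>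
      ((Finset.Icc ((i : ℕ) - M) ((i : ℕ) + M)).image fun j => (i, j)))
  have hST : S.card ≤ T.card := by
    refine Finset.card_le_card_of_injOn
      (fun q => (((e.symm q.1).1, (e.symm q.2).1), (e.symm q.1).2, ((e.symm q.2).2 : ℕ))) ?_ ?_
    · intro q hq
      simp only [Finset.mem_coe, S, Finset.mem_filter, Finset.mem_univ, true_and] at hq
      rw [← sub_div, abs_div, abs_of_pos hk', div_le_iff₀ hk'] at hq
      simp only [Finset.mem_coe, T, Finset.mem_product, Finset.mem_univ, true_and,
        Finset.mem_biUnion, Finset.mem_image, Finset.mem_Icc]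
      refine ⟨(e.symm q.1).2, ((e.symm q.2).2 : ℕ), ?_, rfl⟩
      rw [abs_le] at hq
      constructor
      · by_contra hlt
        push Not at hlt
        have h1 : M + 1 ≤ ((e.symm q.1).2 : ℕ) - ((e.symm q.2).2 : ℕ) := by omega
        have h2 : ((M + 1 + ((e.symm q.2).2 : ℕ) : ℕ) : ℝ) ≤ ((e.symm q.1).2 : ℕ) := by
          exact_mod_cast (by omega : M + 1 + ((e.symm q.2).2 : ℕ) ≤ ((e.symm q.1).2 : ℕ))
        have := Nat.lt_floor_add_one (d * k)
        push_cast at h2
        simp only [M] at h2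
        linarith
      · by_contra hlt
        push Not at hlt
        have h2 : ((M + 1 + ((e.symm q.1).2 : ℕ) : ℕ) : ℝ) ≤ ((e.symm q.2).2 : ℕ) := by
          exact_mod_cast (by omega : M + 1 + ((e.symm q.1).2 : ℕ) ≤ ((e.symm q.2).2 : ℕ))
        have := Nat.lt_floor_add_one (d * k)
        push_cast at h2
        simp only [M] at h2
        linarith
    · intro q _ q' _ h
      simp only [Prod.mk.injEq, Fin.val_inj] at h
      exact Prod.ext (e.symm.injective (Prod.ext h.1.1 h.2.1))
        (e.symm.injective (Prod.ext h.1.2 h.2.2))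
  have hT : T.card ≤ Fintype.card G * Fintype.card G * (k * (2 * M + 1)) := by
    simp only [T, Finset.card_product, Finset.card_univ, Fintype.card_prod]
    refine Nat.mul_le_mul_left _ ((Finset.card_biUnion_le_card_mul _ _ (2 * M + 1) ?_).trans
      (by simp))
    intro i _
    refine Finset.card_image_le.trans ?_
    simp only [Nat.card_Icc]
    omega
  have hM : (M : ℝ) ≤ d * k := Nat.floor_le (by positivity)
  calc (S.card : ℝ) ≤ ((Fintype.card G * Fintype.card G * (k * (2 * M + 1)) : ℕ) : ℝ) := by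
        exact_mod_cast hST.trans hT
    _ ≤ (Fintype.card G : ℝ) * Fintype.card G * (k * (2 * (d * k) + 1)) := by
        push_cast; gcongr
    _ = _ := by push_cast; field_simp

section Block

variable [Fintype ι] {G : Type} [Fintype G] [DecidableEq G]

/-- The tensor model. -/
noncomputable def model (U : ι → Matrix G G ℂ) (N : ℕ) :
    Option ι → Matrix (G × Fin N) (G × Fin N) ℂ
  | some i => U i ⊗ₖ (1 : Matrix (Fin N) (Fin N) ℂ)
  | none => (1 : Matrix G G ℂ) ⊗ₖ Matrix.diagonal fun l => (((l : ℝ) / N : ℝ) : ℂ)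

omit [Fintype ι] in
lemma prod_model (U : ι → Matrix G G ℂ) (N : ℕ) (w : List (Option ι)) :
    (w.map (model U N)).prod = ((w.filterMap id).map U).prod ⊗ₖ
      Matrix.diagonal fun l : Fin N => (((l : ℝ) / N : ℝ) : ℂ) ^ w.count none := by
  classical
  induction w with
  | nil => simp
  | cons x w ih =>
    rw [List.map_cons, List.prod_cons, ih]
    cases x with
    | none =>
      rw [model, ← Matrix.mul_kronecker_mul, one_mul, Matrix.diagonal_mul_diagonal]
      simp [pow_succ']
    | some i =>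
      rw [model, ← Matrix.mul_kronecker_mul, one_mul]
      simp

end Block

/-- For all `m`, `ε`, `K₀` there is a size `k ≥ K₀` with self-adjoint matrices, namely commuting
symmetries and a contraction, whose word moments up to length `m` are `ε`-close to those of free
symmetries tensor a uniform variable. -/
theorem exists_model (ι : Type) [DecidableEq ι] [Fintype ι] (m K₀ : ℕ) {ε : ℝ} (hε : 0 < ε) :
    ∃ k : ℕ, K₀ ≤ k ∧ 0 < k ∧ ∃ (A : ι → Matrix (Fin k) (Fin k) ℂ) (t : Fin k → ℝ),
      (∀ i, (A i).IsHermitian ∧ A i * A i = 1 ∧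
        A i * Matrix.diagonal (fun l => (t l : ℂ)) = Matrix.diagonal (fun l => (t l : ℂ)) * A i) ∧
      (∀ l, t l ∈ Set.Icc (0 : ℝ) 1) ∧
      (∀ e : ℝ, 0 ≤ e → (((Finset.univ : Finset (Fin k × Fin k)).filter
        fun q => |t q.1 - t q.2| ≤ e).card : ℝ) ≤ (2 * e + ε) * (k : ℝ) ^ 2) ∧
      ∀ w : List (Option ι), w.length ≤ m →
        ‖(w.map fun o : Option ι => o.elim (Matrix.diagonal fun l => (t l : ℂ)) A).prod.trace / k -
          (wordMoment w : ℂ)‖ < ε := by
  obtain ⟨G, _, _, _, U, hU, htr⟩ := exists_free_symmetries ι m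
  obtain ⟨N, hN⟩ := exists_nat_gt (1 / ε + K₀)
  have hN0 : 0 < N := by
    have : (0 : ℝ) < N := lt_of_le_of_lt (by positivity) hN
    exact_mod_cast this
  have hG : 0 < Fintype.card G := Fintype.card_pos
  set e : G × Fin N ≃ Fin (Fintype.card G * N) :=
    Fintype.equivFinOfCardEq (by simp) with he
  refine ⟨Fintype.card G * N, ?_, Nat.mul_pos hG hN0,
    fun i => Matrix.reindexAlgEquiv ℂ ℂ e (model U N (some i)),
    fun l => ((e.symm l).2 : ℝ) / N, fun i => ⟨?_, ?_, ?_⟩, fun l => ⟨by positivity, ?_⟩, fun d hd => ?_, ?_⟩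
  · have : (K₀ : ℝ) < N := by have := one_div_pos.2 hε; linarith
    have : K₀ < N := by exact_mod_cast this
    exact this.le.trans (Nat.le_mul_of_pos_left N hG)
  · show ((model U N (some i)).submatrix e.symm e.symm).IsHermitian
    refine Matrix.IsHermitian.submatrix ?_ _
    show (U i ⊗ₖ (1 : Matrix (Fin N) (Fin N) ℂ))ᴴ = _
    rw [Matrix.conjTranspose_kronecker, (hU i).1.eq, Matrix.conjTranspose_one]
    rfl
  · rw [← map_mul, model, ← Matrix.mul_kronecker_mul, (hU i).2, one_mul, Matrix.one_kronecker_one,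
      map_one]
  · have hd : Matrix.diagonal (fun l => ((((e.symm l).2 : ℝ) / N : ℝ) : ℂ)) =
        Matrix.reindexAlgEquiv ℂ ℂ e (model U N none) := by
      simp [model, ← Matrix.diagonal_one, Matrix.diagonal_kronecker_diagonal,
        Matrix.coe_reindexAlgEquiv, Function.comp_def]
    rw [hd, ← map_mul, ← map_mul, model, model, ← Matrix.mul_kronecker_mul,
      ← Matrix.mul_kronecker_mul, one_mul, mul_one, one_mul, mul_one]
  · rw [div_le_one (by exact_mod_cast hN0)]
    exact_mod_cast (e.symm l).2.2.le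
  · have hN' : (0 : ℝ) < N := by exact_mod_cast hN0
    have hεN : 1 / (N : ℝ) ≤ ε :=
      ((one_div_lt hε hN').1 (lt_of_le_of_lt (le_add_of_nonneg_right (Nat.cast_nonneg K₀)) hN)).le
    refine (card_band_le e hN0 d hd).trans (mul_le_mul_of_nonneg_right (by linarith) ?_)
    positivity
  · intro w hw
    have hd : Matrix.diagonal (fun l => ((((e.symm l).2 : ℝ) / N : ℝ) : ℂ)) =
        Matrix.reindexAlgEquiv ℂ ℂ e (model U N none) := by
      simp [model, ← Matrix.diagonal_one, Matrix.diagonal_kronecker_diagonal,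
        Matrix.coe_reindexAlgEquiv, Function.comp_def]
    have hmap : (w.map fun o : Option ι => o.elim
        (Matrix.diagonal fun l => ((((e.symm l).2 : ℝ) / N : ℝ) : ℂ))
        fun i => Matrix.reindexAlgEquiv ℂ ℂ e (model U N (some i))).prod =
        Matrix.reindexAlgEquiv ℂ ℂ e (w.map (model U N)).prod := by
      rw [map_list_prod, List.map_map]
      congr 1
      refine List.map_congr_left fun o _ => ?_
      cases o
      · exact hd
      · rfl
    rw [hmap]
    have htrace : ∀ M : Matrix (G × Fin N) (G × Fin N) ℂ,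
        (Matrix.reindexAlgEquiv ℂ ℂ e M).trace = M.trace := fun M => by
      simp only [Matrix.trace, Matrix.diag, Matrix.coe_reindexAlgEquiv, Matrix.reindex_apply,
        Matrix.submatrix_apply]
      exact e.symm.sum_comp (fun x => M x x)
    rw [htrace, prod_model, Matrix.trace_kronecker, Matrix.trace_diagonal,
      htr _ ((List.length_filterMap_le _ _).trans hw), wordMoment]
    split_ifs with hr
    · have h := grid_moment (w.count none) N hN0
      set S := ∑ l : Fin N, ((l : ℝ) / N) ^ w.count none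
      have : ((Fintype.card G : ℂ) * ∑ l : Fin N, (((l : ℝ) / N : ℝ) : ℂ) ^ w.count none) /
          ((Fintype.card G * N : ℕ) : ℂ) - ((1 / ((w.count none : ℝ) + 1) : ℝ) : ℂ) =
          ((S / N - 1 / ((w.count none : ℝ) + 1) : ℝ) : ℂ) := by
        have : (∑ l : Fin N, (((l : ℝ) / N : ℝ) : ℂ) ^ w.count none) = (S : ℂ) := by
          simp [S]
        rw [this]
        have : (Fintype.card G : ℂ) ≠ 0 := by exact_mod_cast hG.ne'
        push_cast
        field_simp
      rw [this, Complex.norm_real, Real.norm_eq_abs]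
      refine h.trans_lt ?_
      have : 1 / ε < N := lt_of_le_of_lt (le_add_of_nonneg_right (Nat.cast_nonneg K₀)) hN
      exact (one_div_lt hε (by exact_mod_cast hN0)).1 this
    · simpa using hε

end Vale.Agent.P087.PermModel
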