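import Mathlib
import Vale.Agent.P087.Basic
import Vale.Agent.P087.PermGrid

/-!
# P087: finite models of free symmetries and a central uniform element
-/

namespace Vale.Agent.P087

open Filter
open scoped Topology

noncomputable section

lemma redStep_eq_push {p : ℕ} (a : Fin p) : ∀ l, redStep a l = PermModel.push a l
  | [] => rfl
  | b :: r => by
    simp only [redStep, PermModel.push]
    split_ifs with h1 h2 <;> first | rfl | simp_all

lemma red_eq {p : ℕ} : ∀ w : List (Fin p), red w = PermModel.red w
  | [] => rfl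
  | a :: w => by
    change redStep a (red w) = PermModel.push a (PermModel.red w)
    rw [red_eq w, redStep_eq_push]

lemma isChain_red {p : ℕ} : ∀ w : List (Fin p), (red w).IsChain (· ≠ ·)
  | [] => List.isChain_nil
  | a :: w => by
    change (redStep a (red w)).IsChain (· ≠ ·)
    rw [redStep_eq_push]
    exact PermModel.chain_push a (isChain_red w)

/-- The letters `Fin (p + 1)` as optional symmetries. -/
def optLetter {p : ℕ} (i : Fin (p + 1)) : Option (Fin p) := Fin.cases none some i

lemma mu0_eq_wordMoment {p : ℕ} (w : List (Fin (p + 1))) :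
    mu0 p w = (PermModel.wordMoment (w.map optLetter) : ℂ) := by
  have h1 : (w.map optLetter).filterMap id = aPart w := by
    simp only [List.filterMap_map, aPart]; rfl
  have h2 : (w.map optLetter).count none = w.count 0 := by
    induction w with
    | nil => rfl
    | cons i w ih =>
      induction i using Fin.cases with
      | zero => simp [optLetter, ih (by simp [aPart, List.filterMap_map]; rfl)]
      | succ j => simp [optLetter, ih (by simp [aPart, List.filterMap_map]; rfl), Fin.succ_ne_zero]
  simp only [mu0, PermModel.wordMoment, h1, h2, red_eq]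
  split_ifs <;> simp

lemma aPart_zero {p : ℕ} (K : List (Fin (p + 1))) : aPart (0 :: K) = aPart K :=
  List.filterMap_cons_none rfl

lemma aPart_succ {p : ℕ} (a : Fin p) (K : List (Fin (p + 1))) :
    aPart (a.succ :: K) = a :: aPart K :=
  List.filterMap_cons_some (by simp)

lemma opBound_of_symm {k : ℕ} {A : Matrix (Fin k) (Fin k) ℂ} (hA : A.IsHermitian)
    (h2 : A * A = 1) : OpBound A 1 := by
  intro v
  have h : star (A.mulVec v) ⬝ᵥ A.mulVec v = star v ⬝ᵥ v := by
    rw [Matrix.star_mulVec, ← Matrix.dotProduct_mulVec, Matrix.mulVec_mulVec, hA.eq, h2,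
      Matrix.one_mulVec]
  have hs : ∀ u : Fin k → ℂ, star u ⬝ᵥ u = ((∑ i, ‖u i‖ ^ 2 : ℝ) : ℂ) := fun u => by
    simp only [dotProduct, Pi.star_apply, Complex.star_def, Complex.conj_mul', Complex.ofReal_sum,
      Complex.ofReal_pow]
  rw [hs, hs, Complex.ofReal_inj] at h
  rw [one_pow, one_mul, h]

lemma opBound_diagonal {k : ℕ} {d : Fin k → ℝ} (hd : ∀ i, d i ∈ Set.Icc (0 : ℝ) 1) :
    OpBound (Matrix.diagonal fun i => (d i : ℂ)) 1 := by
  intro v
  rw [one_pow, one_mul]
  refine Finset.sum_le_sum fun i _ => ?_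
  rw [Matrix.mulVec_diagonal, norm_mul, mul_pow, Complex.norm_real, Real.norm_eq_abs]
  have h1 : |d i| ≤ 1 := abs_le.2 ⟨by linarith [(hd i).1], (hd i).2⟩
  exact mul_le_of_le_one_left (sq_nonneg _) (pow_le_one₀ (abs_nonneg _) h1)

theorem exists_model (p : ℕ) :
    ∃ (kk : ℕ → ℕ) (d : ∀ N, Fin (kk N) → ℝ)
      (B : ∀ N, Fin (p + 1) → Matrix (Fin (kk N)) (Fin (kk N)) ℂ),
      Tendsto kk atTop atTop ∧
      (∀ N, B N 0 = Matrix.diagonal fun i => (d N i : ℂ)) ∧
      (∀ N j, (B N j).IsHermitian ∧ OpBound (B N j) 1) ∧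
      (∀ N j, Commute (B N 0) (B N j)) ∧
      (∀ w, Tendsto (fun N => ntr (wordProd (B N) w)) atTop (𝓝 (mu0 p w))) ∧
      ∀ e η : ℝ, 0 < e → 0 < η → ∀ᶠ N in atTop,
        (((Finset.univ : Finset (Fin (kk N) × Fin (kk N))).filter
          fun q => |d N q.1 - d N q.2| ≤ e).card : ℝ) ≤ (2 * e + η) * (kk N : ℝ) ^ 2 := by
  have h := fun N : ℕ => PermModel.exists_model (Fin p) N N
    (show (0 : ℝ) < 1 / ((N : ℝ) + 1) by positivity)
  choose kk hN hk A t hA ht hband hw using h
  refine ⟨kk, t, fun N => Fin.cases (Matrix.diagonal fun i => (t N i : ℂ)) (A N),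
    tendsto_atTop_mono hN tendsto_id, fun N => rfl, fun N j => ?_, fun N j => ?_, fun w => ?_,
    fun e η he hη => ?_⟩
  · induction j using Fin.cases with
    | zero => exact ⟨Matrix.isHermitian_diagonal_of_self_adjoint _ (funext fun i => by simp),
        opBound_diagonal (ht N)⟩
    | succ j => exact ⟨(hA N j).1, opBound_of_symm (hA N j).1 (hA N j).2.1⟩
  · induction j using Fin.cases with
    | zero => exact Commute.refl _
    | succ j => exact (hA N j).2.2.symm
  · rw [tendsto_iff_norm_sub_tendsto_zero]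
    refine squeeze_zero' (Eventually.of_forall fun N => norm_nonneg _) ?_
      (tendsto_one_div_add_atTop_nhds_zero_nat)
    filter_upwards [eventually_ge_atTop w.length] with N hwN
    refine le_trans (le_of_eq ?_) (hw N (w.map optLetter) (by simpa using hwN)).le
    rw [mu0_eq_wordMoment, ntr, wordProd, List.map_map]
    congr 3
    refine congrArg (fun l : List (Matrix (Fin (kk N)) (Fin (kk N)) ℂ) => l.prod.trace)
      (List.map_congr_left fun i _ => ?_)
    induction i using Fin.cases with
    | zero => rfl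
    | succ j => rfl
  · filter_upwards [tendsto_one_div_add_atTop_nhds_zero_nat.eventually_le_const hη] with N hNη
    exact (hband N e he.le).trans (mul_le_mul_of_nonneg_right (by linarith) (by positivity))

theorem mu0_nil (p : ℕ) : mu0 p [] = 1 := by
  simp [mu0, aPart, red]

theorem mu0_single (p : ℕ) (j : Fin p) : mu0 p [j.succ] = 0 := by
  simp [mu0, aPart, red, redStep]

theorem mu0_sq (p : ℕ) (j : Fin p) : mu0 p [j.succ, j.succ] = 1 := by
  simp [mu0, aPart, red, redStep, Fin.succ_ne_zero]

/-- Weighted count of the words reducing to a given word. -/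
lemma gradeSq_le_of_red (p : ℕ) (hp : 1 ≤ p) : ∀ (L : ℕ) (v : List (Fin p)),
    v.IsChain (· ≠ ·) → ∀ F : List (Fin (p + 1)) → ℂ,
    (∀ K, ‖F K‖ ^ 2 ≤ if red (aPart K) = v then 1 else 0) →
    gradeSq F L ≤ (1 + 2 * Real.sqrt p) ^ L * ((Real.sqrt p)⁻¹) ^ v.length
  | 0, v, _, F, hF => by
    refine (hF []).trans ?_
    by_cases hv : red (aPart ([] : List (Fin (p + 1)))) = v
    · rw [if_pos hv]; subst hv; simp [aPart, red]
    · rw [if_neg hv]; positivity
  | L + 1, v, hv, F, hF => by
    have hr : 0 < Real.sqrt p := Real.sqrt_pos.2 (by exact_mod_cast hp)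
    have hr1 : Real.sqrt p * Real.sqrt p = p := Real.mul_self_sqrt (Nat.cast_nonneg p)
    set r := Real.sqrt p
    simp only [gradeSq]
    rw [Fin.sum_univ_succ]
    have h0 : gradeSq (fun K => F (0 :: K)) L ≤ (1 + 2 * r) ^ L * r⁻¹ ^ v.length :=
      gradeSq_le_of_red p hp L v hv _ fun K => by simpa only [aPart_zero] using hF (0 :: K)
    have hs : ∀ a : Fin p, gradeSq (fun K => F (a.succ :: K)) L ≤
        (1 + 2 * r) ^ L * r⁻¹ ^ (redStep a v).length := by
      intro a
      have hv' : (redStep a v).IsChain (· ≠ ·) := by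
        rw [redStep_eq_push]; exact PermModel.chain_push a hv
      refine gradeSq_le_of_red p hp L _ hv' _ fun K => (hF (a.succ :: K)).trans (le_of_eq ?_)
      refine if_congr ?_ rfl rfl
      have hK : red (aPart (a.succ :: K)) = redStep a (red (aPart K)) := by rw [aPart_succ]; rfl
      rw [hK, redStep_eq_push, redStep_eq_push]
      constructor
      · rintro rfl; rw [PermModel.push_push a (isChain_red _)]
      · intro h; rw [h, PermModel.push_push a hv]
    have hsum : ∑ a : Fin p, r⁻¹ ^ (redStep a v).length ≤ 2 * r * r⁻¹ ^ v.length := by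
      have hpr : (p : ℝ) * r⁻¹ = r := by rw [← hr1]; field_simp
      cases v with
      | nil =>
        simp only [redStep, List.length_cons, List.length_nil, zero_add, pow_one, pow_zero,
          mul_one, Finset.sum_const, Finset.card_univ, Fintype.card_fin, nsmul_eq_mul, hpr]
        linarith
      | cons b u =>
        have : ∀ a : Fin p, r⁻¹ ^ (redStep a (b :: u)).length ≤
            (if a = b then r * r⁻¹ ^ (b :: u).length else 0) + r⁻¹ ^ (b :: u).length * r⁻¹ := by
          intro a
          by_cases hab : a = b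
          · simp only [redStep, hab, if_true, List.length_cons, pow_succ]
            have : r * (r⁻¹ ^ u.length * r⁻¹) = r⁻¹ ^ u.length := by field_simp
            rw [this]
            exact le_add_of_nonneg_right (by positivity)
          · simp [redStep, hab, pow_succ]
        refine (Finset.sum_le_sum fun a _ => this a).trans (le_of_eq ?_)
        rw [Finset.sum_add_distrib, Finset.sum_ite_eq' Finset.univ b, if_pos (Finset.mem_univ _),
          Finset.sum_const, Finset.card_univ, Fintype.card_fin, nsmul_eq_mul, ← mul_assoc,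
          mul_comm (p : ℝ), mul_assoc, hpr]
        ring
    calc _ ≤ (1 + 2 * r) ^ L * r⁻¹ ^ v.length +
        ∑ a : Fin p, (1 + 2 * r) ^ L * r⁻¹ ^ (redStep a v).length :=
          add_le_add h0 (Finset.sum_le_sum fun a _ => hs a)
      _ ≤ (1 + 2 * r) ^ L * r⁻¹ ^ v.length + (1 + 2 * r) ^ L * (2 * r * r⁻¹ ^ v.length) := by
          rw [← Finset.mul_sum]; gcongr
      _ = _ := by rw [pow_succ]; ring

theorem gradeSq_mu0_le (p : ℕ) (hp : 1 ≤ p) (L : ℕ) :
    gradeSq (mu0 p) L ≤ (1 + 2 * Real.sqrt p) ^ L := by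
  refine (gradeSq_le_of_red p hp L [] List.isChain_nil (mu0 p) fun K => ?_).trans
    (le_of_eq (by simp))
  unfold mu0
  split_ifs with hK
  · have h1 : (1 : ℝ) ≤ ‖((K.count 0 : ℂ) + 1)‖ := by
      have : ((K.count 0 : ℂ) + 1) = (((K.count 0 : ℝ) + 1 : ℝ) : ℂ) := by push_cast; rfl
      rw [this, Complex.norm_real, Real.norm_eq_abs, abs_of_nonneg (by positivity)]
      simp
    rw [norm_div, norm_one]
    exact pow_le_one₀ (by positivity) (div_le_one_of_le₀ h1 (norm_nonneg _))
  · simp

end

end Vale.Agent.P087
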