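import Mathlib
import Vale.Agent.P087.Defs

/-!
# P087: passing to the cyclic subspace
-/

namespace Vale.Agent.P087

open scoped InnerProductSpace

noncomputable section

namespace Cyc

variable {H : Type} [NormedAddCommGroup H] [InnerProductSpace ℂ H] {p : Submodule ℂ H}

/-- The operator `P'` on the subspace is the restriction of `P`. -/
def Rel (p : Submodule ℂ H) (P' : p →L[ℂ] p) (P : H →L[ℂ] H) : Prop :=
  ∀ v : p, (P' v : H) = P v

lemma Rel.add {P' Q' : p →L[ℂ] p} {P Q : H →L[ℂ] H} (h : Rel p P' P) (h' : Rel p Q' Q) :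
    Rel p (P' + Q') (P + Q) := fun v => by simp [h v, h' v]

lemma Rel.mul {P' Q' : p →L[ℂ] p} {P Q : H →L[ℂ] H} (h : Rel p P' P) (h' : Rel p Q' Q) :
    Rel p (P' * Q') (P * Q) := fun v => by
  rw [mul_apply_eq_comp, mul_apply_eq_comp, h, h' v]

lemma Rel.smul (c : ℂ) {P' : p →L[ℂ] p} {P : H →L[ℂ] H} (h : Rel p P' P) :
    Rel p (c • P') (c • P) := fun v => by simp [h v]

lemma rel_one : Rel p 1 1 := fun v => by simp

lemma rel_algebraMap (c : ℂ) :
    Rel p (algebraMap ℂ (p →L[ℂ] p) c) (algebraMap ℂ (H →L[ℂ] H) c) := by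
  rw [Algebra.algebraMap_eq_smul_one, Algebra.algebraMap_eq_smul_one]
  exact rel_one.smul c

lemma Rel.pow {P' : p →L[ℂ] p} {P : H →L[ℂ] H} (h : Rel p P' P) :
    ∀ r : ℕ, Rel p (P' ^ r) (P ^ r)
  | 0 => by simpa using rel_one
  | r + 1 => by simpa [pow_succ] using (h.pow r).mul h

lemma rel_wordProd {α : Type*} {Z' : α → p →L[ℂ] p} {Z : α → H →L[ℂ] H}
    (h : ∀ a, Rel p (Z' a) (Z a)) : ∀ w : List α, Rel p (wordProd Z' w) (wordProd Z w)
  | [] => by simpa [wordProd] using rel_one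
  | a :: w => by simpa [wordProd] using (h a).mul (rel_wordProd h w)

lemma exists_down {s' : Set (p →L[ℂ] p)} {s : Set (H →L[ℂ] H)}
    (h : ∀ x' ∈ s', ∃ x ∈ s, Rel p x' x) {P' : p →L[ℂ] p}
    (hP : P' ∈ Algebra.adjoin ℂ s') : ∃ P ∈ Algebra.adjoin ℂ s, Rel p P' P := by
  induction hP using Algebra.adjoin_induction with
  | mem x hx =>
    obtain ⟨y, hy, hr⟩ := h x hx
    exact ⟨y, Algebra.subset_adjoin hy, hr⟩
  | algebraMap c => exact ⟨_, Subalgebra.algebraMap_mem _ c, rel_algebraMap c⟩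
  | add x y _ _ hx hy =>
    obtain ⟨a, ha, hra⟩ := hx
    obtain ⟨b, hb, hrb⟩ := hy
    exact ⟨a + b, add_mem ha hb, hra.add hrb⟩
  | mul x y _ _ hx hy =>
    obtain ⟨a, ha, hra⟩ := hx
    obtain ⟨b, hb, hrb⟩ := hy
    exact ⟨a * b, mul_mem ha hb, hra.mul hrb⟩

lemma exists_up {s' : Set (p →L[ℂ] p)} {s : Set (H →L[ℂ] H)}
    (h : ∀ x ∈ s, ∃ x' ∈ s', Rel p x' x) {P : H →L[ℂ] H}
    (hP : P ∈ Algebra.adjoin ℂ s) : ∃ P' ∈ Algebra.adjoin ℂ s', Rel p P' P := by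
  induction hP using Algebra.adjoin_induction with
  | mem x hx =>
    obtain ⟨y, hy, hr⟩ := h x hx
    exact ⟨y, Algebra.subset_adjoin hy, hr⟩
  | algebraMap c => exact ⟨_, Subalgebra.algebraMap_mem _ c, rel_algebraMap c⟩
  | add x y _ _ hx hy =>
    obtain ⟨a, ha, hra⟩ := hx
    obtain ⟨b, hb, hrb⟩ := hy
    exact ⟨a + b, add_mem ha hb, hra.add hrb⟩
  | mul x y _ _ hx hy =>
    obtain ⟨a, ha, hra⟩ := hx
    obtain ⟨b, hb, hrb⟩ := hy
    exact ⟨a * b, mul_mem ha hb, hra.mul hrb⟩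

lemma vstate_rel {P' : p →L[ℂ] p} {P : H →L[ℂ] H} (h : Rel p P' P) (Ω' : p) :
    vstate Ω' P' = vstate (Ω' : H) P := by
  simp [vstate, Submodule.coe_inner, h Ω']

lemma moments_rel {α : Type*} {Z' : α → p →L[ℂ] p} {Z : α → H →L[ℂ] H}
    (h : ∀ a, Rel p (Z' a) (Z a)) (Ω' : p) : moments Ω' Z' = moments (Ω' : H) Z :=
  funext fun w => vstate_rel (rel_wordProd h w) Ω'

lemma mem_closure_down (Ω' : p) {s' : Set (p →L[ℂ] p)} {s : Set (H →L[ℂ] H)}
    (h : ∀ x ∈ s, ∃ x' ∈ s', Rel p x' x) (v : p)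
    (hv : (v : H) ∈ closure ((fun P : H →L[ℂ] H => P (Ω' : H)) ''
      (Algebra.adjoin ℂ s : Set (H →L[ℂ] H)))) :
    v ∈ closure ((fun P : p →L[ℂ] p => P Ω') ''
      (Algebra.adjoin ℂ s' : Set (p →L[ℂ] p))) := by
  refine closure_subtype.2 (closure_mono ?_ hv)
  rintro _ ⟨P, hP, rfl⟩
  obtain ⟨P', hP', hr⟩ := exists_up h hP
  exact ⟨P' Ω', ⟨P', hP', rfl⟩, hr Ω'⟩

lemma isFree_rel {ι : Type} (Ω' : p) {A' : ι → Subalgebra ℂ (p →L[ℂ] p)}
    {A : ι → Subalgebra ℂ (H →L[ℂ] H)}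
    (hA : ∀ i, ∀ P' ∈ A' i, ∃ P ∈ A i, Rel p P' P) (hf : IsFree (vstate (Ω' : H)) A) :
    IsFree (vstate Ω') A' := by
  classical
  intro l hl hmem hch
  let g : ι × (p →L[ℂ] p) → (H →L[ℂ] H) := fun a =>
    if h : a.2 ∈ A' a.1 then (hA a.1 a.2 h).choose else 0
  have hg : ∀ a ∈ l, g a ∈ A a.1 ∧ Rel p a.2 (g a) := by
    intro a ha
    simp only [g, dif_pos (hmem a ha).1]
    exact (hA a.1 a.2 (hmem a ha).1).choose_spec
  have hprod : ∀ m : List (ι × (p →L[ℂ] p)), (∀ a ∈ m, Rel p a.2 (g a)) →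
      Rel p (m.map Prod.snd).prod (m.map g).prod := by
    intro m
    induction m with
    | nil => intro _; simpa using rel_one
    | cons a m ih =>
      intro h
      simpa using (h a (by simp)).mul (ih fun b hb => h b (by simp [hb]))
  rw [vstate_rel (hprod l fun a ha => (hg a ha).2)]
  have h2 := hf (l.map fun a => (a.1, g a)) (by simpa using hl) ?_ ?_
  · simpa [List.map_map, Function.comp_def] using h2
  · intro b hb
    obtain ⟨a, ha, rfl⟩ := List.mem_map.1 hb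
    exact ⟨(hg a ha).1, by rw [← vstate_rel (hg a ha).2]; exact (hmem a ha).2⟩
  · rw [List.isChain_map]
    exact hch

end Cyc

open Cyc in
theorem exists_cyclic {n : ℕ} {H : Type} [NormedAddCommGroup H] [InnerProductSpace ℂ H]
    [CompleteSpace H] (Ω : H) (X S : Fin n → H →L[ℂ] H)
    (hsa : ∀ i, IsSelfAdjoint (X i) ∧ IsSelfAdjoint (S i)) (hΩ : ‖Ω‖ = 1)
    (htr : ∀ P ∈ Algebra.adjoin ℂ (Set.range X ∪ Set.range S),
      ∀ Q ∈ Algebra.adjoin ℂ (Set.range X ∪ Set.range S), vstate Ω (P * Q) = vstate Ω (Q * P))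
    (hsc : ∀ i, ∀ r : ℕ, vstate Ω (S i ^ (2 * r)) = (catalan r : ℂ) ∧
      vstate Ω (S i ^ (2 * r + 1)) = 0)
    (hfree : IsFree (vstate Ω) (fun o : Option (Fin n) =>
      o.elim (Algebra.adjoin ℂ (Set.range X)) (fun i => Algebra.adjoin ℂ {S i}))) :
    ∃ (H' : Type) (_ : NormedAddCommGroup H') (_ : InnerProductSpace ℂ H')
      (_ : CompleteSpace H') (Ω' : H') (X' S' : Fin n → H' →L[ℂ] H'),
      Setting Ω' X' S' ∧ (∀ w, moments Ω' X' w = moments Ω X w) ∧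
      ∀ (a : ℂ) (j : Fin n) (ξ : H), IsConjugate Ω (fun i => X i + a • S i) j ξ →
        ∃ ξ' : H', ‖ξ'‖ = ‖ξ‖ ∧ IsConjugate Ω' (fun i => X' i + a • S' i) j ξ' := by
  set A := Algebra.adjoin ℂ (Set.range X ∪ Set.range S) with hA
  let q : Submodule ℂ H :=
    (Subalgebra.toSubmodule A).map (ContinuousLinearMap.apply ℂ H Ω).toLinearMap
  let p : Submodule ℂ H := q.topologicalClosure
  have hq : (q : Set H) = (fun P : H →L[ℂ] H => P Ω) '' (A : Set (H →L[ℂ] H)) := rfl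
  have hp : (p : Set H) = closure ((fun P : H →L[ℂ] H => P Ω) '' (A : Set (H →L[ℂ] H))) := by
    rw [← hq]; exact Submodule.topologicalClosure_coe q
  have : CompleteSpace p := q.isClosed_topologicalClosure.completeSpace_coe
  have hstab : ∀ T ∈ A, ∀ v ∈ p, T v ∈ p := by
    intro T hT v hv
    rw [← SetLike.mem_coe, hp] at hv ⊢
    refine map_mem_closure T.continuous hv ?_
    rintro _ ⟨P, hP, rfl⟩
    exact ⟨T * P, mul_mem hT hP, rfl⟩
  have hΩp : Ω ∈ p := by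
    rw [← SetLike.mem_coe, hp]
    exact subset_closure ⟨1, one_mem A, rfl⟩
  let res : ∀ T : H →L[ℂ] H, T ∈ A → (p →L[ℂ] p) := fun T hT =>
    (T.comp p.subtypeL).codRestrict p fun v => hstab T hT v v.2
  have hXA : ∀ i, X i ∈ A := fun i => Algebra.subset_adjoin (Or.inl ⟨i, rfl⟩)
  have hSA : ∀ i, S i ∈ A := fun i => Algebra.subset_adjoin (Or.inr ⟨i, rfl⟩)
  let X' : Fin n → p →L[ℂ] p := fun i => res (X i) (hXA i)
  let S' : Fin n → p →L[ℂ] p := fun i => res (S i) (hSA i)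
  have hX : ∀ i, Rel p (X' i) (X i) := fun i v => rfl
  have hS : ∀ i, Rel p (S' i) (S i) := fun i v => rfl
  let Ω' : p := ⟨Ω, hΩp⟩
  have hdown : ∀ x' ∈ Set.range X' ∪ Set.range S',
      ∃ x ∈ Set.range X ∪ Set.range S, Rel p x' x := by
    rintro x' (⟨i, rfl⟩ | ⟨i, rfl⟩)
    exacts [⟨_, Or.inl ⟨i, rfl⟩, hX i⟩, ⟨_, Or.inr ⟨i, rfl⟩, hS i⟩]
  have hup : ∀ x ∈ Set.range X ∪ Set.range S,
      ∃ x' ∈ Set.range X' ∪ Set.range S', Rel p x' x := by
    rintro x (⟨i, rfl⟩ | ⟨i, rfl⟩)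
    exacts [⟨_, Or.inl ⟨i, rfl⟩, hX i⟩, ⟨_, Or.inr ⟨i, rfl⟩, hS i⟩]
  have hsym : ∀ (T : H →L[ℂ] H) (hT : T ∈ A), IsSelfAdjoint T → IsSelfAdjoint (res T hT) := by
    intro T hT hs
    rw [ContinuousLinearMap.isSelfAdjoint_iff_isSymmetric] at hs ⊢
    intro x y
    exact hs x y
  refine ⟨p, inferInstance, inferInstance, inferInstance, Ω', X', S', ?_, fun w => ?_, ?_⟩
  · refine ⟨fun i => ⟨hsym _ (hXA i) (hsa i).1, hsym _ (hSA i) (hsa i).2⟩, hΩ, ?_, ?_, fun i r => ?_, ?_⟩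
    · intro P' hP' Q' hQ'
      obtain ⟨P, hP, hrP⟩ := exists_down hdown hP'
      obtain ⟨Q, hQ, hrQ⟩ := exists_down hdown hQ'
      rw [vstate_rel (hrP.mul hrQ), vstate_rel (hrQ.mul hrP)]
      exact htr P hP Q hQ
    · refine Set.eq_univ_of_forall fun v => mem_closure_down Ω' hup v ?_
      have hv := v.2
      rw [← SetLike.mem_coe, hp] at hv
      exact hv
    · rw [vstate_rel ((hS i).pow _), vstate_rel ((hS i).pow _)]
      exact hsc i r
    · refine isFree_rel Ω' (fun o => ?_) hfree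
      cases o with
      | none =>
        intro P' hP'
        refine exists_down ?_ hP'
        rintro _ ⟨i, rfl⟩
        exact ⟨_, ⟨i, rfl⟩, hX i⟩
      | some i =>
        intro P' hP'
        refine exists_down ?_ hP'
        rintro _ rfl
        exact ⟨_, rfl, hS i⟩
  · rw [moments_rel hX]
  · intro a j ξ hξ
    have hY : ∀ i, Rel p (X' i + a • S' i) (X i + a • S i) := fun i =>
      (hX i).add ((hS i).smul a)
    have hle : Algebra.adjoin ℂ (Set.range fun i => X i + a • S i) ≤ A := by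
      refine Algebra.adjoin_le ?_
      rintro _ ⟨i, rfl⟩
      exact add_mem (hXA i) (Subalgebra.smul_mem _ (hSA i) a)
    have hξp : ξ ∈ p := by
      rw [← SetLike.mem_coe, hp]
      exact closure_mono (Set.image_mono (SetLike.coe_subset_coe.2 hle)) hξ.1
    refine ⟨⟨ξ, hξp⟩, rfl, mem_closure_down Ω' ?_ _ hξ.1, fun w => ?_⟩
    · rintro _ ⟨i, rfl⟩
      exact ⟨_, ⟨i, rfl⟩, hY i⟩
    · rw [Submodule.coe_inner, rel_wordProd hY w, moments_rel hY]
      exact hξ.2 w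

end

end Vale.Agent.P087
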