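import Mathlib
import Vale.Agent.P087.Basic
import Vale.Agent.P087.Gauss
import Vale.Agent.P087.Model

/-!
# P087: finite samples of the example
-/

namespace Vale.Agent.P087

open MeasureTheory Filter
open scoped Topology

noncomputable section

lemma sample_herm_isHermitian {k : ℕ} (x : Coord k) : (herm x).IsHermitian := by
  ext i l
  simp only [Matrix.conjTranspose_apply, herm]
  rcases lt_trichotomy i l with h | h | h
  · simp [h, h.ne, h.ne', h.asymm]
  · subst h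
    simp
  · simp [h, h.ne, h.ne', h.asymm, sub_eq_add_neg]

lemma sample_opBound_mono {k : ℕ} {A : Matrix (Fin k) (Fin k) ℂ} {R R' : ℝ}
    (h : OpBound A R) (h0 : 0 ≤ R) (hR : R ≤ R') : OpBound A R' := fun v =>
  (h v).trans (mul_le_mul_of_nonneg_right (pow_le_pow_left₀ h0 hR 2)
    (Finset.sum_nonneg fun _ _ => sq_nonneg _))

theorem exists_sample (p : ℕ) (W : Finset (List (L3 (p + 1)))) (ε e η : ℝ) (hε : 0 < ε)
    (he : 0 < e) (hη : 0 < η) (K : ℕ) :
    ∃ k, K ≤ k ∧ 0 < k ∧ ∃ (d : Fin k → ℝ) (B : Fin (p + 1) → Matrix (Fin k) (Fin k) ℂ)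
      (g : Fin (p + 1) ⊕ Fin (p + 1) → Coord k),
      B 0 = Matrix.diagonal (fun i => (d i : ℂ)) ∧
      (∀ j, (B j).IsHermitian ∧ OpBound (B j) 1) ∧ (∀ j, Commute (B 0) (B j)) ∧
      (((Finset.univ : Finset (Fin k × Fin k)).filter
        fun q => |d q.1 - d q.2| ≤ e).card : ℝ) ≤ (2 * e + η) * (k : ℝ) ^ 2 ∧
      (∀ s, OpBound (herm (g s)) 40) ∧
      ∀ w ∈ W, ‖ntr (wordProd (Sum.elim B fun s => herm (g s)) w) - law (mu0 p) w‖ < ε := by
  obtain ⟨kk, d, B, hkk, hB0, hB, hcomm, hmom, hband⟩ := exists_model p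
  have hg := gue_tendsto (σ := Fin (p + 1) ⊕ Fin (p + 1)) (mu0 p) kk hkk B 1 hB hmom W ε hε
  have h1 := hg.eventually (lt_mem_nhds (zero_lt_one (α := ENNReal)))
  obtain ⟨N, hN1, hN2, hN3⟩ :=
    (h1.and ((hband e η he hη).and (hkk.eventually (eventually_ge_atTop (max K 1))))).exists
  obtain ⟨g, hg1, hg2⟩ := nonempty_of_measure_ne_zero hN1.ne'
  exact ⟨kk N, le_trans (le_max_left _ _) hN3, lt_of_lt_of_le one_pos
    (le_trans (le_max_right _ _) hN3), d N, B N, g, hB0 N, hB N, hcomm N, hN2, hg1, hg2⟩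

theorem exampleLaw_matApprox (p : ℕ) :
    MatApprox (law (σ := Fin (p + 1) ⊕ Fin (p + 1)) (mu0 p)) 40 := by
  intro W ε K hε
  obtain ⟨k, hK, -, -, B, g, -, hB, -, -, hg, hW⟩ :=
    exists_sample p W ε 1 1 hε one_pos one_pos K
  refine ⟨k, hK, Sum.elim B fun s => herm (g s), fun l => ?_, hW⟩
  cases l with
  | inl a => exact ⟨(hB a).1, sample_opBound_mono (hB a).2 zero_le_one (by norm_num)⟩
  | inr s => exact ⟨sample_herm_isHermitian _, hg s⟩

end

end Vale.Agent.P087
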