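import Mathlib
import Vale.Agent.P087.Basic

/-!
# P087: spectral tools for the band argument
-/

namespace Vale.Agent.P087.Band

open scoped Matrix

noncomputable section

variable {k : ℕ}

/-- Square matrices. -/
abbrev Mat (k : ℕ) := Matrix (Fin k) (Fin k) ℂ

/-- The squared Frobenius norm. -/
def fsq (M : Mat k) : ℝ := ∑ i, ∑ l, ‖M i l‖ ^ 2

theorem fsq_prod (M : Mat k) : ∑ q : Fin k × Fin k, ‖M q.1 q.2‖ ^ 2 = fsq M :=
  Fintype.sum_prod_type _

theorem fsq_nonneg (M : Mat k) : 0 ≤ fsq M := by unfold fsq; positivity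

theorem trace_mul_conjTranspose_self (M : Mat k) : (M * Mᴴ).trace = (fsq M : ℂ) := by
  simp only [fsq, Matrix.trace, Matrix.diag, Matrix.mul_apply, Matrix.conjTranspose_apply]
  push_cast
  refine Finset.sum_congr rfl fun i _ => Finset.sum_congr rfl fun l _ => ?_
  exact RCLike.mul_conj _

theorem fsq_conjTranspose (M : Mat k) : fsq Mᴴ = fsq M := by
  simp only [fsq, Matrix.conjTranspose_apply, norm_star]
  exact Finset.sum_comm

theorem fsq_of_hermitian {M : Mat k} (hM : M.IsHermitian) : (M * M).trace = (fsq M : ℂ) := by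
  have := trace_mul_conjTranspose_self M
  rwa [hM.eq] at this

theorem herm_isHermitian (x : Coord k) : (herm x).IsHermitian := by
  refine Matrix.IsHermitian.ext fun i l => ?_
  simp only [herm]
  rcases lt_trichotomy i l with h | h | h
  · simp [h.ne, h.ne', h.not_gt, h, Complex.conj_ofReal]
  · subst h; simp
  · simp [h.ne, h.ne', h.not_gt, h, Complex.conj_ofReal]
    ring

/-- A matrix in the eigenbasis of `H`. -/
def rot {H : Mat k} (hH : H.IsHermitian) (M : Mat k) : Mat k :=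
  ((hH.eigenvectorUnitary : Mat k))ᴴ * M * (hH.eigenvectorUnitary : Mat k)

theorem unit_mul {H : Mat k} (hH : H.IsHermitian) :
    (hH.eigenvectorUnitary : Mat k) * ((hH.eigenvectorUnitary : Mat k))ᴴ = 1 :=
  Matrix.mem_unitaryGroup_iff.mp hH.eigenvectorUnitary.2

theorem unit_mul' {H : Mat k} (hH : H.IsHermitian) :
    ((hH.eigenvectorUnitary : Mat k))ᴴ * (hH.eigenvectorUnitary : Mat k) = 1 :=
  Matrix.mem_unitaryGroup_iff'.mp hH.eigenvectorUnitary.2

theorem rot_mul {H : Mat k} (hH : H.IsHermitian) (M N : Mat k) :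
    rot hH (M * N) = rot hH M * rot hH N := by
  simp only [rot, Matrix.mul_assoc]
  rw [← Matrix.mul_assoc (hH.eigenvectorUnitary : Mat k) _ (N * _), unit_mul hH, Matrix.one_mul]

theorem rot_conjTranspose {H : Mat k} (hH : H.IsHermitian) (M : Mat k) :
    rot hH Mᴴ = (rot hH M)ᴴ := by
  simp [rot, Matrix.mul_assoc]

theorem rot_hermitian {H : Mat k} (hH : H.IsHermitian) {M : Mat k} (hM : M.IsHermitian) :
    (rot hH M).IsHermitian := by
  rw [Matrix.IsHermitian, ← rot_conjTranspose, hM.eq]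

theorem trace_rot {H : Mat k} (hH : H.IsHermitian) (M : Mat k) : (rot hH M).trace = M.trace := by
  rw [rot, Matrix.trace_mul_cycle, unit_mul hH, Matrix.one_mul]

theorem fsq_rot {H : Mat k} (hH : H.IsHermitian) (M : Mat k) : fsq (rot hH M) = fsq M := by
  have h := trace_mul_conjTranspose_self (rot hH M)
  rw [← rot_conjTranspose, ← rot_mul, trace_rot, trace_mul_conjTranspose_self] at h
  exact_mod_cast h.symm

theorem rot_self {H : Mat k} (hH : H.IsHermitian) :
    rot hH H = Matrix.diagonal fun i => (hH.eigenvalues i : ℂ) :=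
  hH.conjStarAlgAut_star_eigenvectorUnitary ▸ by
    simp [rot, Unitary.conjStarAlgAut_star_apply, Matrix.star_eq_conjTranspose]

theorem rot_one {H : Mat k} (hH : H.IsHermitian) : rot hH 1 = 1 := by
  simp [rot, unit_mul' hH]

theorem rot_pow {H : Mat k} (hH : H.IsHermitian) (a : ℕ) :
    rot hH (H ^ a) = Matrix.diagonal fun i => (hH.eigenvalues i : ℂ) ^ a := by
  induction a with
  | zero => simp [rot_one]
  | succ a ih => rw [pow_succ, rot_mul, ih, rot_self, Matrix.diagonal_mul_diagonal]; simp [pow_succ]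

theorem trace_pow {H : Mat k} (hH : H.IsHermitian) (a : ℕ) :
    (H ^ a).trace = ∑ i, (hH.eigenvalues i : ℂ) ^ a := by
  rw [← trace_rot hH, rot_pow, Matrix.trace_diagonal]

theorem trace_pow_mul {H : Mat k} (hH : H.IsHermitian) (a b : ℕ) (M N : Mat k) :
    (H ^ a * M * H ^ b * N).trace = ∑ i, ∑ l, (hH.eigenvalues i : ℂ) ^ a *
      (hH.eigenvalues l : ℂ) ^ b * (rot hH M i l * rot hH N l i) := by
  rw [← trace_rot hH, rot_mul, rot_mul, rot_mul, rot_pow, rot_pow]
  simp only [Matrix.trace, Matrix.diag, Matrix.mul_apply (M := _ * _ * _), Matrix.diagonal_mul,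
    Matrix.mul_diagonal]
  exact Finset.sum_congr rfl fun i _ => Finset.sum_congr rfl fun l _ => by ring

theorem fsq_eigen_le {H : Mat k} {R : ℝ} (hR : OpBound H R) (v : Fin k → ℂ) :
    ∑ i, ‖(H.mulVec v) i‖ ^ 2 ≤ R ^ 2 * ∑ i, ‖v i‖ ^ 2 := hR v

theorem unit_col {H : Mat k} (hH : H.IsHermitian) (i : Fin k) :
    ∑ a, ‖(hH.eigenvectorUnitary : Mat k) a i‖ ^ 2 = 1 := by
  have h := congrFun (congrFun (unit_mul' hH) i) i
  simp only [Matrix.mul_apply, Matrix.conjTranspose_apply, Matrix.one_apply_eq] at h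
  have h2 : (((∑ a, ‖(hH.eigenvectorUnitary : Mat k) a i‖ ^ 2 : ℝ)) : ℂ) = 1 := by
    rw [← h]; push_cast
    exact Finset.sum_congr rfl fun a _ => (RCLike.conj_mul _).symm
  exact_mod_cast h2

theorem unit_row {H : Mat k} (hH : H.IsHermitian) (a : Fin k) :
    ∑ i, ‖(hH.eigenvectorUnitary : Mat k) a i‖ ^ 2 = 1 := by
  have h := congrFun (congrFun (unit_mul hH) a) a
  simp only [Matrix.mul_apply, Matrix.conjTranspose_apply, Matrix.one_apply_eq] at h
  have h2 : (((∑ i, ‖(hH.eigenvectorUnitary : Mat k) a i‖ ^ 2 : ℝ)) : ℂ) = 1 := by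
    rw [← h]; push_cast
    exact Finset.sum_congr rfl fun i _ => (RCLike.mul_conj _).symm
  exact_mod_cast h2

theorem mul_unit {H : Mat k} (hH : H.IsHermitian) :
    H * (hH.eigenvectorUnitary : Mat k) =
      (hH.eigenvectorUnitary : Mat k) * Matrix.diagonal fun i => (hH.eigenvalues i : ℂ) := by
  rw [← rot_self hH, rot, ← Matrix.mul_assoc, ← Matrix.mul_assoc, unit_mul hH, Matrix.one_mul]

theorem abs_eigen_le {H : Mat k} (hH : H.IsHermitian) {R : ℝ} (hR0 : 0 ≤ R) (hR : OpBound H R)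
    (i : Fin k) : |hH.eigenvalues i| ≤ R := by
  have h := hR (fun a => (hH.eigenvectorUnitary : Mat k) a i)
  have e : ∀ a, (H.mulVec fun a => (hH.eigenvectorUnitary : Mat k) a i) a =
      (hH.eigenvectorUnitary : Mat k) a i * (hH.eigenvalues i : ℂ) := fun a => by
    have := congrFun (congrFun (mul_unit hH) a) i
    rw [Matrix.mul_diagonal] at this
    rw [← this]
    rfl
  simp only [e, norm_mul, mul_pow, ← Finset.sum_mul, unit_col hH, one_mul, mul_one,
    Complex.norm_real, Real.norm_eq_abs] at h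
  exact (pow_le_pow_iff_left₀ (abs_nonneg _) hR0 two_ne_zero).mp h

theorem fsq_mul_le {G : Mat k} {R : ℝ} (hG : OpBound G R) (M : Mat k) :
    fsq (G * M) ≤ R ^ 2 * fsq M := by
  unfold fsq
  rw [Finset.sum_comm]
  conv_rhs => rw [Finset.sum_comm, Finset.mul_sum]
  exact Finset.sum_le_sum fun l _ => hG fun a => M a l

theorem fsq_le_of_opBound {G : Mat k} {R : ℝ} (hG : OpBound G R) : fsq G ≤ R ^ 2 * k := by
  have h := fsq_mul_le hG 1
  rw [Matrix.mul_one] at h
  refine h.trans_eq ?_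
  congr 1
  simp [fsq, Matrix.one_apply, apply_ite]

theorem fsq_comm_le {G B : Mat k} (hG : G.IsHermitian) (hB : B.IsHermitian) {R : ℝ}
    (hR : OpBound G R) : fsq (G * B - B * G) ≤ 4 * R ^ 2 * fsq B := by
  have h1 : fsq (G * B - B * G) ≤ 2 * fsq (G * B) + 2 * fsq (B * G) := by
    simp only [fsq, Finset.mul_sum, ← Finset.sum_add_distrib]
    refine Finset.sum_le_sum fun i _ => Finset.sum_le_sum fun l _ => ?_
    have := pow_le_pow_left₀ (norm_nonneg _) (norm_sub_le ((G * B) i l) ((B * G) i l)) 2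
    simp only [Matrix.sub_apply]
    nlinarith [sq_nonneg (‖(G * B) i l‖ - ‖(B * G) i l‖)]
  have h2 : fsq (B * G) = fsq (G * B) := by
    rw [← fsq_conjTranspose, Matrix.conjTranspose_mul, hG.eq, hB.eq]
  have h3 := fsq_mul_le hR B
  nlinarith

theorem opBound_smul_add {B G : Mat k} {r R s : ℝ} (hr : 0 ≤ r) (hR : 0 ≤ R) (hs : 0 ≤ s)
    (hB : OpBound B r) (hG : OpBound G R) : OpBound (B + (s : ℂ) • G) (r + s * R) := by
  intro v
  let n2 : (Fin k → ℂ) → EuclideanSpace ℂ (Fin k) := WithLp.toLp 2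
  have hn : ∀ u, ‖n2 u‖ ^ 2 = ∑ i, ‖u i‖ ^ 2 := fun u => by
    simp [n2, EuclideanSpace.norm_sq_eq]
  have hb : ∀ {A : Mat k} {c : ℝ}, 0 ≤ c → OpBound A c → ‖n2 (A.mulVec v)‖ ≤ c * ‖n2 v‖ :=
    fun {A c} hc hA => by
      refine (pow_le_pow_iff_left₀ (norm_nonneg _) (by positivity) two_ne_zero).mp ?_
      rw [mul_pow, hn, hn]; exact hA v
  rw [← hn, ← hn, ← mul_pow]
  refine pow_le_pow_left₀ (norm_nonneg _) ?_ 2
  rw [Matrix.add_mulVec, Matrix.smul_mulVec]
  calc ‖n2 (B.mulVec v) + (s : ℂ) • n2 (G.mulVec v)‖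
      ≤ ‖n2 (B.mulVec v)‖ + s * ‖n2 (G.mulVec v)‖ := by
        refine (norm_add_le _ _).trans_eq ?_
        rw [norm_smul, Complex.norm_real, Real.norm_eq_abs, abs_of_nonneg hs]
    _ ≤ r * ‖n2 v‖ + s * (R * ‖n2 v‖) :=
        add_le_add (hb hr hB) (mul_le_mul_of_nonneg_left (hb hR hG) hs)
    _ = _ := by ring

/-- Eigenvalue pairs of a small perturbation of a diagonal matrix that are close, against
diagonal pairs that are close. -/
theorem pair_count {C G : Mat k} (hC : C.IsHermitian) (d : Fin k → ℝ) {s R z e : ℝ}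
    (hG : OpBound G R) (hCe : C = Matrix.diagonal (fun a => (d a : ℂ)) + (s : ℂ) • G)
    (he : 0 < e) (hsmall : 6 * (z ^ 2 + 2 * s ^ 2 * R ^ 2) ≤ e ^ 2) :
    (((Finset.univ : Finset (Fin k × Fin k)).filter
      fun q => |hC.eigenvalues q.1 - hC.eigenvalues q.2| ≤ z).card : ℝ) ≤
    2 * (((Finset.univ : Finset (Fin k × Fin k)).filter
      fun q => |d q.1 - d q.2| ≤ e).card : ℝ) := by
  set lam := hC.eigenvalues
  set U : Mat k := (hC.eigenvectorUnitary : Mat k)
  set P := (Finset.univ : Finset (Fin k × Fin k)).filter fun q => |lam q.1 - lam q.2| ≤ z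
  set Q := (Finset.univ : Finset (Fin k × Fin k)).filter fun q => |d q.1 - d q.2| ≤ e
  let W : Fin k × Fin k → Fin k × Fin k → ℝ := fun il ac => ‖U ac.1 il.1‖ ^ 2 * ‖U ac.2 il.2‖ ^ 2
  have hW1 : ∀ il, ∑ ac, W il ac = 1 := fun il => by
    simp only [W, Fintype.sum_prod_type, ← Finset.mul_sum]
    rw [show ∑ y, ‖U y il.2‖ ^ 2 = 1 from unit_col hC _]
    simp only [mul_one]
    exact unit_col hC _
  have hW2 : ∀ ac, ∑ il, W il ac = 1 := fun ac => by
    simp only [W, Fintype.sum_prod_type, ← Finset.mul_sum]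
    rw [show ∑ y, ‖U ac.2 y‖ ^ 2 = 1 from unit_row hC _]
    simp only [mul_one]
    exact unit_row hC _
  have hGU : ∀ i, ∑ a, ‖(G * U) a i‖ ^ 2 ≤ R ^ 2 := fun i => by
    have := hG fun a => U a i
    rw [unit_col hC i, mul_one] at this
    exact this
  have hcol : ∀ a i, (d a : ℂ) * U a i = U a i * (lam i : ℂ) - (s : ℂ) * (G * U) a i := by
    intro a i
    have := congrFun (congrFun (mul_unit hC) a) i
    rw [Matrix.mul_diagonal] at this
    have h2 := congrFun (congrFun (congrArg (fun M : Mat k => M * U) hCe) a) i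
    simp only [Matrix.add_mul, Matrix.smul_mul, Matrix.diagonal_mul, Matrix.add_apply,
      Matrix.smul_apply, smul_eq_mul] at h2
    linear_combination this - h2
  have key : ∀ il ∈ P, ∑ ac, (d ac.1 - d ac.2) ^ 2 * W il ac ≤
      3 * (z ^ 2 + 2 * s ^ 2 * R ^ 2) := by
    rintro ⟨i, l⟩ hil
    have hz : (lam i - lam l) ^ 2 ≤ z ^ 2 := by
      have := (Finset.mem_filter.mp hil).2
      exact sq_le_sq' (neg_le_of_abs_le this) (le_of_abs_le this)
    have pt : ∀ a c, (d a - d c) ^ 2 * W (i, l) (a, c) ≤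
        3 * (z ^ 2 * (‖U a i‖ ^ 2 * ‖U c l‖ ^ 2) + s ^ 2 * (‖(G * U) a i‖ ^ 2 * ‖U c l‖ ^ 2)
          + s ^ 2 * (‖U a i‖ ^ 2 * ‖(G * U) c l‖ ^ 2)) := by
      intro a c
      have e1 : ((d a - d c : ℝ) : ℂ) * (U a i * star (U c l)) =
          ((lam i - lam l : ℝ) : ℂ) * (U a i * star (U c l))
            - (s : ℂ) * ((G * U) a i * star (U c l))
            + (s : ℂ) * (U a i * star ((G * U) c l)) := by
        have h1 := hcol a i
        have h2 := congrArg star (hcol c l)
        simp only [star_sub, star_mul', Complex.star_def, Complex.conj_ofReal] at h2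
        simp only [Complex.star_def]
        push_cast
        linear_combination (starRingEnd ℂ (U c l)) * h1 - (U a i) * h2
      have h4 := congrArg (fun x : ℂ => ‖x‖) e1
      simp only [norm_mul, norm_star, Complex.norm_real, Real.norm_eq_abs] at h4
      have h5 : |d a - d c| * (‖U a i‖ * ‖U c l‖) ≤ |lam i - lam l| * (‖U a i‖ * ‖U c l‖)
          + |s| * (‖(G * U) a i‖ * ‖U c l‖) + |s| * (‖U a i‖ * ‖(G * U) c l‖) := by
        rw [h4]
        refine (norm_add_le _ _).trans (add_le_add ((norm_sub_le _ _).trans_eq ?_) ?_) <;>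
          simp [← Complex.ofReal_sub, Complex.norm_real, -Complex.ofReal_sub]
      have h6 := pow_le_pow_left₀ (by positivity) h5 2
      set A' := |lam i - lam l| * (‖U a i‖ * ‖U c l‖)
      set B' := |s| * (‖(G * U) a i‖ * ‖U c l‖)
      set C' := |s| * (‖U a i‖ * ‖(G * U) c l‖)
      have h7 : A' ^ 2 ≤ z ^ 2 * (‖U a i‖ ^ 2 * ‖U c l‖ ^ 2) := by
        simp only [A', mul_pow, sq_abs]
        exact mul_le_mul_of_nonneg_right hz (by positivity)
      have h8 : B' ^ 2 = s ^ 2 * (‖(G * U) a i‖ ^ 2 * ‖U c l‖ ^ 2) := by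
        simp only [B', mul_pow, sq_abs]
      have h9 : C' ^ 2 = s ^ 2 * (‖U a i‖ ^ 2 * ‖(G * U) c l‖ ^ 2) := by
        simp only [C', mul_pow, sq_abs]
      calc (d a - d c) ^ 2 * W (i, l) (a, c) = (|d a - d c| * (‖U a i‖ * ‖U c l‖)) ^ 2 := by
            simp only [W, mul_pow, sq_abs]
        _ ≤ _ := by nlinarith [sq_nonneg (A' - B'), sq_nonneg (A' - C'), sq_nonneg (B' - C')]
    rw [Fintype.sum_prod_type]
    refine (Finset.sum_le_sum fun a _ => Finset.sum_le_sum fun c _ => pt a c).trans ?_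
    simp only [← Finset.mul_sum, Finset.sum_add_distrib, ← Finset.sum_mul, unit_col hC, U] at hGU ⊢
    nlinarith [mul_le_mul_of_nonneg_left (hGU i) (sq_nonneg s),
      mul_le_mul_of_nonneg_left (hGU l) (sq_nonneg s)]
  have hone : ∀ il ∈ P, (1 : ℝ) ≤ (∑ ac ∈ Q, W il ac) + 1 / 2 := by
    intro il hil
    have h1 := hW1 il
    rw [← Finset.sum_add_sum_compl Q] at h1
    have h2 : e ^ 2 * ∑ ac ∈ Qᶜ, W il ac ≤ ∑ ac, (d ac.1 - d ac.2) ^ 2 * W il ac := by
      rw [Finset.mul_sum]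
      refine (Finset.sum_le_sum fun ac hac => ?_).trans
        (Finset.sum_le_sum_of_subset_of_nonneg (Finset.subset_univ _) fun ac _ _ => by
          simp only [W]; positivity)
      refine mul_le_mul_of_nonneg_right ?_ (by simp only [W]; positivity)
      have : e < |d ac.1 - d ac.2| := by
        have := Finset.mem_compl.mp hac
        simp only [Q, Finset.mem_filter, Finset.mem_univ, true_and, not_le] at this
        exact this
      nlinarith [sq_abs (d ac.1 - d ac.2)]
    have h3 := key il hil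
    have : ∑ ac ∈ Qᶜ, W il ac ≤ 1 / 2 := by nlinarith [pow_pos he 2]
    linarith
  have h1 : (P.card : ℝ) ≤ (∑ il ∈ P, ∑ ac ∈ Q, W il ac) + (P.card : ℝ) * (1 / 2) := by
    have := Finset.sum_le_sum hone
    simpa [Finset.sum_add_distrib] using this
  have h2 : ∑ il ∈ P, ∑ ac ∈ Q, W il ac ≤ (Q.card : ℝ) := by
    rw [Finset.sum_comm]
    refine (Finset.sum_le_sum fun ac _ => ?_).trans_eq (by simp : ∑ _ac ∈ Q, (1 : ℝ) = (Q.card : ℝ))
    exact (Finset.sum_le_sum_of_subset_of_nonneg (Finset.subset_univ _) fun il _ _ => by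
      simp only [W]; positivity).trans_eq (hW2 ac)
  linarith

end

end Vale.Agent.P087.Band
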