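import Mathlib
import Vale.Agent.P087.Basic
import Vale.Agent.P087.UpperBandTools

/-!
# P087: words and polynomial trace functionals for the band argument
-/

namespace Vale.Agent.P087.Band

open scoped Matrix

noncomputable section

/-- A word with exactly one occurrence of a semicircular letter has law zero. -/
theorem law_count_one {α σ : Type*} [DecidableEq α] [DecidableEq σ] (μ : List α → ℂ) (i : σ) :
    ∀ w : List (α ⊕ σ), w.countP (fun x => decide (x = Sum.inr i)) = 1 → law μ w = 0 := by
  intro w
  induction hlen : w.length using Nat.strong_induction_on generalizing w with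
  | _ N ih =>
    intro hc
    rcases h : splitFirst w with _ | ⟨u, j, b⟩
    · exfalso
      have : ∀ v : List (α ⊕ σ), splitFirst v = none →
          v.countP (fun x => decide (x = Sum.inr i)) = 0 := by
        intro v
        induction v with
        | nil => simp
        | cons a v ihv =>
          cases a with
          | inl a =>
            intro hv
            simp only [splitFirst, Option.map_eq_none_iff] at hv
            rw [List.countP_cons, ihv hv]
            simp
          | inr a => simp [splitFirst]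
      rw [this w h] at hc
      exact absurd hc zero_ne_one
    · have hw := splitFirst_some h
      simp only at hw
      rw [hw, law_sd]
      refine Finset.sum_eq_zero fun l hl => ?_
      split_ifs with hb
      · have hl' := Finset.mem_range.mp hl
        have hg : b[l] = Sum.inr j := by
          rw [List.getElem?_eq_getElem hl', Option.some_inj] at hb; exact hb
        have hb' : b = b.take l ++ Sum.inr j :: b.drop (l + 1) := by
          rw [← hg, ← List.drop_eq_getElem_cons hl', List.take_append_drop]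
        have hlenw : N = u.length + (b.length + 1) := by rw [← hlen, hw]; simp
        have e1 : (u.map (Sum.inl : α → α ⊕ σ)).countP (fun x => decide (x = Sum.inr i)) = 0 := by
          simp [List.countP_eq_zero]
        have hcb : (if j = i then 2 else 0) + ((b.take l).countP (fun x => decide (x = Sum.inr i))
            + (b.drop (l + 1)).countP (fun x => decide (x = Sum.inr i))) = 1 := by
          rw [hw, hb'] at hc
          simp only [List.countP_append, List.countP_cons, e1, decide_eq_true_eq,
            Sum.inr.injEq] at hc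
          split_ifs at hc ⊢ <;> omega
        have hd : (b.drop (l + 1)).length < b.length := by simp; omega
        rcases Nat.eq_zero_or_pos ((b.take l).countP (fun x => decide (x = Sum.inr i))) with h0 | h0
        · rw [ih (u.map Sum.inl ++ b.drop (l + 1)).length (by simp; omega) (u.map Sum.inl ++ b.drop (l + 1)) rfl
            (by rw [List.countP_append, e1]; split_ifs at hcb <;> omega), mul_zero]
        · rw [ih (b.take l).length (by simp; omega) (b.take l) rfl (by split_ifs at hcb <;> omega), zero_mul]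
      · rfl

theorem expand_eq_zero {ι L : Type*} [Fintype L] (e : ι → L → ℂ) :
    ∀ (w : List ι) (φ : List L → ℂ),
      (∀ u, List.Forall₂ (fun i l => e i l ≠ 0) w u → φ u = 0) → expand e φ w = 0
  | [], φ, h => by simpa [expand] using h [] List.Forall₂.nil
  | i :: w, φ, h => by
    refine Finset.sum_eq_zero fun l _ => ?_
    by_cases hl : e i l = 0
    · rw [hl, zero_mul]
    · rw [expand_eq_zero e w _ fun u hu => h _ (List.Forall₂.cons hl hu), mul_zero]

theorem forall₂_count {ι L : Type*} [DecidableEq ι] [DecidableEq L] {r : ι → L → Prop} {i₀ : ι}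
    {l₀ : L} (h : ∀ i l, r i l → (l = l₀ ↔ i = i₀)) : ∀ {w : List ι} {u : List L},
    List.Forall₂ r w u →
      u.countP (fun x => decide (x = l₀)) = w.countP (fun x => decide (x = i₀)) := by
  intro w u huw
  induction huw with
  | nil => rfl
  | @cons i l w u hil _ ih =>
    simp only [List.countP_cons, ih, decide_eq_true_eq]
    by_cases hi : i = i₀
    · simp [hi, (h i l hil).2 hi]
    · simp [hi, show ¬ l = l₀ from fun hl => hi ((h i l hil).1 hl)]

/-- The normalised trace as a linear map. -/
def ntrL (k : ℕ) : Mat k →ₗ[ℂ] ℂ where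
  toFun := ntr
  map_add' A B := by simp [ntr, Matrix.trace_add, add_div]
  map_smul' c A := by simp [ntr, Matrix.trace_smul, mul_div_assoc]

theorem ntr_expand_close {ι L : Type*} [Fintype L] {k : ℕ} (e : ι → L → ℂ) (C : ℝ) (hC0 : 0 ≤ C)
    (hC : ∀ i, ∑ l, ‖e i l‖ ≤ C) (Z : L → Mat k) (Y : ι → Mat k)
    (hY : ∀ i, Y i = ∑ l, e i l • Z l) (φ : List L → ℂ) (η : ℝ) (hη : 0 ≤ η) (w : List ι)
    (h : ∀ u : List L, u.length = w.length → ‖ntr (wordProd Z u) - φ u‖ ≤ η) :
    ‖ntr (wordProd Y w) - expand e φ w‖ ≤ C ^ w.length * η := by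
  have := map_wordProd_expand e Z Y hY w (ntrL k)
  rw [show ntr (wordProd Y w) = ntrL k (wordProd Y w) from rfl, this]
  exact expand_sub_le e C hC0 hC η hη w _ _ h

/-- All words of length at most `M`. -/
def wordsLE (L : Type) [Fintype L] [DecidableEq L] (M : ℕ) : Finset (List L) :=
  (Finset.range (M + 1)).biUnion fun r => (Finset.univ : Finset (Fin r → L)).image List.ofFn

theorem mem_wordsLE {L : Type} [Fintype L] [DecidableEq L] {M : ℕ} {u : List L}
    (h : u.length ≤ M) : u ∈ wordsLE L M := by
  simp only [wordsLE, Finset.mem_biUnion, Finset.mem_range, Finset.mem_image]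
  exact ⟨u.length, Nat.lt_succ_of_le h, fun i => u[i], Finset.mem_univ _, List.ofFn_getElem⟩

/-- The word `(z ^ a) x (z ^ b) y`. -/
def qword {ι : Type*} (z x y : ι) (a b : ℕ) : List ι :=
  List.replicate a z ++ x :: (List.replicate b z ++ [y])

theorem qword_length {ι : Type*} (z x y : ι) (a b : ℕ) :
    (qword z x y a b).length = a + b + 2 := by
  simp [qword]; omega

theorem wordProd_qword {ι M : Type*} [Monoid M] (Y : ι → M) (z x y : ι) (a b : ℕ) :
    wordProd Y (qword z x y a b) = Y z ^ a * Y x * Y z ^ b * Y y := by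
  simp [qword, wordProd, List.map_replicate, List.prod_replicate, mul_assoc]

theorem wordProd_replicate {ι M : Type*} [Monoid M] (Y : ι → M) (z : ι) (a : ℕ) :
    wordProd Y (List.replicate a z) = Y z ^ a := by
  simp [wordProd, List.map_replicate, List.prod_replicate]

/-- A polynomial in the difference of two variables as a combination of monomials. -/
theorem exists_diff_repr (q : Polynomial ℝ) :
    ∃ (s : Finset (ℕ × ℕ)) (c : ℕ × ℕ → ℝ),
      ∀ x y : ℝ, q.eval (x - y) = ∑ ab ∈ s, c ab * x ^ ab.1 * y ^ ab.2 := by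
  let P : MvPolynomial (Fin 2) ℝ := Polynomial.aeval (MvPolynomial.X 0 - MvPolynomial.X 1) q
  let f : (Fin 2 →₀ ℕ) → ℕ × ℕ := fun d => (d 0, d 1)
  have hf : Function.Injective f := fun d d' h => by
    simp only [f, Prod.mk.injEq] at h
    exact Finsupp.ext (Fin.forall_fin_two.2 h)
  refine ⟨P.support.image f,
    fun ab => P.coeff (Finsupp.single 0 ab.1 + Finsupp.single 1 ab.2), fun x y => ?_⟩
  rw [Finset.sum_image hf.injOn]
  have he : MvPolynomial.eval ![x, y] P = q.eval (x - y) := by
    show MvPolynomial.aeval ![x, y] (Polynomial.aeval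
      (MvPolynomial.X 0 - MvPolynomial.X 1 : MvPolynomial (Fin 2) ℝ) q) = _
    rw [← Polynomial.aeval_algHom_apply, Polynomial.aeval_def]
    simp
  rw [← he, MvPolynomial.eval_eq']
  refine Finset.sum_congr rfl fun d _ => ?_
  have hd : Finsupp.single 0 (d 0) + Finsupp.single 1 (d 1) = d :=
    Finsupp.ext (Fin.forall_fin_two.2 (by simp))
  simp [f, Fin.prod_univ_two, hd, mul_assoc]

/-- Reordering of a double sum against the monomial representation. -/
theorem sum_repr {k : ℕ} (q : Polynomial ℝ) (s : Finset (ℕ × ℕ)) (c : ℕ × ℕ → ℝ)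
    (hsc : ∀ x y : ℝ, q.eval (x - y) = ∑ ab ∈ s, c ab * x ^ ab.1 * y ^ ab.2)
    (lam : Fin k → ℝ) (f : Fin k → Fin k → ℝ) :
    ∑ ab ∈ s, c ab * ∑ i, ∑ l, lam i ^ ab.1 * lam l ^ ab.2 * f i l =
      ∑ i, ∑ l, q.eval (lam i - lam l) * f i l := by
  simp only [hsc, Finset.sum_mul, Finset.mul_sum]
  rw [Finset.sum_comm]
  refine Finset.sum_congr rfl fun i _ => ?_
  rw [Finset.sum_comm]
  exact Finset.sum_congr rfl fun l _ => Finset.sum_congr rfl fun ab _ => by ring

theorem ntr_qword_re {ι : Type*} {k : ℕ} (Y : ι → Mat k) (z x y : ι) (hz : (Y z).IsHermitian)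
    (hy : (Y y).IsHermitian) (a b : ℕ) :
    (ntr (wordProd Y (qword z x y a b))).re = (∑ i, ∑ l, hz.eigenvalues i ^ a *
      hz.eigenvalues l ^ b * (rot hz (Y x) i l * star (rot hz (Y y) i l)).re) / k := by
  rw [ntr, wordProd_qword, trace_pow_mul hz, Complex.div_natCast_re, Complex.re_sum]
  congr 1
  refine Finset.sum_congr rfl fun i _ => ?_
  rw [Complex.re_sum]
  refine Finset.sum_congr rfl fun l _ => ?_
  rw [← (rot_hermitian hz hy).apply l i, ← Complex.ofReal_pow, ← Complex.ofReal_pow,
    ← Complex.ofReal_mul, Complex.re_ofReal_mul]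

/-- The quadratic trace functional of a polynomial, in the eigenbasis. -/
theorem sum_ntr_qword {ι : Type*} {k : ℕ} (Y : ι → Mat k) (z x : ι) (hz : (Y z).IsHermitian)
    (hx : (Y x).IsHermitian) (q : Polynomial ℝ) (s : Finset (ℕ × ℕ)) (c : ℕ × ℕ → ℝ)
    (hsc : ∀ x y : ℝ, q.eval (x - y) = ∑ ab ∈ s, c ab * x ^ ab.1 * y ^ ab.2) :
    ∑ ab ∈ s, c ab * (ntr (wordProd Y (qword z x x ab.1 ab.2))).re =
      (∑ i, ∑ l, q.eval (hz.eigenvalues i - hz.eigenvalues l) * ‖rot hz (Y x) i l‖ ^ 2) / k := by
  simp only [ntr_qword_re Y z x x hz hx, mul_div_assoc', ← Finset.sum_div]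
  rw [sum_repr q s c hsc]
  congr 1
  refine Finset.sum_congr rfl fun i _ => Finset.sum_congr rfl fun l _ => ?_
  rw [Complex.star_def, Complex.mul_conj', ← Complex.ofReal_pow, Complex.ofReal_re]

/-- The cross trace functional of a polynomial, in the eigenbasis. -/
theorem sum_ntr_qword_add {ι : Type*} {k : ℕ} (Y : ι → Mat k) (z x y : ι) (hz : (Y z).IsHermitian)
    (hy : (Y y).IsHermitian) (q : Polynomial ℝ) (s : Finset (ℕ × ℕ))
    (c : ℕ × ℕ → ℝ)
    (hsc : ∀ x y : ℝ, q.eval (x - y) = ∑ ab ∈ s, c ab * x ^ ab.1 * y ^ ab.2) :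
    ∑ ab ∈ s, c ab * (ntr (wordProd Y (qword z x y ab.1 ab.2))).re =
      (∑ i, ∑ l, q.eval (hz.eigenvalues i - hz.eigenvalues l) *
        (rot hz (Y x) i l * star (rot hz (Y y) i l)).re) / k := by
  simp only [ntr_qword_re Y z x y hz hy, mul_div_assoc', ← Finset.sum_div]
  rw [sum_repr q s c hsc]

/-- The product trace functional of a polynomial. -/
theorem sum_ntr_pow {ι : Type*} {k : ℕ} (Y : ι → Mat k) (z : ι) (hz : (Y z).IsHermitian)
    (q : Polynomial ℝ) (s : Finset (ℕ × ℕ)) (c : ℕ × ℕ → ℝ)
    (hsc : ∀ x y : ℝ, q.eval (x - y) = ∑ ab ∈ s, c ab * x ^ ab.1 * y ^ ab.2) :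
    ∑ ab ∈ s, c ab * ((ntr (wordProd Y (List.replicate ab.1 z))).re
        * (ntr (wordProd Y (List.replicate ab.2 z))).re) =
      (∑ i, ∑ l, q.eval (hz.eigenvalues i - hz.eigenvalues l)) / (k : ℝ) ^ 2 := by
  have h : ∀ a : ℕ, (ntr (wordProd Y (List.replicate a z))).re =
      (∑ i, hz.eigenvalues i ^ a) / k := fun a => by
    rw [ntr, wordProd_replicate, trace_pow hz, Complex.div_natCast_re, Complex.re_sum]
    simp only [← Complex.ofReal_pow, Complex.ofReal_re]
  have h2 : ∀ a b : ℕ, (∑ i, hz.eigenvalues i ^ a) / (k : ℝ) * ((∑ i, hz.eigenvalues i ^ b) / k) =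
      (∑ i, ∑ l, hz.eigenvalues i ^ a * hz.eigenvalues l ^ b * 1) / (k : ℝ) ^ 2 := fun a b => by
    rw [div_mul_div_comm, ← pow_two, Finset.sum_mul_sum]
    simp
  simp only [h, h2, mul_div_assoc', ← Finset.sum_div]
  rw [sum_repr q s c hsc]
  simp

end

end Vale.Agent.P087.Band
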