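import Mathlib

/-!
# P087: a Gaussian majorant for the volume of a set with bounded weighted square norm
-/

open MeasureTheory

namespace Vale.Agent.P087

variable {ι : Type*} [Fintype ι]

lemma integrable_gauss_prod (w : ι → ℝ) (hw : ∀ i, 0 < w i) :
    Integrable (fun x : ι → ℝ => ∏ i, Real.exp (-(w i) * x i ^ 2)) :=
  Integrable.fintype_prod (f := fun i (t : ℝ) => Real.exp (-(w i) * t ^ 2)) (μ := fun _ => volume)
    fun i => integrable_exp_neg_mul_sq (hw i)

lemma lintegral_gauss_prod (w : ι → ℝ) (hw : ∀ i, 0 < w i) (B : ℝ) :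
    ∫⁻ x : ι → ℝ, ENNReal.ofReal (Real.exp B * ∏ i, Real.exp (-(w i) * x i ^ 2)) =
      ENNReal.ofReal (Real.exp B * ∏ i, Real.sqrt (Real.pi / w i)) := by
  have hi := (integrable_gauss_prod w hw).const_mul (Real.exp B)
  rw [← ofReal_integral_eq_lintegral_ofReal hi (Filter.Eventually.of_forall fun x =>
    mul_nonneg (Real.exp_nonneg _) (Finset.prod_nonneg fun i _ => Real.exp_nonneg _))]
  rw [integral_const_mul,
    integral_fintype_prod_volume_eq_prod (fun i (t : ℝ) => Real.exp (-(w i) * t ^ 2))]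
  simp only [integral_gaussian]

/-- A set on which a positive diagonal quadratic form is at most `B` has volume at most
`exp B * ∏ sqrt (π / w i)`. -/
theorem volume_le_gauss (S : Set (ι → ℝ)) (w : ι → ℝ) (hw : ∀ i, 0 < w i)
    (B : ℝ) (hS : ∀ x ∈ S, ∑ i, w i * x i ^ 2 ≤ B) :
    volume S ≤ ENNReal.ofReal (Real.exp B * ∏ i, Real.sqrt (Real.pi / w i)) := by
  rw [← lintegral_gauss_prod w hw B, ← setLIntegral_one]
  refine le_trans (setLIntegral_mono (by fun_prop) fun x hx => ?_) (setLIntegral_le_lintegral S _)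
  rw [← Real.exp_sum, ← Real.exp_add, ← ENNReal.ofReal_one]
  refine ENNReal.ofReal_le_ofReal ?_
  rw [Real.one_le_exp_iff]
  simp only [neg_mul, Finset.sum_neg_distrib]
  linarith [hS x hx]

end Vale.Agent.P087
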