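import Mathlib
import Vale.Agent.P087.Basic
import Vale.Agent.P087.UpperVolGauss

/-!
# P087: the volume of band concentrated microstates
-/

namespace Vale.Agent.P087

open MeasureTheory Filter Matrix
open scoped Topology ENNReal

noncomputable section

/-- For every matrix `a` of the letter `0` there are an orthonormal basis and a band of at most
`δ * k²` entries such that, in every tuple of `S` with that first matrix, `a` has mass at most
`cb * k` and every other matrix has at most `(1 + η) * k` of its mass outside the band, and at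
most `3 * k` in all. -/
def BandGood {p k : ℕ} (S : Set (Fin (p + 1) → Coord k)) (δ η cb : ℝ) : Prop :=
  ∀ a : Coord k, ∃ U : Matrix.unitaryGroup (Fin k) ℂ, ∃ D : Finset (Fin k × Fin k),
    (∀ q : Fin k × Fin k, q ∈ D ↔ (q.2, q.1) ∈ D) ∧ ((D.card : ℝ) ≤ δ * (k : ℝ) ^ 2) ∧
    ∀ x ∈ S, x 0 = a →
      (∑ i, ∑ l, ‖herm (x 0) i l‖ ^ 2 ≤ cb * k) ∧
      ∀ j : Fin p,
        let A' := (U : Matrix (Fin k) (Fin k) ℂ).conjTranspose * herm (x j.succ) *
          (U : Matrix (Fin k) (Fin k) ℂ)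
        (∑ q ∈ Dᶜ, ‖A' q.1 q.2‖ ^ 2 ≤ (1 + η) * k) ∧ ∑ q : Fin k × Fin k, ‖A' q.1 q.2‖ ^ 2 ≤ 3 * k

variable {k : ℕ}

lemma herm_diag (x : Coord k) (i : Fin k) : herm x i i = (x (i, i) : ℂ) := by simp [herm]

lemma herm_lt (x : Coord k) {i l : Fin k} (h : i < l) :
    herm x i l = ((x (i, l) : ℂ) + (x (l, i) : ℂ) * Complex.I) / (Real.sqrt 2 : ℂ) := by
  simp [herm, h.ne, h]

lemma herm_gt (x : Coord k) {i l : Fin k} (h : l < i) :
    herm x i l = ((x (l, i) : ℂ) - (x (i, l) : ℂ) * Complex.I) / (Real.sqrt 2 : ℂ) := by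
  simp [herm, h.ne', h.le.not_gt]

lemma herm_isHermitian (x : Coord k) : (herm x).IsHermitian := by
  ext i l
  rw [Matrix.conjTranspose_apply]
  rcases lt_trichotomy i l with h | h | h
  · rw [herm_lt x h, herm_gt x h]; simp
  · subst h; simp [herm_diag]
  · rw [herm_gt x h, herm_lt x h]; simp [sub_eq_add_neg]

lemma herm_add (x y : Coord k) : herm (x + y) = herm x + herm y := by
  ext i l
  simp only [herm, Matrix.add_apply, PiLp.add_apply, Complex.ofReal_add]
  split_ifs <;> ring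

lemma herm_smul (c : ℝ) (x : Coord k) : herm (c • x) = (c : ℂ) • herm x := by
  ext i l
  simp only [herm, Matrix.smul_apply, PiLp.smul_apply, smul_eq_mul, Complex.ofReal_mul]
  split_ifs <;> ring

lemma normSq_herm (x : Coord k) (q : Fin k × Fin k) :
    ‖herm x q.1 q.2‖ ^ 2 = (x q ^ 2 + x (q.2, q.1) ^ 2) / 2 := by
  obtain ⟨i, l⟩ := q
  rw [Complex.sq_norm]
  rcases lt_trichotomy i l with h | h | h
  · rw [herm_lt x h, map_div₀, Complex.normSq_ofReal]
    simp [Complex.normSq_apply]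
    ring
  · subst h; simp [herm_diag, Complex.normSq_ofReal]; ring
  · rw [herm_gt x h, map_div₀, Complex.normSq_ofReal]
    simp [Complex.normSq_apply]
    ring

lemma sum_normSq_herm (x : Coord k) (S : Finset (Fin k × Fin k))
    (hS : ∀ q : Fin k × Fin k, q ∈ S ↔ (q.2, q.1) ∈ S) :
    ∑ q ∈ S, ‖herm x q.1 q.2‖ ^ 2 = ∑ q ∈ S, x q ^ 2 := by
  simp only [normSq_herm]
  rw [← Finset.sum_div, Finset.sum_add_distrib]
  have : ∑ q ∈ S, x (q.2, q.1) ^ 2 = ∑ q ∈ S, x q ^ 2 :=
    Finset.sum_nbij' (fun q => (q.2, q.1)) (fun q => (q.2, q.1)) (fun q hq => (hS q).1 hq)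
      (fun q hq => (hS q).1 hq) (fun q _ => rfl) (fun q _ => rfl) (fun q _ => rfl)
  rw [this]
  ring

lemma sum_all_herm (x : Coord k) : ∑ q : Fin k × Fin k, ‖herm x q.1 q.2‖ ^ 2 = ‖x‖ ^ 2 := by
  rw [sum_normSq_herm x Finset.univ (by simp), EuclideanSpace.norm_sq_eq]
  simp

/-- The coordinates of a matrix. -/
def coordOf (M : Matrix (Fin k) (Fin k) ℂ) : Coord k :=
  WithLp.toLp 2 fun q => if q.1 = q.2 then (M q.1 q.2).re
    else if q.1 < q.2 then Real.sqrt 2 * (M q.1 q.2).re else Real.sqrt 2 * (M q.2 q.1).im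

lemma herm_coordOf {M : Matrix (Fin k) (Fin k) ℂ} (hM : M.IsHermitian) : herm (coordOf M) = M := by
  have h2 : (Real.sqrt 2 : ℂ) ≠ 0 := by simp
  ext i l
  have hc : (starRingEnd ℂ) (M l i) = M i l := hM.apply i l
  rcases lt_trichotomy i l with h | h | h
  · rw [herm_lt _ h]
    simp [coordOf, h.ne, h.ne', h, h.le.not_gt]
    apply Complex.ext <;> simp [Complex.div_re, Complex.div_im, Complex.normSq_ofReal] <;>
      field_simp <;> rw [Real.sq_sqrt (by norm_num)] <;> ring
  · subst h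
    simp only [herm_diag, coordOf, if_true]
    exact hM.coe_re_apply_self i
  · rw [herm_gt _ h, ← hc]
    simp [coordOf, h.ne, h.ne', h, h.le.not_gt]
    apply Complex.ext <;> simp [Complex.div_re, Complex.div_im, Complex.normSq_ofReal] <;>
      field_simp <;> rw [Real.sq_sqrt (by norm_num)] <;> ring

lemma sum_normSq_eq_trace (M : Matrix (Fin k) (Fin k) ℂ) :
    ((∑ q : Fin k × Fin k, ‖M q.1 q.2‖ ^ 2 : ℝ) : ℂ) = (Mᴴ * M).trace := by
  rw [Fintype.sum_prod_type, Finset.sum_comm]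
  simp only [Matrix.trace, Matrix.diag, Matrix.mul_apply, Matrix.conjTranspose_apply,
    Complex.ofReal_sum]
  refine Finset.sum_congr rfl fun i _ => Finset.sum_congr rfl fun l _ => ?_
  rw [Complex.sq_norm]
  exact Complex.normSq_eq_conj_mul_self

lemma sum_normSq_unitary (U : Matrix.unitaryGroup (Fin k) ℂ) (M : Matrix (Fin k) (Fin k) ℂ) :
    ∑ q : Fin k × Fin k, ‖((U : Matrix (Fin k) (Fin k) ℂ)ᴴ * M * (U : Matrix (Fin k) (Fin k) ℂ)) q.1 q.2‖ ^ 2 =
      ∑ q : Fin k × Fin k, ‖M q.1 q.2‖ ^ 2 := by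
  apply Complex.ofReal_injective
  rw [sum_normSq_eq_trace, sum_normSq_eq_trace]
  have hU : (U : Matrix (Fin k) (Fin k) ℂ) * (U : Matrix (Fin k) (Fin k) ℂ)ᴴ = 1 :=
    Matrix.mem_unitaryGroup_iff.1 U.2
  set V := (U : Matrix (Fin k) (Fin k) ℂ)
  calc ((Vᴴ * M * V)ᴴ * (Vᴴ * M * V)).trace = (Vᴴ * (Mᴴ * (V * Vᴴ) * M * V)).trace := by
        simp only [Matrix.conjTranspose_mul, Matrix.conjTranspose_conjTranspose, Matrix.mul_assoc]
    _ = (Mᴴ * M).trace := by
        rw [hU, Matrix.mul_one, Matrix.trace_mul_comm, Matrix.mul_assoc, hU, Matrix.mul_one]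

/-- Conjugation by a unitary as an isometry of the coordinates. -/
def conjIso (U : Matrix.unitaryGroup (Fin k) ℂ) : Coord k ≃ₗᵢ[ℝ] Coord k :=
  LinearIsometry.toLinearIsometryEquiv
    { toFun := fun x => coordOf ((U : Matrix (Fin k) (Fin k) ℂ)ᴴ * herm x * (U : Matrix (Fin k) (Fin k) ℂ))
      map_add' := fun x y => by
        ext q
        simp only [coordOf, herm_add, mul_add, add_mul, Matrix.add_apply, Complex.add_re,
          Complex.add_im, PiLp.add_apply]
        split_ifs <;> ring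
      map_smul' := fun c x => by
        ext q
        simp only [coordOf, herm_smul, Matrix.mul_smul, Matrix.smul_mul, Matrix.smul_apply,
          smul_eq_mul, Complex.re_ofReal_mul, Complex.im_ofReal_mul, PiLp.smul_apply,
          RingHom.id_apply]
        split_ifs <;> ring
      norm_map' := fun x => by
        refine (pow_left_inj₀ (norm_nonneg _) (norm_nonneg _) two_ne_zero).1 ?_
        simp only [LinearMap.coe_mk, AddHom.coe_mk]
        rw [← sum_all_herm, herm_coordOf (isHermitian_conjTranspose_mul_mul _ (herm_isHermitian x)),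
          sum_normSq_unitary, sum_all_herm] }
    rfl

lemma herm_conjIso (U : Matrix.unitaryGroup (Fin k) ℂ) (x : Coord k) :
    herm (conjIso U x) = (U : Matrix (Fin k) (Fin k) ℂ)ᴴ * herm x * (U : Matrix (Fin k) (Fin k) ℂ) :=
  herm_coordOf (isHermitian_conjTranspose_mul_mul _ (herm_isHermitian x))

lemma volume_coord_le (S : Set (Coord k)) (w : Fin k × Fin k → ℝ) (hw : ∀ q, 0 < w q) (B : ℝ)
    (hS : ∀ x ∈ S, ∑ q, w q * x q ^ 2 ≤ B) :
    volume S ≤ ENNReal.ofReal (Real.exp B * ∏ q, Real.sqrt (Real.pi / w q)) := by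
  have h : S ⊆ WithLp.ofLp ⁻¹' {y : Fin k × Fin k → ℝ | ∑ q, w q * y q ^ 2 ≤ B} := hS
  refine (measure_mono h).trans ?_
  rw [(PiLp.volume_preserving_ofLp (Fin k × Fin k)).measure_preimage
    (measurableSet_le (by fun_prop) (by fun_prop)).nullMeasurableSet]
  exact volume_le_gauss _ w hw B fun y hy => hy

lemma volume_first_le (hk : 0 < k) (cb : ℝ) (hcb : 0 < cb) :
    volume {a : Coord k | ‖a‖ ^ 2 ≤ cb * k} ≤ ENNReal.ofReal
      (Real.exp ((k : ℝ) ^ 2 * (1 / 2 * Real.log (2 * Real.pi * Real.exp 1 * cb / k)))) := by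
  have hk' : (0 : ℝ) < k := Nat.cast_pos.2 hk
  refine (volume_coord_le _ (fun _ => k / (2 * cb)) (fun _ => by positivity) ((k : ℝ) ^ 2 / 2)
    fun x hx => ?_).trans_eq ?_
  · rw [← Finset.mul_sum]
    have e : ∑ q, x q ^ 2 = ‖x‖ ^ 2 := by rw [EuclideanSpace.norm_sq_eq]; simp
    rw [e]
    calc (k : ℝ) / (2 * cb) * ‖x‖ ^ 2 ≤ k / (2 * cb) * (cb * k) :=
          mul_le_mul_of_nonneg_left hx (by positivity)
      _ = (k : ℝ) ^ 2 / 2 := by field_simp
  · congr 1
    rw [Finset.prod_const, Finset.card_univ, Fintype.card_prod, Fintype.card_fin]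
    rw [← Real.exp_log (show 0 < Real.sqrt (Real.pi / ((k : ℝ) / (2 * cb))) by positivity),
      ← Real.exp_nat_mul, ← Real.exp_add]
    congr 1
    rw [Real.log_sqrt (by positivity),
      show 2 * Real.pi * Real.exp 1 * cb / k = Real.pi / (k / (2 * cb)) * Real.exp 1 by field_simp,
      Real.log_mul (x := Real.pi / (k / (2 * cb))) (by positivity) (by positivity), Real.log_exp]
    push_cast
    ring

lemma volume_section_le (hk : 0 < k) (δ η : ℝ) (hδ : 0 < δ) (hδ1 : δ ≤ 1)
    (U : Matrix.unitaryGroup (Fin k) ℂ) (D : Finset (Fin k × Fin k))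
    (hD : ∀ q : Fin k × Fin k, q ∈ D ↔ (q.2, q.1) ∈ D) (hcard : (D.card : ℝ) ≤ δ * (k : ℝ) ^ 2) :
    volume {y : Coord k |
      (∑ q ∈ Dᶜ, ‖((U : Matrix (Fin k) (Fin k) ℂ)ᴴ * herm y * (U : Matrix (Fin k) (Fin k) ℂ)) q.1 q.2‖ ^ 2
        ≤ (1 + η) * k) ∧
      ∑ q : Fin k × Fin k,
        ‖((U : Matrix (Fin k) (Fin k) ℂ)ᴴ * herm y * (U : Matrix (Fin k) (Fin k) ℂ)) q.1 q.2‖ ^ 2 ≤ 3 * k} ≤
    ENNReal.ofReal (Real.exp ((k : ℝ) ^ 2 * (1 / 2 * Real.log (2 * Real.pi * Real.exp 1 / k) +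
      η / 2 + 3 * δ / 2 + δ / 2 * Real.log (1 / δ)))) := by
  classical
  have hk' : (0 : ℝ) < k := Nat.cast_pos.2 hk
  set T : Set (Coord k) := {z | ∑ q ∈ Dᶜ, z q ^ 2 ≤ (1 + η) * k ∧ ∑ q, z q ^ 2 ≤ 3 * k}
  have hT : MeasurableSet T :=
    (measurableSet_le (show Measurable fun z : Coord k => ∑ q ∈ Dᶜ, z q ^ 2 by fun_prop)
      measurable_const).inter
    (measurableSet_le (show Measurable fun z : Coord k => ∑ q, z q ^ 2 by fun_prop) measurable_const)
  have hDc : ∀ q : Fin k × Fin k, q ∈ Dᶜ ↔ (q.2, q.1) ∈ Dᶜ := fun q => by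
    simp only [Finset.mem_compl]; exact not_congr (hD q)
  refine (measure_mono (t := conjIso U ⁻¹' T) fun y hy => ?_).trans ?_
  · show conjIso U y ∈ T
    refine ⟨?_, ?_⟩
    · rw [← sum_normSq_herm _ _ hDc, herm_conjIso]; exact hy.1
    · rw [← sum_normSq_herm _ _ (by simp), herm_conjIso]; exact hy.2
  rw [(conjIso U).measurePreserving.measure_preimage hT.nullMeasurableSet]
  let w : Fin k × Fin k → ℝ := fun q => if q ∈ D then δ * k / 2 else k / 2
  have hw : ∀ q, 0 < w q := fun q => by simp only [w]; split_ifs <;> positivity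
  refine (volume_coord_le T w hw ((k : ℝ) ^ 2 * ((1 + η) / 2 + 3 * δ / 2)) fun z hz => ?_).trans ?_
  · rw [← Finset.sum_add_sum_compl D]
    have h1 : ∑ q ∈ D, w q * z q ^ 2 ≤ δ * k / 2 * (3 * k) := by
      rw [Finset.sum_congr rfl fun q hq => show w q * z q ^ 2 = δ * k / 2 * z q ^ 2 by simp [w, hq],
        ← Finset.mul_sum]
      refine mul_le_mul_of_nonneg_left (le_trans ?_ hz.2) (by positivity)
      exact Finset.sum_le_sum_of_subset_of_nonneg (Finset.subset_univ D) fun q _ _ => sq_nonneg _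
    have h2 : ∑ q ∈ Dᶜ, w q * z q ^ 2 ≤ k / 2 * ((1 + η) * k) := by
      rw [Finset.sum_congr rfl fun q hq => show w q * z q ^ 2 = k / 2 * z q ^ 2 by
        simp [w, Finset.mem_compl.1 hq], ← Finset.mul_sum]
      exact mul_le_mul_of_nonneg_left hz.1 (by positivity)
    calc _ ≤ δ * k / 2 * (3 * k) + k / 2 * ((1 + η) * k) := add_le_add h1 h2
      _ = _ := by ring
  · refine ENNReal.ofReal_le_ofReal ?_
    rw [← Finset.prod_mul_prod_compl D,
      Finset.prod_congr rfl fun q hq => show Real.sqrt (Real.pi / w q) =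
        Real.sqrt (Real.pi / (δ * k / 2)) by simp [w, hq],
      Finset.prod_congr rfl fun q (hq : q ∈ Dᶜ) => show Real.sqrt (Real.pi / w q) =
        Real.sqrt (Real.pi / (k / 2)) by simp [w, Finset.mem_compl.1 hq],
      Finset.prod_const, Finset.prod_const, Finset.card_compl]
    rw [← Real.exp_log (show 0 < Real.sqrt (Real.pi / (δ * k / 2)) by positivity),
      ← Real.exp_log (show 0 < Real.sqrt (Real.pi / ((k : ℝ) / 2)) by positivity),
      ← Real.exp_nat_mul, ← Real.exp_nat_mul, ← Real.exp_add, ← Real.exp_add, Real.exp_le_exp]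
    rw [Real.log_sqrt (by positivity), Real.log_sqrt (by positivity), Fintype.card_prod,
      Fintype.card_fin, Nat.cast_sub (by simpa using D.card_le_univ)]
    push_cast
    rw [show 2 * Real.pi * Real.exp 1 / k = Real.pi / (k / 2) * Real.exp 1 by field_simp,
      Real.log_mul (x := Real.pi / ((k : ℝ) / 2)) (by positivity) (by positivity), Real.log_exp,
      show Real.pi / (δ * k / 2) = Real.pi / (k / 2) * (1 / δ) by field_simp,
      Real.log_mul (by positivity) (by positivity)]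
    have hl : 0 ≤ Real.log (1 / δ) := Real.log_nonneg (by rw [le_div_iff₀ hδ]; linarith)
    nlinarith [mul_le_mul_of_nonneg_right hcard hl]

lemma continuous_herm : Continuous (herm (k := k)) := by
  refine continuous_matrix fun i l => ?_
  simp only [herm]
  split_ifs <;> fun_prop

lemma measurableSet_Gamma {n : ℕ} (μ : List (Fin n) → ℂ) (R : ℝ) (m : ℕ) (ε : ℝ) :
    MeasurableSet (Gamma μ R m k ε) := by
  have hj : ∀ j : Fin n, Continuous fun x : Fin n → Coord k => herm (x j) := fun j =>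
    continuous_herm.comp (continuous_apply j)
  have hop : IsClosed {x : Fin n → Coord k | ∀ j, OpBound (herm (x j)) R} := by
    simp only [OpBound, Set.ofPred_forall]
    refine isClosed_iInter fun j => isClosed_iInter fun v => isClosed_le ?_ continuous_const
    exact continuous_finsetSum _ fun i _ =>
      ((continuous_apply i).comp ((hj j).matrix_mulVec continuous_const)).norm.pow 2
  have hw : ∀ w : List (Fin n), IsOpen {x : Fin n → Coord k |
      ‖ntr (wordProd (fun j => herm (x j)) w) - μ w‖ < ε} := by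
    intro w
    refine isOpen_lt (Continuous.norm ((Continuous.div_const ?_ _).sub continuous_const))
      continuous_const
    exact (continuous_list_prod w fun j _ => hj j).matrix_trace
  have hwords : MeasurableSet {x : Fin n → Coord k | ∀ w : List (Fin n), 1 ≤ w.length →
      w.length ≤ m → ‖ntr (wordProd (fun j => herm (x j)) w) - μ w‖ < ε} := by
    simp only [Set.ofPred_forall]
    exact MeasurableSet.iInter fun w => MeasurableSet.iInter fun _ => MeasurableSet.iInter fun _ =>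
      (hw w).measurableSet
  exact hop.measurableSet.inter hwords

lemma volume_le_of_bandGood {p : ℕ} (hk : 0 < k) (S : Set (Fin (p + 1) → Coord k))
    (hS : MeasurableSet S) (δ η cb : ℝ) (hδ : 0 < δ) (hδ1 : δ ≤ 1) (hcb : 0 < cb)
    (h : BandGood S δ η cb) :
    volume S ≤ ENNReal.ofReal (Real.exp ((k : ℝ) ^ 2 *
      (1 / 2 * Real.log (2 * Real.pi * Real.exp 1 * cb / k)
        + p * (1 / 2 * Real.log (2 * Real.pi * Real.exp 1 / k) +
          η / 2 + 3 * δ / 2 + δ / 2 * Real.log (1 / δ))))) := by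
  set T := η / 2 + 3 * δ / 2 + δ / 2 * Real.log (1 / δ)
  let e := MeasurableEquiv.piFinSuccAbove (fun _ : Fin (p + 1) => Coord k) 0
  have he : MeasurePreserving e := volume_preserving_piFinSuccAbove _ 0
  rw [← he.symm.measure_preimage hS.nullMeasurableSet, Measure.volume_eq_prod,
    Measure.prod_apply (e.symm.measurable hS)]
  set c : ℝ≥0∞ := ENNReal.ofReal (Real.exp ((k : ℝ) ^ 2 *
    (1 / 2 * Real.log (2 * Real.pi * Real.exp 1 / k) + η / 2 + 3 * δ / 2 +
      δ / 2 * Real.log (1 / δ))))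
  have hsec : ∀ a : Coord k, volume (Prod.mk a ⁻¹' (e.symm ⁻¹' S)) ≤
      Set.indicator {a : Coord k | ‖a‖ ^ 2 ≤ cb * k} (fun _ => c ^ p) a := by
    intro a
    obtain ⟨U, D, hD, hcard, hU⟩ := h a
    have hval : ∀ z, (e.symm (a, z)) 0 = a ∧ ∀ j : Fin p, (e.symm (a, z)) j.succ = z j := fun z => by
      simp [e, MeasurableEquiv.piFinSuccAbove_symm_apply]
    by_cases ha : a ∈ {a : Coord k | ‖a‖ ^ 2 ≤ cb * k}
    · rw [Set.indicator_of_mem ha]
      refine (measure_mono (t := Set.univ.pi fun _ : Fin p => {y : Coord k |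
        (∑ q ∈ Dᶜ, ‖((U : Matrix (Fin k) (Fin k) ℂ)ᴴ * herm y * (U : Matrix (Fin k) (Fin k) ℂ)) q.1 q.2‖ ^ 2
          ≤ (1 + η) * k) ∧
        ∑ q : Fin k × Fin k,
          ‖((U : Matrix (Fin k) (Fin k) ℂ)ᴴ * herm y * (U : Matrix (Fin k) (Fin k) ℂ)) q.1 q.2‖ ^ 2 ≤ 3 * k})
        fun z hz j _ => ?_).trans ?_
      · have := (hU _ hz (hval z).1).2 j
        rw [(hval z).2 j] at this
        exact this
      · rw [volume_pi_pi, Finset.prod_const, Finset.card_univ, Fintype.card_fin]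
        exact pow_le_pow_left' (volume_section_le hk δ η hδ hδ1 U D hD hcard) p
    · rw [Set.indicator_of_notMem ha]
      refine le_of_eq (measure_mono_null (fun z hz => ha ?_) measure_empty)
      have := (hU _ hz (hval z).1).1
      rw [(hval z).1] at this
      show ‖a‖ ^ 2 ≤ cb * k
      rw [← sum_all_herm, Fintype.sum_prod_type]
      exact this
  refine (lintegral_mono hsec).trans ?_
  rw [lintegral_indicator (measurableSet_le (by fun_prop) (by fun_prop)), setLIntegral_const]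
  refine (mul_le_mul' le_rfl (volume_first_le hk cb hcb)).trans_eq ?_
  rw [← ENNReal.ofReal_pow (Real.exp_nonneg _), ← ENNReal.ofReal_mul (by positivity),
    ← Real.exp_nat_mul, ← Real.exp_add]
  congr 2
  ring

theorem chi_le_of_band (p : ℕ) (μ : List (Fin (p + 1)) → ℂ) (δ η cb : ℝ) (hδ : 0 < δ)
    (hδ1 : δ ≤ 1) (_hη : 0 ≤ η) (hcb : 0 < cb)
    (h : ∀ R : ℝ, 0 < R → ∃ (m : ℕ) (ε : ℝ), 0 < ε ∧ ∀ᶠ k in atTop,
      BandGood (Gamma μ R m k ε) δ η cb) :
    chi μ ≤ (((p : ℝ) * (1 / 2 * Real.log (2 * Real.pi * Real.exp 1) + η / 2 + 3 * δ / 2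
      + δ / 2 * Real.log (1 / δ))
      + 1 / 2 * Real.log (2 * Real.pi * Real.exp 1 * cb) : ℝ) : EReal) := by
  refine iSup₂_le fun R hR => ?_
  obtain ⟨m, ε, hε, hev⟩ := h R hR
  refine iInf_le_of_le m (iInf_le_of_le ε (iInf_le_of_le hε ?_))
  refine limsup_le_of_le (by isBoundedDefault) ?_
  filter_upwards [hev, eventually_gt_atTop 0] with k hk hk0
  have hk' : (0 : ℝ) < k := Nat.cast_pos.2 hk0
  have hv := volume_le_of_bandGood hk0 _ (measurableSet_Gamma μ R m ε) δ η cb hδ hδ1 hcb hk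
  have hlog := ENNReal.log_monotone hv
  rw [ENNReal.log_ofReal_of_pos (Real.exp_pos _), Real.log_exp] at hlog
  refine le_trans (add_le_add_left (mul_le_mul_of_nonneg_left hlog (by
    exact_mod_cast inv_nonneg.2 (sq_nonneg (k : ℝ)))) _) (le_of_eq ?_)
  rw [← EReal.coe_mul, ← EReal.coe_add, EReal.coe_eq_coe_iff, ← mul_assoc,
    inv_mul_cancel₀ (by positivity), one_mul, Real.log_div (by positivity) hk'.ne',
    Real.log_div (by positivity) hk'.ne']
  push_cast
  ring

end

end Vale.Agent.P087
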