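import Mathlib
import Vale.Agent.P087.Basic
import Vale.Agent.P087.UpperVol
import Vale.Agent.P087.Sample
import Vale.Agent.P087.UpperBandTools
import Vale.Agent.P087.UpperBandLaw

/-!
# P087: microstates of the example are band concentrated
-/

namespace Vale.Agent.P087

open MeasureTheory Filter
open scoped Topology

noncomputable section

namespace Band

open scoped Matrix

theorem sum_noisyCoef {n : ℕ} (s : Fin n → ℝ) (i : Fin n) (F : L3 n → ℂ) :
    ∑ l, noisyCoef s i l * F l = F (Sum.inl i) + (s i : ℂ) * F (Sum.inr (Sum.inl i)) := by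
  rw [Fintype.sum_sum_type, Fintype.sum_sum_type]
  simp [noisyCoef]

theorem sum_norm_noisyCoef_le {n : ℕ} (s : Fin n → ℝ) (hs : ∀ i, |s i| ≤ 1) (i : Fin n) :
    ∑ l, ‖noisyCoef s i l‖ ≤ 2 := by
  rw [Fintype.sum_sum_type, Fintype.sum_sum_type]
  simp [noisyCoef, apply_ite]
  linarith [hs i]

theorem abs_noise_le (p : ℕ) (hp : 1 ≤ p) (i : Fin (p + 1)) : |noise p i| ≤ 1 := by
  have h1 : (1 : ℝ) ≤ (p : ℝ) ^ 2 := one_le_pow₀ (by exact_mod_cast hp)
  refine Fin.cases ?_ (fun j => ?_) i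
  · simp only [noise, Fin.cases_zero]
    rw [abs_of_nonneg (by positivity), div_le_one (by positivity)]
    exact h1
  · simp [noise]

/-- Letters for mixed words: `none` is the noisy central letter. -/
def mixCoef (p : ℕ) : Option (L3 (p + 1)) → L3 (p + 1) → ℂ
  | none, l => noisyCoef (noise p) 0 l
  | some m, l => if l = m then 1 else 0

theorem mixed_zero (p : ℕ) (j : Fin p) (a b : ℕ) :
    expand (mixCoef p) (law (mu0 p)) (qword none (some (Sum.inl j.succ))
      (some (Sum.inr (Sum.inl j.succ))) a b) = 0 := by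
  refine expand_eq_zero _ _ _ fun u hu => ?_
  refine law_count_one _ (Sum.inl j.succ) u ?_
  have key : ∀ (i : Option (L3 (p + 1))) (l : L3 (p + 1)), mixCoef p i l ≠ 0 →
      (l = Sum.inr (Sum.inl j.succ) ↔ i = some (Sum.inr (Sum.inl j.succ))) := by
    intro i l h
    cases i with
    | none =>
      simp only [mixCoef, noisyCoef] at h
      constructor
      · rintro rfl; simp at h
      · simp
    | some m =>
      simp only [mixCoef, ne_eq, ite_eq_right_iff, one_ne_zero, imp_false, not_not] at h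
      subst h; simp
  rw [forall₂_count key hu]
  simp [qword, List.countP_append, List.countP_replicate]

theorem law_nil (p : ℕ) : law (σ := Fin (p + 1) ⊕ Fin (p + 1)) (mu0 p) [] = 1 := by
  have := law_inl (σ := Fin (p + 1) ⊕ Fin (p + 1)) (mu0 p) []
  simpa [mu0, red, aPart] using this

theorem law_inl_pair (p : ℕ) (j : Fin p) :
    law (σ := Fin (p + 1) ⊕ Fin (p + 1)) (mu0 p) [Sum.inl j.succ, Sum.inl j.succ] = 1 := by
  have := law_inl (σ := Fin (p + 1) ⊕ Fin (p + 1)) (mu0 p) [j.succ, j.succ]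
  simpa [mu0, red, aPart, redStep] using this

theorem exampleLaw_nil (p : ℕ) : exampleLaw p [] = 1 := by
  simpa [exampleLaw, noisyLaw, expand] using law_nil p

theorem exampleLaw_pair (p : ℕ) (i : Fin (p + 1)) :
    exampleLaw p [i, i] = mu0 p [i, i] + (noise p i : ℂ) ^ 2 := by
  have h1 : ∀ (a : Fin (p + 1)) (s : Fin (p + 1) ⊕ Fin (p + 1)),
      law (mu0 p) [Sum.inl a, Sum.inr s] = 0 := fun a s => by
    simpa using law_sd (mu0 p) [a] s []
  have h2 : ∀ (a : Fin (p + 1)) (s : Fin (p + 1) ⊕ Fin (p + 1)),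
      law (mu0 p) [Sum.inr s, Sum.inl a] = 0 := fun a s => by
    simpa using law_sd (mu0 p) [] s [Sum.inl a]
  have h3 : ∀ (s : Fin (p + 1) ⊕ Fin (p + 1)),
      law (mu0 p) [Sum.inr s, Sum.inr s] = 1 := fun s => by
    simpa [law_nil] using law_sd (mu0 p) [] s [Sum.inr s]
  have h4 : law (σ := Fin (p + 1) ⊕ Fin (p + 1)) (mu0 p) [Sum.inl i, Sum.inl i] = mu0 p [i, i] := by
    simpa using law_inl (σ := Fin (p + 1) ⊕ Fin (p + 1)) (mu0 p) [i, i]
  simp only [exampleLaw, noisyLaw, expand, sum_noisyCoef, h1, h2, h3, h4]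
  ring

theorem exampleLaw_zero_pair (p : ℕ) :
    (exampleLaw p [0, 0]).re = 1 / 3 + (1 / (p : ℝ) ^ 2) ^ 2 := by
  have h : mu0 p [0, 0] = ((1 / 3 : ℝ) : ℂ) := by
    have h : aPart ([0, 0] : List (Fin (p + 1))) = [] := by simp [aPart]
    simp [mu0, h, red]; norm_num
  rw [exampleLaw_pair, h, ← Complex.ofReal_pow, ← Complex.ofReal_add, Complex.ofReal_re]
  simp [noise]

theorem exampleLaw_succ_pair (p : ℕ) (j : Fin p) :
    (exampleLaw p [j.succ, j.succ]).re = 2 := by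
  have h : mu0 p [j.succ, j.succ] = ((1 : ℝ) : ℂ) := by simp [mu0, red, aPart, redStep]
  rw [exampleLaw_pair, h, ← Complex.ofReal_pow, ← Complex.ofReal_add, Complex.ofReal_re]
  simp [noise]; norm_num

/-- The quadratic functional of a law. -/
def massFun {p : ℕ} (s : Finset (ℕ × ℕ)) (c : ℕ × ℕ → ℝ) (j : Fin p)
    (ν : List (Fin (p + 1)) → ℂ) : ℝ :=
  ∑ ab ∈ s, c ab * (ν (qword 0 j.succ j.succ ab.1 ab.2)).re

/-- The product functional of a law. -/
def countFun {p : ℕ} (s : Finset (ℕ × ℕ)) (c : ℕ × ℕ → ℝ) (ν : List (Fin (p + 1)) → ℂ) : ℝ :=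
  ∑ ab ∈ s, c ab * ((ν (List.replicate ab.1 0)).re * (ν (List.replicate ab.2 0)).re)

theorem massFun_close {p : ℕ} (s : Finset (ℕ × ℕ)) (c : ℕ × ℕ → ℝ) (j : Fin p)
    (ν ν' : List (Fin (p + 1)) → ℂ) (N : ℕ) (hN : ∀ ab ∈ s, ab.1 + ab.2 + 2 ≤ N) (d : ℝ)
    (h : ∀ w, w.length ≤ N → ‖ν w - ν' w‖ ≤ d) :
    |massFun s c j ν - massFun s c j ν'| ≤ (∑ ab ∈ s, |c ab|) * d := by
  rw [massFun, massFun, ← Finset.sum_sub_distrib, Finset.sum_mul]
  refine (Finset.abs_sum_le_sum_abs _ _).trans (Finset.sum_le_sum fun ab hab => ?_)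
  rw [← mul_sub, abs_mul]
  refine mul_le_mul_of_nonneg_left ?_ (abs_nonneg _)
  rw [← Complex.sub_re]
  exact (Complex.abs_re_le_norm _).trans (h _ (by rw [qword_length]; exact hN ab hab))

theorem countFun_close {p : ℕ} (s : Finset (ℕ × ℕ)) (c : ℕ × ℕ → ℝ)
    (ν ν' : List (Fin (p + 1)) → ℂ) (N : ℕ) (hN : ∀ ab ∈ s, ab.1 + ab.2 + 2 ≤ N) (d V : ℝ)
    (hd : d ≤ 1) (hV : ∀ a ≤ N, |(ν' (List.replicate a 0)).re| ≤ V)
    (h : ∀ w, w.length ≤ N → ‖ν w - ν' w‖ ≤ d) :
    |countFun s c ν - countFun s c ν'| ≤ (∑ ab ∈ s, |c ab|) * (d * (2 * V + 1)) := by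
  rw [countFun, countFun, ← Finset.sum_sub_distrib, Finset.sum_mul]
  refine (Finset.abs_sum_le_sum_abs _ _).trans (Finset.sum_le_sum fun ab hab => ?_)
  rw [← mul_sub, abs_mul]
  refine mul_le_mul_of_nonneg_left ?_ (abs_nonneg _)
  have hb := hN ab hab
  have hd0 : 0 ≤ d := (norm_nonneg _).trans (h [] (by simp))
  have e : ∀ a ≤ N, |(ν (List.replicate a 0)).re - (ν' (List.replicate a 0)).re| ≤ d := fun a ha => by
    rw [← Complex.sub_re]
    exact (Complex.abs_re_le_norm _).trans (h _ (by simp [ha]))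
  set x := (ν (List.replicate ab.1 0)).re
  set y := (ν (List.replicate ab.2 0)).re
  set x' := (ν' (List.replicate ab.1 0)).re
  set y' := (ν' (List.replicate ab.2 0)).re
  have hx : |x - x'| ≤ d := e _ (by omega)
  have hy : |y - y'| ≤ d := e _ (by omega)
  have hx' : |x'| ≤ V := hV _ (by omega)
  have hy' : |y| ≤ V + 1 := by
    have := abs_sub_abs_le_abs_sub y y'
    linarith [hV ab.2 (by omega)]
  calc |x * y - x' * y'| = |(x - x') * y + x' * (y - y')| := by ring_nf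
    _ ≤ |(x - x')| * |y| + |x'| * |y - y'| := by
      refine (abs_add_le _ _).trans_eq ?_
      rw [abs_mul, abs_mul]
    _ ≤ d * (V + 1) + V * d := add_le_add (mul_le_mul hx hy' (abs_nonneg _) hd0)
      (mul_le_mul hx' hy (abs_nonneg _) ((abs_nonneg _).trans hx'))
    _ = _ := by ring

theorem rot_add {k : ℕ} {H : Mat k} (hH : H.IsHermitian) (M N : Mat k) :
    rot hH (M + N) = rot hH M + rot hH N := by
  simp [rot, Matrix.mul_add, Matrix.add_mul]

theorem fsq_smul {k : ℕ} (a : ℝ) (M : Mat k) : fsq ((a : ℂ) • M) = a ^ 2 * fsq M := by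
  simp [fsq, Finset.mul_sum, mul_pow]

theorem norm_add_sq' (b g : ℂ) : ‖b + g‖ ^ 2 = ‖b‖ ^ 2 + 2 * (b * star g).re + ‖g‖ ^ 2 := by
  rw [Complex.sq_norm, Complex.sq_norm, Complex.sq_norm, Complex.normSq_add, Complex.star_def]
  ring

/-- The limit of the smoothed band mass is close to one. -/
theorem mass_law_ge (p : ℕ) (hp : 2 ^ 10 ≤ p) (j : Fin p) (q : Polynomial ℝ) (R₂ γ : ℝ)
    (hR₂ : 41 ≤ R₂) (hγ : 0 ≤ γ)
    (hq : ∀ z ∈ Set.Icc (-(2 * R₂)) (2 * R₂), |q.eval z - max 0 (1 - |z| * p)| ≤ γ)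
    (s : Finset (ℕ × ℕ)) (c : ℕ × ℕ → ℝ)
    (hsc : ∀ x y : ℝ, q.eval (x - y) = ∑ ab ∈ s, c ab * x ^ ab.1 * y ^ ab.2) :
    1 - 80 / (p : ℝ) - 1601 * γ ≤ massFun s c j (exampleLaw p) := by
  have hp0 : (1024 : ℝ) ≤ p := by exact_mod_cast hp
  have hp1 : 1 ≤ p := le_trans (by norm_num) hp
  set N := s.sup (fun ab => ab.1 + ab.2) + 2
  have hN : ∀ ab ∈ s, ab.1 + ab.2 + 2 ≤ N := fun ab hab =>
    Nat.add_le_add_right (Finset.le_sup (f := fun ab : ℕ × ℕ => ab.1 + ab.2) hab) 2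
  set Sc := ∑ ab ∈ s, |c ab|
  have hSc : 0 ≤ Sc := Finset.sum_nonneg fun _ _ => abs_nonneg _
  refine le_of_forall_pos_le_add fun τ hτ => ?_
  set K : ℝ := 3 * (Sc * 2 ^ N) + 1
  have hK : 0 < K := by positivity
  obtain ⟨k, -, hk, d, B, g, hB0, hB, hcomm, -, hg, hW⟩ :=
    exists_sample p (wordsLE (L3 (p + 1)) N) (τ / K) 1 1 (by positivity) one_pos one_pos 0
  have hkR : (0 : ℝ) < k := by exact_mod_cast hk
  let Z : L3 (p + 1) → Mat k := Sum.elim B fun t => herm (g t)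
  have hZ : ∀ u : List (L3 (p + 1)), u.length ≤ N →
      ‖ntr (wordProd Z u) - law (mu0 p) u‖ ≤ τ / K := fun u hu => (hW u (mem_wordsLE hu)).le
  let Yν : Fin (p + 1) → Mat k := fun i => B i + (noise p i : ℂ) • herm (g (Sum.inl i))
  let Ym : Option (L3 (p + 1)) → Mat k := fun o => o.elim (Yν 0) Z
  have hYν : ∀ i, Yν i = ∑ l, noisyCoef (noise p) i l • Z l := fun i => by
    rw [Fintype.sum_sum_type, Fintype.sum_sum_type]
    simp [Yν, Z, noisyCoef]
  have hYm : ∀ o, Ym o = ∑ l, mixCoef p o l • Z l := fun o => by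
    cases o with
    | none => exact hYν 0
    | some m => simp [Ym, mixCoef]
  have hmix : ∀ o, ∑ l, ‖mixCoef p o l‖ ≤ 2 := fun o => by
    cases o with
    | none => exact sum_norm_noisyCoef_le _ (abs_noise_le p hp1) 0
    | some m => simp [mixCoef, apply_ite]
  have hd2 : ∀ r ≤ N, (2 : ℝ) ^ r * (τ / K) ≤ 2 ^ N * (τ / K) := fun r hr =>
    mul_le_mul_of_nonneg_right (pow_le_pow_right₀ (by norm_num) hr) (by positivity)
  have hclose : ∀ w : List (Fin (p + 1)), w.length ≤ N →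
      ‖ntr (wordProd Yν w) - exampleLaw p w‖ ≤ 2 ^ N * (τ / K) := fun w hw =>
    (ntr_expand_close (noisyCoef (noise p)) 2 zero_le_two
      (sum_norm_noisyCoef_le _ (abs_noise_le p hp1)) Z Yν hYν _ _ (by positivity) w
      fun u hu => hZ u (hu ▸ hw)).trans (hd2 _ hw)
  have hher : ∀ i, (Yν i).IsHermitian := fun i => by
    refine (hB i).1.add ?_
    rw [Matrix.IsHermitian, Matrix.conjTranspose_smul, (herm_isHermitian _).eq, Complex.star_def,
      Complex.conj_ofReal]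
  set hz := hher 0
  set lam := hz.eigenvalues
  set b' := rot hz (B j.succ)
  set g' := rot hz (herm (g (Sum.inl j.succ)))
  set φ : ℝ → ℝ := fun z => max 0 (1 - |z| * p)
  -- the main term
  have e1 : massFun s c j (fun w => ntr (wordProd Yν w)) =
      (∑ i, ∑ l, q.eval (lam i - lam l) * ‖b' i l + g' i l‖ ^ 2) / k := by
    rw [massFun, sum_ntr_qword Yν 0 j.succ hz (hher _) q s c hsc]
    congr 1
    refine Finset.sum_congr rfl fun i _ => Finset.sum_congr rfl fun l _ => ?_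
    rw [show Yν j.succ = B j.succ + herm (g (Sum.inl j.succ)) by simp [Yν, noise], rot_add]
    rfl
  -- the cross term
  have e2 : |(∑ i, ∑ l, q.eval (lam i - lam l) * (b' i l * star (g' i l)).re) / k| ≤
      Sc * (2 ^ N * (τ / K)) := by
    have := sum_ntr_qword_add Ym none (some (Sum.inl j.succ)) (some (Sum.inr (Sum.inl j.succ))) hz
      (herm_isHermitian _) q s c hsc
    change _ = (∑ i, ∑ l, q.eval (lam i - lam l) * (b' i l * star (g' i l)).re) / (k : ℝ) at this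
    rw [← this, Finset.sum_mul]
    refine (Finset.abs_sum_le_sum_abs _ _).trans (Finset.sum_le_sum fun ab hab => ?_)
    rw [abs_mul]
    refine mul_le_mul_of_nonneg_left ?_ (abs_nonneg _)
    refine (Complex.abs_re_le_norm _).trans ?_
    have h := ntr_expand_close (mixCoef p) 2 zero_le_two hmix Z Ym hYm (law (mu0 p)) (τ / K)
      (by positivity) (qword none (some (Sum.inl j.succ)) (some (Sum.inr (Sum.inl j.succ))) ab.1 ab.2)
      fun u hu => hZ u (by rw [hu, qword_length]; exact hN ab hab)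
    rw [mixed_zero, sub_zero, qword_length] at h
    exact h.trans (hd2 _ (hN ab hab))
  -- eigenvalues
  have hop : OpBound (Yν 0) (1 + noise p 0 * 40) :=
    opBound_smul_add zero_le_one (by norm_num) (by simp [noise]) (hB 0).2 (hg _)
  have hs0 : noise p 0 * 40 ≤ 40 := by
    have := abs_noise_le p hp1 0
    nlinarith [le_abs_self (noise p 0)]
  have hlam : ∀ i l, lam i - lam l ∈ Set.Icc (-(2 * R₂)) (2 * R₂) := fun i l => by
    have h0 : 0 ≤ 1 + noise p 0 * 40 := by simp [noise]; positivity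
    have hi := abs_le.mp (abs_eigen_le hz h0 hop i)
    have hl := abs_le.mp (abs_eigen_le hz h0 hop l)
    constructor <;> linarith
  -- the commutator
  have hcm : ∑ i, ∑ l, (lam i - lam l) ^ 2 * ‖b' i l‖ ^ 2 ≤
      (1 / (p : ℝ) ^ 2) ^ 2 * (6400 * fsq (B j.succ)) := by
    have h1 : ∑ i, ∑ l, (lam i - lam l) ^ 2 * ‖b' i l‖ ^ 2 =
        fsq (rot hz (Yν 0 * B j.succ) - rot hz (B j.succ * Yν 0)) := by
      simp only [fsq, rot_mul, rot_self, Matrix.sub_apply, Matrix.diagonal_mul, Matrix.mul_diagonal]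
      refine Finset.sum_congr rfl fun i _ => Finset.sum_congr rfl fun l _ => ?_
      rw [show (lam i : ℂ) * b' i l - b' i l * (lam l : ℂ) = ((lam i - lam l : ℝ) : ℂ) * b' i l by
        push_cast; ring, norm_mul, Complex.norm_real, Real.norm_eq_abs, mul_pow, sq_abs]
    have h2 : rot hz (Yν 0 * B j.succ) - rot hz (B j.succ * Yν 0) =
        rot hz (Yν 0 * B j.succ - B j.succ * Yν 0) := by
      simp [rot, Matrix.mul_sub, Matrix.sub_mul]
    have h3 : Yν 0 * B j.succ - B j.succ * Yν 0 = ((1 / (p : ℝ) ^ 2 : ℝ) : ℂ) •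
        (herm (g (Sum.inl 0)) * B j.succ - B j.succ * herm (g (Sum.inl 0))) := by
      simp only [Yν, noise, Fin.cases_zero, Matrix.add_mul, Matrix.mul_add, Matrix.smul_mul,
        Matrix.mul_smul, (hcomm j.succ).eq, smul_sub]
      abel
    rw [h1, h2, fsq_rot, h3, fsq_smul]
    refine mul_le_mul_of_nonneg_left ?_ (sq_nonneg _)
    have := fsq_comm_le (herm_isHermitian (g (Sum.inl 0))) (hB j.succ).1 (hg (Sum.inl 0))
    linarith
  have hfb : fsq (B j.succ) ≤ k := by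
    have := fsq_le_of_opBound (hB j.succ).2
    simpa using this
  have hfb' : (1 - τ / K) * k ≤ fsq (B j.succ) := by
    have h := hZ [Sum.inl j.succ, Sum.inl j.succ] (by simp [N])
    rw [law_inl_pair] at h
    have h' := (abs_le.mp ((Complex.abs_re_le_norm _).trans h)).1
    have e : ntr (wordProd Z [Sum.inl j.succ, Sum.inl j.succ]) = ((fsq (B j.succ) / k : ℝ) : ℂ) := by
      simp [wordProd, Z, ntr, fsq_of_hermitian (hB j.succ).1]
    rw [e, Complex.sub_re, Complex.ofReal_re, Complex.one_re] at h'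
    rw [← le_div_iff₀ hkR]
    linarith
  have hfg : fsq (herm (g (Sum.inl j.succ))) ≤ 1600 * k := by
    have := fsq_le_of_opBound (hg (Sum.inl j.succ))
    linarith
  -- pointwise
  have hpt : ∀ i l, (1 - 40 / (p : ℝ) - γ) * ‖b' i l‖ ^ 2
      - (p : ℝ) ^ 3 / 160 * ((lam i - lam l) ^ 2 * ‖b' i l‖ ^ 2)
      + 2 * (q.eval (lam i - lam l) * (b' i l * star (g' i l)).re) - γ * ‖g' i l‖ ^ 2
      ≤ q.eval (lam i - lam l) * ‖b' i l + g' i l‖ ^ 2 := by
    intro i l
    set z := lam i - lam l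
    have h := abs_le.mp (hq z (hlam i l))
    have hphi : 1 - 40 / (p : ℝ) - (p : ℝ) ^ 3 / 160 * z ^ 2 ≤ max 0 (1 - |z| * p) := by
      refine le_max_of_le_right ?_
      have : |z| * p ≤ 40 / (p : ℝ) + (p : ℝ) ^ 3 / 160 * z ^ 2 := by
        have hp' : (0 : ℝ) < p := by linarith
        have h0 : 0 ≤ (|z| * (p : ℝ) ^ 2 - 80) ^ 2 / (160 * p) := by positivity
        have : (|z| * (p : ℝ) ^ 2 - 80) ^ 2 / (160 * p) =
            40 / (p : ℝ) + (p : ℝ) ^ 3 / 160 * z ^ 2 - |z| * p := by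
          rw [← sq_abs z]; field_simp; ring
        linarith
      linarith
    rw [norm_add_sq']
    have hb := sq_nonneg ‖b' i l‖
    have hg' := sq_nonneg ‖g' i l‖
    nlinarith [mul_le_mul_of_nonneg_right (show 1 - 40 / (p : ℝ) - (p : ℝ) ^ 3 / 160 * z ^ 2 - γ
      ≤ q.eval z by linarith [h.1]) hb, mul_le_mul_of_nonneg_right (show -γ ≤ q.eval z by
      linarith [h.1, le_max_left (0 : ℝ) (1 - |z| * p)]) hg']
  have hsum := Finset.sum_le_sum fun i (_ : i ∈ (Finset.univ : Finset (Fin k))) =>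
    Finset.sum_le_sum fun l (_ : l ∈ (Finset.univ : Finset (Fin k))) => hpt i l
  simp only [Finset.sum_sub_distrib, Finset.sum_add_distrib, ← Finset.mul_sum] at hsum
  rw [show ∑ i, ∑ l, ‖b' i l‖ ^ 2 = fsq (B j.succ) from fsq_rot hz _,
    show ∑ i, ∑ l, ‖g' i l‖ ^ 2 = fsq (herm (g (Sum.inl j.succ))) from fsq_rot hz _] at hsum
  set Xc := ∑ i, ∑ l, q.eval (lam i - lam l) * (b' i l * star (g' i l)).re
  set Xm := ∑ i, ∑ l, q.eval (lam i - lam l) * ‖b' i l + g' i l‖ ^ 2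
  have e3 := abs_le.mp (massFun_close s c j (fun w => ntr (wordProd Yν w)) (exampleLaw p) N hN
    (2 ^ N * (τ / K)) hclose)
  rw [e1] at e3
  have hcp : (p : ℝ) ^ 3 / 160 * ((1 / (p : ℝ) ^ 2) ^ 2 * (6400 * fsq (B j.succ))) =
      40 / (p : ℝ) * fsq (B j.succ) := by field_simp; ring
  have hm1 := mul_le_mul_of_nonneg_left hcm (show 0 ≤ (p : ℝ) ^ 3 / 160 by positivity)
  have hf0 := fsq_nonneg (B j.succ)
  have hcoef : 0 ≤ 1 - 80 / (p : ℝ) := by
    have : 80 / (p : ℝ) ≤ 1 := by rw [div_le_one (by linarith)]; linarith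
    linarith
  have hsum2 : ((1 - 80 / (p : ℝ)) * (1 - τ / K) - 1601 * γ) * k + 2 * Xc ≤ Xm := by
    have h80 : 40 / (p : ℝ) + 40 / (p : ℝ) = 80 / p := by ring
    nlinarith [mul_le_mul_of_nonneg_left hfb' hcoef, mul_le_mul_of_nonneg_left hfb hγ,
      mul_le_mul_of_nonneg_left hfg hγ]
  have hsum3 : (1 - 80 / (p : ℝ)) * (1 - τ / K) - 1601 * γ + 2 * (Xc / k) ≤ Xm / k := by
    rw [le_div_iff₀ hkR, add_mul, mul_assoc 2, div_mul_cancel₀ _ hkR.ne']
    linarith
  have e2' := (abs_le.mp e2).1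
  have hτK : τ / K * (3 * (Sc * 2 ^ N) + 1) = τ := div_mul_cancel₀ τ hK.ne'
  have : (1 - 80 / (p : ℝ)) * (τ / K) ≤ τ / K :=
    mul_le_of_le_one_left (by positivity) (by have : 0 ≤ 80 / (p : ℝ) := (by positivity); linarith)
  nlinarith [e3.2]

/-- The limit of the smoothed band size is small. -/
theorem count_law_le (p : ℕ) (hp : 2 ^ 10 ≤ p) (q : Polynomial ℝ) (R₂ γ : ℝ)
    (hR₂ : 41 ≤ R₂)
    (hq : ∀ z ∈ Set.Icc (-(2 * R₂)) (2 * R₂), |q.eval z - max 0 (min 1 (2 - |z| * p))| ≤ γ)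
    (s : Finset (ℕ × ℕ)) (c : ℕ × ℕ → ℝ)
    (hsc : ∀ x y : ℝ, q.eval (x - y) = ∑ ab ∈ s, c ab * x ^ ab.1 * y ^ ab.2) :
    countFun s c (exampleLaw p) ≤ 20 / (p : ℝ) + γ := by
  have hp0 : (1024 : ℝ) ≤ p := by exact_mod_cast hp
  have hp1 : 1 ≤ p := le_trans (by norm_num) hp
  set N := s.sup (fun ab => ab.1 + ab.2) + 2
  have hN : ∀ ab ∈ s, ab.1 + ab.2 + 2 ≤ N := fun ab hab =>
    Nat.add_le_add_right (Finset.le_sup (f := fun ab : ℕ × ℕ => ab.1 + ab.2) hab) 2
  set Sc := ∑ ab ∈ s, |c ab|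
  have hSc : 0 ≤ Sc := Finset.sum_nonneg fun _ _ => abs_nonneg _
  set V := ∑ a ∈ Finset.range (N + 1), |(exampleLaw p (List.replicate a 0)).re|
  have hV0 : 0 ≤ V := Finset.sum_nonneg fun _ _ => abs_nonneg _
  have hV : ∀ a ≤ N, |(exampleLaw p (List.replicate a 0)).re| ≤ V := fun a ha =>
    Finset.single_le_sum (f := fun a => |(exampleLaw p (List.replicate a 0)).re|)
      (fun _ _ => abs_nonneg _) (Finset.mem_range.mpr (by omega))
  refine le_of_forall_pos_le_add fun τ hτ => ?_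
  set K : ℝ := (2 : ℝ) ^ N * (Sc * (2 * V + 1) + 1) + 3
  have hK : 0 < K := by positivity
  set t := min τ 1 with ht
  have ht0 : 0 < t := lt_min hτ one_pos
  obtain ⟨k, -, hk, d, B, g, hB0, hB, hcomm, hQ, hg, hW⟩ :=
    exists_sample p (wordsLE (L3 (p + 1)) N) (t / K) (5 / p) (t / K) (by positivity)
      (by positivity) (by positivity) 0
  have hkR : (0 : ℝ) < k := by exact_mod_cast hk
  let Z : L3 (p + 1) → Mat k := Sum.elim B fun t => herm (g t)
  let Yν : Fin (p + 1) → Mat k := fun i => B i + (noise p i : ℂ) • herm (g (Sum.inl i))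
  have hYν : ∀ i, Yν i = ∑ l, noisyCoef (noise p) i l • Z l := fun i => by
    rw [Fintype.sum_sum_type, Fintype.sum_sum_type]
    simp [Yν, Z, noisyCoef]
  have hclose : ∀ w : List (Fin (p + 1)), w.length ≤ N →
      ‖ntr (wordProd Yν w) - exampleLaw p w‖ ≤ 2 ^ N * (t / K) := fun w hw =>
    (ntr_expand_close (noisyCoef (noise p)) 2 zero_le_two
      (sum_norm_noisyCoef_le _ (abs_noise_le p hp1)) Z Yν hYν _ _ (by positivity) w
      fun u hu => (hW u (mem_wordsLE (hu ▸ hw))).le).trans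
      (mul_le_mul_of_nonneg_right (pow_le_pow_right₀ (by norm_num) hw) (by positivity))
  have hz : (Yν 0).IsHermitian := by
    refine (hB 0).1.add ?_
    rw [Matrix.IsHermitian, Matrix.conjTranspose_smul, (herm_isHermitian _).eq, Complex.star_def,
      Complex.conj_ofReal]
  set lam := hz.eigenvalues
  have hop : OpBound (Yν 0) (1 + noise p 0 * 40) :=
    opBound_smul_add zero_le_one (by norm_num) (by simp [noise]) (hB 0).2 (hg _)
  have hs0 : noise p 0 * 40 ≤ 40 := by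
    have := abs_noise_le p hp1 0
    nlinarith [le_abs_self (noise p 0)]
  have hlam : ∀ i l, lam i - lam l ∈ Set.Icc (-(2 * R₂)) (2 * R₂) := fun i l => by
    have h0 : 0 ≤ 1 + noise p 0 * 40 := by simp [noise]; positivity
    have hi := abs_le.mp (abs_eigen_le hz h0 hop i)
    have hl := abs_le.mp (abs_eigen_le hz h0 hop l)
    constructor <;> linarith
  have hpc := pair_count (G := herm (g (Sum.inl 0))) hz d (s := 1 / (p : ℝ) ^ 2) (R := 40)
    (z := 2 / p) (e := 5 / p) (hg _) (by simp only [Yν, hB0]; rfl) (by positivity) (by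
      rw [div_pow, div_pow, div_pow, show ((p : ℝ) ^ 2) ^ 2 = (p : ℝ) ^ 2 * (p : ℝ) ^ 2 from sq _]
      have h2 : (19200 : ℝ) ≤ (p : ℝ) ^ 2 := by nlinarith
      field_simp
      nlinarith)
  have hsum : ∑ i, ∑ l, q.eval (lam i - lam l) ≤
      (((Finset.univ : Finset (Fin k × Fin k)).filter
        fun r => |lam r.1 - lam r.2| ≤ 2 / (p : ℝ)).card : ℝ) + γ * (k : ℝ) ^ 2 := by
    rw [Finset.card_filter, Nat.cast_sum, Fintype.sum_prod_type]
    refine (Finset.sum_le_sum fun i _ => Finset.sum_le_sum fun l _ =>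
      (?_ : _ ≤ ((if |lam i - lam l| ≤ 2 / (p : ℝ) then 1 else 0 : ℕ) : ℝ) + γ)).trans_eq ?_
    · have h := (abs_le.mp (hq _ (hlam i l))).2
      have hp' : (0 : ℝ) < p := by linarith
      split_ifs with hc
      · have : max 0 (min 1 (2 - |lam i - lam l| * p)) ≤ (1 : ℝ) :=
          max_le zero_le_one (min_le_left _ _)
        push_cast; linarith
      · have hc' := (div_lt_iff₀ hp').mp (not_le.mp hc)
        have : max 0 (min 1 (2 - |lam i - lam l| * p)) ≤ (0 : ℝ) :=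
          max_le le_rfl ((min_le_right _ _).trans (by linarith))
        push_cast; linarith
    · simp [Finset.sum_add_distrib]; ring
  have e1 : countFun s c (fun w => ntr (wordProd Yν w)) =
      (∑ i, ∑ l, q.eval (lam i - lam l)) / (k : ℝ) ^ 2 := sum_ntr_pow Yν 0 hz q s c hsc
  have hd1 : (2 : ℝ) ^ N * (t / K) ≤ 1 := by
    rw [mul_div_assoc', div_le_one hK]
    calc (2 : ℝ) ^ N * t ≤ 2 ^ N * 1 := mul_le_mul_of_nonneg_left (min_le_right _ _) (by positivity)
      _ ≤ 2 ^ N * (Sc * (2 * V + 1) + 1) :=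
          mul_le_mul_of_nonneg_left (le_add_of_nonneg_left (by positivity)) (by positivity)
      _ ≤ K := by simp [K]
  have e3 := (abs_le.mp (countFun_close s c (fun w => ntr (wordProd Yν w)) (exampleLaw p) N hN
    (2 ^ N * (t / K)) V hd1 hV hclose)).1
  rw [e1] at e3
  have hb : (∑ i, ∑ l, q.eval (lam i - lam l)) / (k : ℝ) ^ 2 ≤ 20 / (p : ℝ) + 2 * (t / K) + γ := by
    rw [div_le_iff₀ (by positivity)]
    have : 2 * (2 * (5 / (p : ℝ)) + t / K) = 20 / p + 2 * (t / K) := by ring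
    nlinarith
  have hτK : t / K * ((2 : ℝ) ^ N * (Sc * (2 * V + 1) + 1) + 3) = t := div_mul_cancel₀ t hK.ne'
  nlinarith [min_le_left τ 1, show 0 ≤ t / K by positivity, show (0 : ℝ) ≤ 2 ^ N by positivity]

/-- Few eigenvalue pairs are close. -/
theorem band_size {k : ℕ} (hk : 0 < k) (q : Polynomial ℝ) (p : ℕ) (hp : 0 < p) (R₂ γ β : ℝ)
    (hq : ∀ z ∈ Set.Icc (-(2 * R₂)) (2 * R₂), |q.eval z - max 0 (min 1 (2 - |z| * p))| ≤ γ)
    (lam : Fin k → ℝ) (hlam : ∀ i l, lam i - lam l ∈ Set.Icc (-(2 * R₂)) (2 * R₂))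
    (hβ : (∑ i, ∑ l, q.eval (lam i - lam l)) / (k : ℝ) ^ 2 ≤ β) :
    (((Finset.univ : Finset (Fin k × Fin k)).filter
      fun r => |lam r.1 - lam r.2| ≤ 1 / (p : ℝ)).card : ℝ) ≤ (β + γ) * (k : ℝ) ^ 2 := by
  have hp' : (0 : ℝ) < p := by exact_mod_cast hp
  have hkR : (0 : ℝ) < k := by exact_mod_cast hk
  rw [div_le_iff₀ (by positivity)] at hβ
  rw [add_mul, Finset.card_filter, Nat.cast_sum, Fintype.sum_prod_type]
  refine le_trans ((Finset.sum_le_sum fun i _ => Finset.sum_le_sum fun l _ =>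
    (?_ : ((if |lam i - lam l| ≤ 1 / (p : ℝ) then 1 else 0 : ℕ) : ℝ) ≤
      q.eval (lam i - lam l) + γ)).trans_eq ?_) (add_le_add hβ le_rfl)
  · have h := (abs_le.mp (hq _ (hlam i l))).1
    split_ifs with hc
    · have hc' := (le_div_iff₀ hp').mp hc
      have : (1 : ℝ) ≤ max 0 (min 1 (2 - |lam i - lam l| * p)) :=
        le_max_of_le_right (le_min le_rfl (by linarith))
      push_cast; linarith
    · have := le_max_left (0 : ℝ) (min 1 (2 - |lam i - lam l| * p))
      push_cast; linarith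
  · simp [Finset.sum_add_distrib]; ring

/-- Little mass lies off the band. -/
theorem band_mass {k : ℕ} (hk : 0 < k) (q : Polynomial ℝ) (p : ℕ) (hp : 0 < p) (R₂ γ α T : ℝ)
    (hγ : 0 ≤ γ)
    (hq : ∀ z ∈ Set.Icc (-(2 * R₂)) (2 * R₂), |q.eval z - max 0 (1 - |z| * p)| ≤ γ)
    (lam : Fin k → ℝ) (hlam : ∀ i l, lam i - lam l ∈ Set.Icc (-(2 * R₂)) (2 * R₂)) (M : Mat k)
    (hT : fsq M ≤ T * k)
    (hα : α ≤ (∑ i, ∑ l, q.eval (lam i - lam l) * ‖M i l‖ ^ 2) / k) :
    ∑ r ∈ ((Finset.univ : Finset (Fin k × Fin k)).filter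
      fun r => |lam r.1 - lam r.2| ≤ 1 / (p : ℝ))ᶜ, ‖M r.1 r.2‖ ^ 2 ≤ (T - α + γ * T) * k := by
  have hp' : (0 : ℝ) < p := by exact_mod_cast hp
  have hkR : (0 : ℝ) < k := by exact_mod_cast hk
  rw [le_div_iff₀ hkR] at hα
  set D := (Finset.univ : Finset (Fin k × Fin k)).filter
    fun r => |lam r.1 - lam r.2| ≤ 1 / (p : ℝ)
  have h3 : ∑ i, ∑ l, q.eval (lam i - lam l) * ‖M i l‖ ^ 2 ≤
      (∑ r ∈ D, ‖M r.1 r.2‖ ^ 2) + γ * fsq M := by
    rw [← fsq_prod, Finset.mul_sum, Finset.sum_filter, ← Finset.sum_add_distrib,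
      ← Fintype.sum_prod_type']
    refine Finset.sum_le_sum fun r _ => ?_
    have h := (abs_le.mp (hq _ (hlam r.1 r.2))).2
    have hn := sq_nonneg ‖M r.1 r.2‖
    split_ifs with hc
    · have : max 0 (1 - |lam r.1 - lam r.2| * p) ≤ (1 : ℝ) :=
        max_le zero_le_one (by nlinarith [abs_nonneg (lam r.1 - lam r.2)])
      nlinarith
    · have hc' := (div_lt_iff₀ hp').mp (not_le.mp hc)
      have : max 0 (1 - |lam r.1 - lam r.2| * p) ≤ (0 : ℝ) := max_le le_rfl (by linarith)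
      nlinarith
  have h5 := Finset.sum_add_sum_compl D (fun r => ‖M r.1 r.2‖ ^ 2)
  rw [fsq_prod] at h5
  nlinarith [mul_le_mul_of_nonneg_left hT hγ]

end Band

open Band in
theorem eventually_bandGood (p : ℕ) (hp : 2 ^ 10 ≤ p) (R : ℝ) (hR : 0 < R) :
    ∃ (m : ℕ) (ε : ℝ), 0 < ε ∧ ∀ᶠ k in atTop,
      BandGood (Gamma (exampleLaw p) R m k ε) (100 / (p : ℝ)) (200 / (p : ℝ)) 1 := by
  have hp0 : (1024 : ℝ) ≤ p := by exact_mod_cast hp
  set R₂ := max R 41
  set γ : ℝ := 1 / (100 * p)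
  have hγ : 0 < γ := by positivity
  obtain ⟨q, hq⟩ := exists_polynomial_near_of_continuousOn (-(2 * R₂)) (2 * R₂)
    (fun z => max 0 (1 - |z| * (p : ℝ))) (by fun_prop) γ hγ
  obtain ⟨q2, hq2⟩ := exists_polynomial_near_of_continuousOn (-(2 * R₂)) (2 * R₂)
    (fun z => max 0 (min 1 (2 - |z| * (p : ℝ)))) (by fun_prop) γ hγ
  obtain ⟨s, c, hsc⟩ := exists_diff_repr q
  obtain ⟨s2, c2, hsc2⟩ := exists_diff_repr q2
  set N := max (s.sup fun ab => ab.1 + ab.2) (s2.sup fun ab => ab.1 + ab.2) + 2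
  have hN : ∀ ab ∈ s, ab.1 + ab.2 + 2 ≤ N := fun ab hab => Nat.add_le_add_right
    ((Finset.le_sup (f := fun ab : ℕ × ℕ => ab.1 + ab.2) hab).trans (le_max_left _ _)) 2
  have hN2 : ∀ ab ∈ s2, ab.1 + ab.2 + 2 ≤ N := fun ab hab => Nat.add_le_add_right
    ((Finset.le_sup (f := fun ab : ℕ × ℕ => ab.1 + ab.2) hab).trans (le_max_right _ _)) 2
  set Sc := ∑ ab ∈ s, |c ab|
  set Sc2 := ∑ ab ∈ s2, |c2 ab|
  have hSc : 0 ≤ Sc := Finset.sum_nonneg fun _ _ => abs_nonneg _
  have hSc2 : 0 ≤ Sc2 := Finset.sum_nonneg fun _ _ => abs_nonneg _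
  set V := ∑ a ∈ Finset.range (N + 1), |(exampleLaw p (List.replicate a 0)).re|
  have hV0 : 0 ≤ V := Finset.sum_nonneg fun _ _ => abs_nonneg _
  have hV : ∀ a ≤ N, |(exampleLaw p (List.replicate a 0)).re| ≤ V := fun a ha =>
    Finset.single_le_sum (f := fun a => |(exampleLaw p (List.replicate a 0)).re|)
      (fun _ _ => abs_nonneg _) (Finset.mem_range.mpr (by omega))
  set K : ℝ := (p : ℝ) * (Sc + Sc2 * (2 * V + 1) + 3)
  have hK : 0 < K := by positivity
  refine ⟨N, 1 / K, by positivity, eventually_atTop.mpr ⟨1, fun k hk a => ?_⟩⟩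
  suffices key : ∀ x ∈ Gamma (exampleLaw p) R N k (1 / K),
      (∑ i, ∑ l, ‖herm (x 0) i l‖ ^ 2 ≤ 1 * k) ∧
      ((((Finset.univ : Finset (Fin k × Fin k)).filter fun r =>
        |(herm_isHermitian (x 0)).eigenvalues r.1 - (herm_isHermitian (x 0)).eigenvalues r.2|
          ≤ 1 / (p : ℝ)).card : ℝ) ≤ 100 / (p : ℝ) * (k : ℝ) ^ 2) ∧
      ∀ j : Fin p,
        let A' := rot (herm_isHermitian (x 0)) (herm (x j.succ))
        (∑ q ∈ ((Finset.univ : Finset (Fin k × Fin k)).filter fun r =>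
          |(herm_isHermitian (x 0)).eigenvalues r.1 - (herm_isHermitian (x 0)).eigenvalues r.2|
            ≤ 1 / (p : ℝ))ᶜ, ‖A' q.1 q.2‖ ^ 2 ≤ (1 + 200 / (p : ℝ)) * k) ∧
        ∑ q : Fin k × Fin k, ‖A' q.1 q.2‖ ^ 2 ≤ 3 * k by
    by_cases h : ∃ x ∈ Gamma (exampleLaw p) R N k (1 / K), x 0 = a
    · obtain ⟨x₀, hx₀, rfl⟩ := h
      refine ⟨(herm_isHermitian (x₀ 0)).eigenvectorUnitary, _, fun r => ?_, (key x₀ hx₀).2.1,
        fun x hx hxa => ⟨(key x hx).1, fun j => ?_⟩⟩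
      · simp [abs_sub_comm]
      · have h2 := (key x hx).2.2 j
        simp only [hxa] at h2
        exact h2
    · refine ⟨1, ∅, fun _ => by simp, by simp; positivity, fun x hx hxa => absurd ⟨x, hx, hxa⟩ h⟩
  intro x hx
  obtain ⟨hxR, hxw⟩ := hx
  have hkR : (0 : ℝ) < k := by exact_mod_cast hk
  set A : Fin (p + 1) → Mat k := fun j => herm (x j)
  have hAh : ∀ i, (A i).IsHermitian := fun i => herm_isHermitian _
  have hclose : ∀ w : List (Fin (p + 1)), w.length ≤ N →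
      ‖ntr (wordProd A w) - exampleLaw p w‖ ≤ 1 / K := by
    intro w hw
    rcases Nat.eq_zero_or_pos w.length with h0 | h0
    · rw [List.length_eq_zero_iff.mp h0, exampleLaw_nil]
      have hk' : (k : ℂ) ≠ 0 := by exact_mod_cast (by omega : k ≠ 0)
      simp only [wordProd, List.map_nil, List.prod_nil, ntr, Matrix.trace_one, Fintype.card_fin,
        div_self hk', sub_self, norm_zero]
      positivity
    · exact (hxw w h0 hw).le
  have hp' : (0 : ℝ) < p := by linarith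
  have hεp : 1 / K * (Sc + Sc2 * (2 * V + 1) + 3) = 1 / (p : ℝ) := by
    simp only [K]; field_simp
  have hK1 : 1 / K ≤ 1 / 3000 := by
    apply one_div_le_one_div_of_le (by norm_num)
    calc (3000 : ℝ) ≤ 1024 * 3 := by norm_num
      _ ≤ _ := mul_le_mul hp0 (le_add_of_nonneg_left (by positivity)) (by norm_num) hp'.le
  have hfsq : ∀ i, |fsq (A i) / k - (exampleLaw p [i, i]).re| ≤ 1 / K := fun i => by
    have h := (Complex.abs_re_le_norm _).trans (hclose [i, i] (by simp [N]))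
    have e : ntr (wordProd A [i, i]) = ((fsq (A i) / k : ℝ) : ℂ) := by
      simp [wordProd, ntr, fsq_of_hermitian (hAh i)]
    rwa [e, Complex.sub_re, Complex.ofReal_re] at h
  have hz := hAh 0
  set lam := hz.eigenvalues
  have hlam : ∀ i l, lam i - lam l ∈ Set.Icc (-(2 * R₂)) (2 * R₂) := fun i l => by
    have hi := abs_le.mp (abs_eigen_le hz hR.le (hxR 0) i)
    have hl := abs_le.mp (abs_eigen_le hz hR.le (hxR 0) l)
    have := le_max_left R (41 : ℝ)
    constructor <;> linarith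
  have hγp : γ = 1 / 100 * (1 / (p : ℝ)) := by simp only [γ]; field_simp
  have hop : 0 ≤ 1 / (p : ℝ) := by positivity
  refine ⟨?_, ?_, fun j => ?_⟩
  · show fsq (A 0) ≤ 1 * k
    have h := (abs_le.mp (hfsq 0)).2
    rw [exampleLaw_zero_pair] at h
    have : (1 / (p : ℝ) ^ 2) ^ 2 ≤ 1 / 3 := by
      have h1 : 1 / (p : ℝ) ^ 2 ≤ 1 / 2 :=
        one_div_le_one_div_of_le two_pos (by nlinarith)
      nlinarith [show (0 : ℝ) ≤ 1 / (p : ℝ) ^ 2 by positivity]
    rw [← div_le_iff₀ hkR]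
    linarith
  · -- band size
    have h1 := count_law_le p hp q2 R₂ γ (le_max_right _ _) (fun z hz => (hq2 z hz).le)
      s2 c2 hsc2
    have h2 := (abs_le.mp (countFun_close s2 c2 (fun w => ntr (wordProd A w)) (exampleLaw p) N hN2
      (1 / K) V (by linarith) hV hclose)).2
    have e : countFun s2 c2 (fun w => ntr (wordProd A w)) =
        (∑ i, ∑ l, q2.eval (lam i - lam l)) / (k : ℝ) ^ 2 := sum_ntr_pow A 0 hz q2 s2 c2 hsc2
    rw [e] at h2
    refine (band_size hk q2 p (by omega) R₂ γ _ (fun z hz => (hq2 z hz).le) lam hlam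
      (show _ ≤ 20 / (p : ℝ) + γ + Sc2 * (1 / K * (2 * V + 1)) by linarith)).trans ?_
    refine mul_le_mul_of_nonneg_right ?_ (sq_nonneg _)
    have h5 : Sc2 * (1 / K * (2 * V + 1)) ≤ 1 / (p : ℝ) := by
      calc Sc2 * (1 / K * (2 * V + 1)) = 1 / K * (Sc2 * (2 * V + 1)) := by ring
        _ ≤ 1 / K * (Sc + Sc2 * (2 * V + 1) + 3) :=
            mul_le_mul_of_nonneg_left (by linarith) (by positivity)
        _ = _ := hεp
    have e20 : 20 / (p : ℝ) = 20 * (1 / p) := by ring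
    have e100 : 100 / (p : ℝ) = 100 * (1 / p) := by ring
    linarith
  · -- masses
    intro A'
    have hA' : A' = rot hz (A j.succ) := rfl
    have hf := abs_le.mp (hfsq j.succ)
    rw [exampleLaw_succ_pair] at hf
    have h1 := mass_law_ge p hp j q R₂ γ (le_max_right _ _) hγ.le (fun z hz => (hq z hz).le) s c hsc
    have h2 := (abs_le.mp (massFun_close s c j (fun w => ntr (wordProd A w)) (exampleLaw p) N hN
      (1 / K) hclose)).1
    have e : massFun s c j (fun w => ntr (wordProd A w)) =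
        (∑ i, ∑ l, q.eval (lam i - lam l) * ‖A' i l‖ ^ 2) / k :=
      sum_ntr_qword A 0 j.succ hz (hAh _) q s c hsc
    rw [e] at h2
    have hall : ∑ r : Fin k × Fin k, ‖A' r.1 r.2‖ ^ 2 = fsq (A j.succ) := by
      rw [fsq_prod, hA', fsq_rot]
    have hup : fsq (A j.succ) ≤ (2 + 1 / K) * k := by
      rw [← div_le_iff₀ hkR]; linarith
    refine ⟨?_, ?_⟩
    · refine (band_mass hk q p (by omega) R₂ γ (1 - 80 / (p : ℝ) - 1601 * γ - Sc * (1 / K))
        (2 + 1 / K) hγ.le (fun z hz => (hq z hz).le) lam hlam A' ?_ ?_).trans ?_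
      · rw [hA', fsq_rot]; exact hup
      · linarith
      · refine mul_le_mul_of_nonneg_right ?_ hkR.le
        have h6 : (Sc + 1) * (1 / K) ≤ 1 / (p : ℝ) := by
          rw [← hεp, mul_comm]
          exact mul_le_mul_of_nonneg_left
            (by linarith [mul_nonneg hSc2 (show (0 : ℝ) ≤ 2 * V + 1 by positivity)]) (by positivity)
        have h7 : γ * (2 + 1 / K) ≤ γ * 3 := mul_le_mul_of_nonneg_left (by linarith) hγ.le
        have e80 : 80 / (p : ℝ) = 80 * (1 / p) := by ring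
        have e200 : 200 / (p : ℝ) = 200 * (1 / p) := by ring
        linarith
    · rw [hall]
      refine hup.trans (mul_le_mul_of_nonneg_right ?_ hkR.le)
      linarith

end

end Vale.Agent.P087
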