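import Mathlib
import Vale.Agent.P087.Defs
import Vale.Agent.P087.Basic
import Vale.Agent.P087.Model
import Vale.Agent.P087.Sample
import Vale.Agent.P087.GNS
import Vale.Agent.P087.Free
import Vale.Agent.P087.Reduce
import Vale.Agent.P087.Micro
import Vale.Agent.P087.UpperVol
import Vale.Agent.P087.UpperBand
import Vale.Agent.P087.Cumulant
import Vale.Agent.P087.Flow
import Vale.Agent.P087.Conj
import Vale.Agent.P087.ChiStar

/-!
# P087: microstates and nonmicrostates free entropy differ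
-/

namespace Vale.Agent.P087

open MeasureTheory Filter Set
open scoped InnerProductSpace Topology

noncomputable section

theorem noise_zero (p : ℕ) : noise p 0 = 1 / (p : ℝ) ^ 2 := rfl

theorem noise_succ (p : ℕ) (j : Fin p) : noise p j.succ = 1 := rfl

theorem noise_pos (p : ℕ) (hp : 0 < p) (i : Fin (p + 1)) : 0 < noise p i := by
  induction i using Fin.cases with
  | zero => rw [noise_zero]; positivity
  | succ j => rw [noise_succ]; exact one_pos

/-- Upper bound for the microstates entropy of the example. -/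
theorem chi_example_le (p : ℕ) (hp : 2 ^ 10 ≤ p) :
    chi (exampleLaw p) ≤ ((((p : ℝ) + 1) / 2 * Real.log (2 * Real.pi * Real.exp 1)
      + 250 + 50 * Real.log p : ℝ) : EReal) := by
  have hp' : (1024 : ℝ) ≤ p := by exact_mod_cast hp
  have h := chi_le_of_band p (exampleLaw p) (100 / (p : ℝ)) (200 / (p : ℝ)) 1 (by positivity)
    (by rw [div_le_one (by linarith)]; linarith) (by positivity) one_pos
    (fun R hR => eventually_bandGood p hp R hR)
  refine h.trans (EReal.coe_le_coe_iff.mpr ?_)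
  have hl : Real.log (1 / (100 / (p : ℝ))) ≤ Real.log p := by
    refine Real.log_le_log (by positivity) ?_
    rw [one_div_div, div_le_iff₀ (by norm_num)]
    linarith
  have e : (p : ℝ) * (1 / 2 * Real.log (2 * Real.pi * Real.exp 1) + 200 / (p : ℝ) / 2
      + 3 * (100 / (p : ℝ)) / 2 + 100 / (p : ℝ) / 2 * Real.log (1 / (100 / (p : ℝ)))) =
      (p : ℝ) / 2 * Real.log (2 * Real.pi * Real.exp 1) + 250 +
        50 * Real.log (1 / (100 / (p : ℝ))) := by
    field_simp
    ring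
  rw [e, mul_one]
  linarith

theorem mu0_sq_norm_zero (p : ℕ) : mu0 p [0, 0] = 1 / 3 := by
  have h : aPart ([0, 0] : List (Fin (p + 1))) = [] := rfl
  simp [mu0, h, red]
  norm_num

/-- The estimator is useless for large times. -/
theorem sum_estimator_le (p : ℕ) (ρ : ℝ) (hρ : 1 ≤ ρ)
    (ζ : Fin (p + 1) → List (Fin (p + 1)) → ℂ) (h0 : ∀ j : Fin p, ζ j.succ [] = 0)
    (hb : ∀ k, ∑ j, gradeSq (ζ j) k ≤ (4 * ρ * (8 * ρ) ^ k) ^ 2)
    (t : ℝ) (ht : 1024 * ρ ^ 2 ≤ t) :
    (∀ j : Fin p, Summable fun k => gradeSq (ζ j.succ) k / t ^ k) ∧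
      ∑ j : Fin p, ∑' k, gradeSq (ζ j.succ) k / t ^ k ≤ 2 * ρ ^ 2 := by
  have ht0 : 0 < t := by nlinarith
  set q := 64 * ρ ^ 2 / t with hq
  have hq0 : 0 ≤ q := by positivity
  have hq1 : q ≤ 1 / 16 := by rw [hq, div_le_iff₀ ht0]; linarith
  have hnn : ∀ j k, 0 ≤ gradeSq (ζ j) k / t ^ k := fun j k => by
    rw [gradeSq_eq_sum]; positivity
  have hk : ∀ k, ∑ j : Fin p, gradeSq (ζ j.succ) k / t ^ k ≤ 16 * ρ ^ 2 * q ^ k := by
    intro k
    have h1 := hb k
    rw [Fin.sum_univ_succ] at h1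
    have h2 : 0 ≤ gradeSq (ζ 0) k := by rw [gradeSq_eq_sum]; positivity
    rw [← Finset.sum_div, div_le_iff₀ (by positivity), hq, div_pow]
    have e : 16 * ρ ^ 2 * ((64 * ρ ^ 2) ^ k / t ^ k) * t ^ k = (4 * ρ * (8 * ρ) ^ k) ^ 2 := by
      rw [mul_assoc (16 * ρ ^ 2), div_mul_cancel₀ _ (by positivity),
        show (64 : ℝ) * ρ ^ 2 = (8 * ρ) ^ 2 by ring, ← pow_mul, mul_comm 2 k, pow_mul]
      ring
    rw [e]
    linarith
  have hgeo : Summable fun k => 16 * ρ ^ 2 * q ^ k :=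
    (summable_geometric_of_lt_one hq0 (by linarith)).mul_left _
  have hs : ∀ j : Fin p, Summable fun k => gradeSq (ζ j.succ) k / t ^ k := fun j =>
    Summable.of_nonneg_of_le (hnn _) (fun k => le_trans
      (Finset.single_le_sum (f := fun i : Fin p => gradeSq (ζ i.succ) k / t ^ k)
        (fun i _ => hnn _ k) (Finset.mem_univ j)) (hk k)) hgeo
  refine ⟨hs, ?_⟩
  rw [← Summable.tsum_finsetSum fun j _ => hs j]
  have hsum : Summable fun k => ∑ j : Fin p, gradeSq (ζ j.succ) k / t ^ k :=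
    summable_sum fun j _ => hs j
  have hzero : ∑ j : Fin p, gradeSq (ζ j.succ) 0 / t ^ 0 = 0 := by simp [gradeSq, h0]
  rw [hsum.tsum_eq_zero_add, hzero, zero_add]
  calc ∑' k, ∑ j : Fin p, gradeSq (ζ j.succ) (k + 1) / t ^ (k + 1)
      ≤ ∑' k, 16 * ρ ^ 2 * q * q ^ k :=
        Summable.tsum_le_tsum (f := fun k => ∑ j : Fin p, gradeSq (ζ j.succ) (k + 1) / t ^ (k + 1))
          (g := fun k => 16 * ρ ^ 2 * q * q ^ k)
          (fun k => (hk (k + 1)).trans (le_of_eq (by rw [pow_succ']; ring)))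
          ((summable_nat_add_iff (f := fun k => ∑ j : Fin p, gradeSq (ζ j.succ) k / t ^ k) 1).mpr
            hsum)
          ((summable_geometric_of_lt_one hq0 (by linarith)).mul_left _)
    _ = 16 * ρ ^ 2 * q * (1 - q)⁻¹ := by
        rw [tsum_mul_left, tsum_geometric_of_lt_one hq0 (by linarith)]
    _ ≤ 2 * ρ ^ 2 := by
        rw [← div_eq_mul_inv, div_le_iff₀ (by linarith)]
        clear_value q
        have h1 : ρ ^ 2 * q ≤ ρ ^ 2 * (1 / 16) := mul_le_mul_of_nonneg_left hq1 (sq_nonneg ρ)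
        have h2 : 0 ≤ ρ ^ 2 := sq_nonneg ρ
        linarith

set_option maxHeartbeats 800000 in
theorem exists_counterexample (p : ℕ) (hp : (p : ℝ) = 2 ^ 60) :
    ∃ (n : ℕ) (H : Type) (_ : NormedAddCommGroup H) (_ : InnerProductSpace ℂ H)
      (_ : CompleteSpace H) (Ω : H) (X S : Fin n → H →L[ℂ] H) (ξ : ℝ → Fin n → H),
      1 ≤ n ∧ Setting Ω X S ∧
      (∀ t : ℝ, 0 < t → ∀ j,
        IsConjugate Ω (fun i => X i + (Real.sqrt t : ℂ) • S i) j (ξ t j)) ∧
      IntegrableOn (fun t : ℝ => (n : ℝ) / (1 + t) - ∑ j, ‖ξ t j‖ ^ 2) (Ioi 0) ∧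
      ⊥ < chi (moments Ω X) ∧
      chi (moments Ω X) <
        (((1 / 2) * (∫ t in Ioi (0 : ℝ), ((n : ℝ) / (1 + t) - ∑ j, ‖ξ t j‖ ^ 2)) +
          (n : ℝ) / 2 * Real.log (2 * Real.pi * Real.exp 1) : ℝ) : EReal) := by
  have hp0 : 0 < p := by
    rcases Nat.eq_zero_or_pos p with h | h
    · subst h; norm_num at hp
    · exact h
  have hp10 : 2 ^ 10 ≤ p := by
    have : ((2 ^ 10 : ℕ) : ℝ) ≤ p := by rw [hp]; norm_num
    exact_mod_cast this
  obtain ⟨kk, d, B, hkk, -, hB, -, hBμ, -⟩ := exists_model p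
  obtain ⟨H, i1, i2, i3, Ω, Z, hΩ, hsa, hZ, htr, -⟩ :=
    exists_gns (law (σ := Fin (p + 1) ⊕ Fin (p + 1)) (mu0 p)) 40 (by norm_num)
      (exampleLaw_matApprox p)
  set s := noise p with hs
  set μ := mu0 p with hμdef
  have hμ : μ [] = 1 := mu0_nil p
  let X : Fin (p + 1) → H →L[ℂ] H := fun i =>
    Z (Sum.inl i) + (s i : ℂ) • Z (Sum.inr (Sum.inl i))
  let S : Fin (p + 1) → H →L[ℂ] H := fun i => Z (Sum.inr (Sum.inr i))
  have hXsa : ∀ i, IsSelfAdjoint (X i) ∧ IsSelfAdjoint (S i) := fun i =>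
    ⟨(hsa _).add (IsSelfAdjoint.smul (Complex.conj_ofReal _) (hsa _)), hsa _⟩
  have hXmem : ∀ i, X i ∈ Algebra.adjoin ℂ (Set.range Z) := fun i =>
    add_mem (Algebra.subset_adjoin (Set.mem_range_self _))
      (Subalgebra.smul_mem _ (Algebra.subset_adjoin (Set.mem_range_self _)) _)
  have hle : Algebra.adjoin ℂ (Set.range X ∪ Set.range S) ≤ Algebra.adjoin ℂ (Set.range Z) := by
    refine Algebra.adjoin_le ?_
    rintro _ (⟨i, rfl⟩ | ⟨i, rfl⟩)
    · exact hXmem i
    · exact Algebra.subset_adjoin ⟨_, rfl⟩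
  have hXmom : ∀ w, moments Ω X w = exampleLaw p w := by
    intro w
    have h := map_wordProd_expand (noisyCoef s) Z X (fun i => by
      simp [X, noisyCoef, Fintype.sum_sum_type]) w (pairing Ω Ω)
    simp only [pairing, LinearMap.coe_mk, AddHom.coe_mk] at h
    rw [moments, vstate, h]
    exact expand_congr _ _ _ _ fun u _ => hZ u
  have hsd : ∀ i : Fin (p + 1), SDRel Ω Z (Sum.inr (Sum.inr i)) := by
    intro i w
    have h := law_sd μ [] (Sum.inr i : Fin (p + 1) ⊕ Fin (p + 1)) w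
    simp only [List.map_nil, List.nil_append] at h
    rw [hZ, h]
    simp only [splitSum, hZ]
  obtain ⟨hsc, hfree⟩ := free_of_sd Ω hΩ Z htr (fun i => Sum.inr (Sum.inr i))
    (fun a b h => by simpa using h) hsd X (fun i => by
      refine add_mem (Algebra.subset_adjoin (Set.mem_image_of_mem Z ?_))
        (Subalgebra.smul_mem _ (Algebra.subset_adjoin (Set.mem_image_of_mem Z ?_)) _) <;>
        simp)
  obtain ⟨H', j1, j2, j3, Ω', X', S', hset, hmom, htrans⟩ := exists_cyclic Ω X S hXsa hΩ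
    (fun P hP Q hQ => htr P (hle hP) Q (hle hQ)) hsc hfree
  have hconj : ∀ t : ℝ, 0 < t → ∀ j,
      IsConjugate Ω (fun i => X i + (Real.sqrt t : ℂ) • S i) j (xi Ω Z s t j) := by
    intro t ht j
    have h := xi_isConjugate (s := s) μ hμ hZ hsa ht j
    have e : yOp Z s t = fun i => X i + (Real.sqrt t : ℂ) • S i :=
      funext fun i => yOp_eq Z s ht i
    rwa [e] at h
  choose ξ' hξn hξc using fun (t : ℝ) (ht : 0 < t) (j : Fin (p + 1)) =>
    htrans (Real.sqrt t : ℂ) j _ (hconj t ht j)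
  classical
  let ξ : ℝ → Fin (p + 1) → H' := fun t j => if ht : 0 < t then ξ' t ht j else 0
  set f : ℝ → Fin (p + 1) → ℝ := fun t j => ‖xi Ω Z s t j‖ ^ 2 with hf
  have hξf : ∀ t, 0 < t → ∀ j, ‖ξ t j‖ ^ 2 = f t j := by
    intro t ht j
    simp only [ξ, dif_pos ht, hξn t ht j, hf]
  -- the estimator bound
  set ρ := Real.sqrt (1 + 2 * Real.sqrt p) with hρ
  have hsqrt : Real.sqrt p = 2 ^ 30 := by
    rw [hp, show (2 : ℝ) ^ 60 = (2 ^ 30) ^ 2 by norm_num, Real.sqrt_sq (by positivity)]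
  have hρ2 : ρ ^ 2 = 1 + 2 * 2 ^ 30 := by
    rw [hρ, Real.sq_sqrt (by positivity), hsqrt]
  have hρ1 : 1 ≤ ρ := Real.one_le_sqrt.mpr (by linarith [Real.sqrt_nonneg (p : ℝ)])
  obtain ⟨ζ, hζ, hζ0, hζb⟩ := exists_cumulant μ hμ ρ hρ1 (fun L => by
    rw [pow_mul, hρ, Real.sq_sqrt (by positivity)]
    exact gradeSq_mu0_le p hp0 L)
  set a : Fin (p + 1) → ℝ := fun i => s i ^ 2 with ha
  have hapos : ∀ i, 0 < a i := fun i => pow_pos (noise_pos p hp0 i) 2
  set c : Fin (p + 1) → ℝ := fun i => (μ [i, i]).re + a i with hc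
  have hcpos : ∀ i, 0 < c i := fun i => by
    have h := x_norm_sq (Ω := Ω) (Z := Z) μ hμ hZ hsa (t := (1 : ℝ)) one_pos i
    have := hapos i
    have := sq_nonneg ‖Z (Sum.inl i) Ω‖
    simp only [hc]
    linarith
  set T := 1024 * ρ ^ 2 with hT
  obtain ⟨hint, hlow⟩ := chiStar_lower a c hapos hcpos f
    (fun i => xi_measurable (s := s) μ hμ hZ hsa i)
    (fun t ht i => by simpa [hf, ha, flowVar] using xi_norm_le (s := s) μ hμ hZ hsa ht i)
    (fun t ht i => by
      simpa [hf, ha, hc, flowVar, add_assoc] using xi_norm_ge (s := s) μ hμ hZ hsa ht i)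
    T ((p : ℝ) / 2) (by positivity) (fun t ht => by
      have ht0 : 0 < t := lt_of_le_of_lt (by positivity) ht
      obtain ⟨hsum, hB⟩ := sum_estimator_le p ρ hρ1 ζ
        (fun j => by rw [hζ0, hμdef, mu0_single]) hζb t ht.le
      have hb : ∀ j : Fin p, f t j.succ ≤ 1 / (1 + t) -
          (1 - ∑' k, gradeSq (ζ j.succ) k / t ^ k) / (1 + t) ^ 2 := by
        intro j
        have h := xi_norm_le_of_estimator (s := s) (Z := Z) (Ω := Ω) μ hμ hZ hsa ht0 j.succ
          (ζ j.succ) (hζ j.succ) (hsum j)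
        simpa [hf, flowVar, hs, noise_succ, hμdef, mu0_sq] using h
      have h0 : f t 0 ≤ 1 / (a 0 + t) := by
        simpa [hf, ha, flowVar] using xi_norm_le (s := s) μ hμ hZ hsa ht0 0
      have hs1 := Finset.sum_le_sum (s := Finset.univ) fun j _ => hb j
      have e2 : ∑ j : Fin p, (1 - ∑' k, gradeSq (ζ j.succ) k / t ^ k) / (1 + t) ^ 2 =
          ((p : ℝ) * 1 - ∑ j : Fin p, ∑' k, gradeSq (ζ j.succ) k / t ^ k) / (1 + t) ^ 2 := by
        rw [← Finset.sum_div, Finset.sum_sub_distrib]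
        simp
      rw [Finset.sum_sub_distrib, e2] at hs1
      rw [Fin.sum_univ_succ, Fin.sum_univ_succ]
      have ea : ∀ j : Fin p, a j.succ = 1 := fun j => by simp [ha, hs, noise_succ]
      simp only [ea, Finset.sum_const, Finset.card_univ, Fintype.card_fin, nsmul_eq_mul] at hs1 ⊢
      have hgap : (p : ℝ) / 2 * (1 / (1 + t) ^ 2) ≤
          ((p : ℝ) * 1 - ∑ j : Fin p, ∑' k, gradeSq (ζ j.succ) k / t ^ k) / (1 + t) ^ 2 := by
        rw [mul_one_div]
        refine div_le_div_of_nonneg_right ?_ (sq_nonneg _)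
        rw [hp]
        nlinarith
      linarith)
  have hint' : IntegrableOn (fun t : ℝ => ((p + 1 : ℕ) : ℝ) / (1 + t) - ∑ j, ‖ξ t j‖ ^ 2)
      (Ioi 0) := by
    refine hint.congr_fun (fun t ht => ?_) measurableSet_Ioi
    simp only [Fintype.card_fin]
    congr 1
    exact Finset.sum_congr rfl fun j _ => (hξf t ht j).symm
  have hval : ∫ t in Ioi (0 : ℝ), (((p + 1 : ℕ) : ℝ) / (1 + t) - ∑ j, ‖ξ t j‖ ^ 2) =
      ∫ t in Ioi (0 : ℝ), (((Fintype.card (Fin (p + 1))) : ℝ) / (1 + t) - ∑ j, f t j) := by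
    refine setIntegral_congr_fun measurableSet_Ioi fun t ht => ?_
    simp only [Fintype.card_fin]
    congr 1
    exact Finset.sum_congr rfl fun j _ => hξf t ht j
  have hchi : chi (moments Ω' X') = chi (exampleLaw p) := by
    rw [show moments Ω' X' = exampleLaw p from funext fun w => (hmom w).trans (hXmom w)]
  refine ⟨p + 1, H', j1, j2, j3, Ω', X', S', ξ, by omega, hset, fun t ht j => ?_, hint', ?_, ?_⟩
  · simpa only [ξ, dif_pos ht] using hξc t ht j
  · rw [hchi]
    exact bot_lt_chi (mu0 p) kk hkk B 1 (fun N j => hB N j) hBμ (noise p) (noise_pos p hp0)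
  · rw [hchi]
    refine (chi_example_le p hp10).trans_lt (EReal.coe_lt_coe_iff.mpr ?_)
    rw [hval]
    have hlog : ∑ i, Real.log (a i) = -4 * Real.log p := by
      rw [Fin.sum_univ_succ]
      simp [ha, hs, noise_succ, noise_zero, Real.log_pow]
      ring
    rw [hlog] at hlow
    have hlp : Real.log p ≤ 60 := by
      rw [hp, Real.log_pow]
      have := Real.log_two_lt_d9
      push_cast
      linarith
    have hgain : (20000 : ℝ) ≤ (p : ℝ) / 2 * (1 / (1 + T)) := by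
      rw [hp, hT, hρ2]
      norm_num
    push_cast
    linarith

end

end Vale.Agent.P087
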