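import Mathlib

/-!
# Exact finite permutation models of free symmetries

For every `m` there are involutions in a finite group whose words of length at most `m`
are trivial exactly when they reduce to the empty word.
-/

namespace Vale.Agent.P087.PermModel

variable {ι : Type*} [DecidableEq ι]

/-- Prepend a letter and cancel. -/
def push (i : ι) : List ι → List ι
  | [] => [i]
  | x :: t => if x = i then t else i :: x :: t

/-- The reduced form of a word in involutive letters. -/
def red (w : List ι) : List ι := w.foldr push []

/-- Prepend a letter and cancel, doing nothing when the word would become too long. -/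
def pushT (m : ℕ) (i : ι) (l : List ι) : List ι :=
  if (push i l).length ≤ m then push i l else l

lemma length_push_le (i : ι) (l : List ι) : (push i l).length ≤ l.length + 1 := by
  cases l with
  | nil => simp [push]
  | cons x t => simp only [push]; split_ifs <;> (simp; try omega)

lemma length_red_le (w : List ι) : (red w).length ≤ w.length := by
  induction w with
  | nil => simp [red]
  | cons i w ih => exact (length_push_le i _).trans (by simp [red] at ih ⊢; omega)

lemma chain_push (i : ι) {l : List ι} (h : l.IsChain (· ≠ ·)) :
    (push i l).IsChain (· ≠ ·) := by
  cases l with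
  | nil => simp [push]
  | cons x t =>
    simp only [push]
    split_ifs with hx
    · exact h.tail
    · exact List.isChain_cons_cons.2 ⟨Ne.symm hx, h⟩

lemma push_push (i : ι) {l : List ι} (h : l.IsChain (· ≠ ·)) : push i (push i l) = l := by
  cases l with
  | nil => simp [push]
  | cons x t =>
    by_cases hx : x = i
    · subst hx
      cases t with
      | nil => simp [push]
      | cons y s =>
        have := (List.isChain_cons_cons.1 h).1
        simp [push, Ne.symm this]
    · simp [push, hx]

variable [Fintype ι]

/-- Reduced words of length at most `m`. -/
def Words (ι : Type*) (m : ℕ) : Type _ := {l : List ι // l.IsChain (· ≠ ·) ∧ l.length ≤ m}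

noncomputable instance (m : ℕ) : Fintype (Words ι m) :=
  ((List.finite_length_le ι m).subset
    (fun l (h : l.IsChain (· ≠ ·) ∧ l.length ≤ m) => h.2)).fintype

noncomputable instance (m : ℕ) : DecidableEq (Words ι m) := Classical.decEq _

/-- The involution attached to a letter. -/
def act (m : ℕ) (i : ι) (l : Words ι m) : Words ι m :=
  ⟨pushT m i l.1, by
    unfold pushT
    split_ifs with h
    · exact ⟨chain_push i l.2.1, h⟩
    · exact l.2⟩

omit [Fintype ι] in
lemma act_involutive (m : ℕ) (i : ι) : Function.Involutive (act m i) := by
  intro l
  apply Subtype.ext
  change pushT m i (pushT m i l.1) = l.1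
  by_cases h : (push i l.1).length ≤ m
  · simp only [pushT, h, if_true]
    rw [push_push i l.2.1]
    simp [l.2.2]
  · simp [pushT, h]

/-- The generators of the finite quotient. -/
def gen (m : ℕ) (i : ι) : Equiv.Perm (Words ι m) := (act_involutive m i).toPerm _

omit [Fintype ι] in
lemma gen_mul_self (m : ℕ) (i : ι) : gen m i * gen m i = 1 := by
  ext1 l
  exact act_involutive m i l

omit [Fintype ι] in
lemma eval_red {G : Type*} [Monoid G] (u : ι → G) (hu : ∀ i, u i * u i = 1) (w : List ι) :
    ((red w).map u).prod = (w.map u).prod := by
  induction w with
  | nil => simp [red]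
  | cons i w ih =>
    have key : ∀ l : List ι, ((push i l).map u).prod = u i * (l.map u).prod := by
      intro l
      cases l with
      | nil => simp [push]
      | cons x t =>
        simp only [push]
        split_ifs with hx
        · subst hx; simp [← mul_assoc, hu]
        · simp
    calc ((red (i :: w)).map u).prod = u i * ((red w).map u).prod := key (red w)
      _ = ((i :: w).map u).prod := by rw [ih]; simp

omit [Fintype ι] in
lemma prod_gen_apply_empty {m : ℕ} (w : List ι) (hw : w.length ≤ m) :
    ((w.map (gen m)).prod ⟨[], List.isChain_nil, Nat.zero_le m⟩).1 = red w := by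
  induction w with
  | nil => rfl
  | cons i w ih =>
    have hw' : w.length ≤ m := by simp at hw; omega
    rw [List.map_cons, List.prod_cons]
    change pushT m i _ = _
    rw [ih hw', pushT, if_pos]
    · rfl
    · exact (length_push_le i _).trans (by
        have := length_red_le w
        simp at hw
        omega)

omit [Fintype ι] in
/-- A word of length at most `m` is trivial in the finite quotient iff it reduces to nothing. -/
theorem prod_gen_eq_one_iff {m : ℕ} (w : List ι) (hw : w.length ≤ m) :
    (w.map (gen m)).prod = 1 ↔ red w = [] := by
  constructor
  · intro h
    rw [← prod_gen_apply_empty (m := m) w hw, h]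
    rfl
  · intro h
    rw [← eval_red (gen m) (gen_mul_self m) w, h]
    simp

section Regular

open Matrix

variable {G : Type*} [Group G] [Fintype G] [DecidableEq G]

/-- The left regular representation by permutation matrices. -/
def reg : G →* Matrix G G ℂ where
  toFun g := Matrix.of fun a b => if a = g * b then 1 else 0
  map_one' := by ext a b; simp [Matrix.one_apply]
  map_mul' g h := by
    ext a b
    simp [Matrix.mul_apply, mul_assoc]

lemma reg_apply (g a b : G) : reg g a b = if a = g * b then 1 else 0 := rfl

lemma trace_reg (g : G) : (reg g).trace = if g = 1 then (Fintype.card G : ℂ) else 0 := by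
  by_cases h : g = 1
  · simp [h]
  · have : ∀ a : G, reg g a a = 0 := fun a => by
      rw [reg_apply, if_neg]
      intro ha
      exact h (mul_eq_right.1 ha.symm)
    simp [Matrix.trace, this, h]

lemma isHermitian_reg {g : G} (hg : g * g = 1) : (reg g).IsHermitian := by
  ext a b
  simp only [conjTranspose_apply, reg_apply]
  have hiff : b = g * a ↔ a = g * b := by
    constructor <;> rintro rfl <;> rw [← mul_assoc, hg, one_mul]
  simp only [hiff]
  split_ifs <;> simp

end Regular

/-- Exact finite models: symmetries whose word traces of length at most `m` are those of free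
symmetries. -/
theorem exists_free_symmetries (ι : Type) [DecidableEq ι] [Fintype ι] (m : ℕ) :
    ∃ (G : Type) (_ : Fintype G) (_ : DecidableEq G) (_ : Nonempty G) (U : ι → Matrix G G ℂ),
      (∀ i, (U i).IsHermitian ∧ U i * U i = 1) ∧
      ∀ w : List ι, w.length ≤ m →
        (w.map U).prod.trace = if red w = [] then (Fintype.card G : ℂ) else 0 := by
  refine ⟨Equiv.Perm (Words ι m), inferInstance, inferInstance, ⟨1⟩,
    fun i => reg (gen m i), fun i => ⟨isHermitian_reg (gen_mul_self m i), ?_⟩, ?_⟩
  · rw [← map_mul, gen_mul_self, map_one]
  · intro w hw
    have : (w.map fun i => reg (gen m i)).prod = reg (w.map (gen m)).prod := by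
      rw [map_list_prod, List.map_map]; rfl
    rw [this, trace_reg]
    simp only [prod_gen_eq_one_iff w hw]

end Vale.Agent.P087.PermModel
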