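import Vale.Agent.P087.TraceDefs

/-!
# P087: the vector state is a faithful trace on the von Neumann algebra of the tuple

The double commutant of a tuple as in `Setting` carries the vector state as a faithful tracial
state, and the space in which the conjugate variables live is the closure of that algebra's orbit.
-/

namespace Vale.Agent.P087

open Filter Topology
open scoped InnerProductSpace

noncomputable section

variable {H : Type} [NormedAddCommGroup H] [InnerProductSpace ℂ H] [CompleteSpace H]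

/-- Adjoining self-adjoint operators gives a star-closed algebra. -/
theorem star_mem_adjoin {s : Set (H →L[ℂ] H)} (hs : ∀ a ∈ s, IsSelfAdjoint a)
    {P : H →L[ℂ] H} (hP : P ∈ Algebra.adjoin ℂ s) : star P ∈ Algebra.adjoin ℂ s := by
  induction hP using Algebra.adjoin_induction with
  | mem x hx => rw [(hs x hx).star_eq]; exact Algebra.subset_adjoin hx
  | algebraMap r => rw [← algebraMap_star_comm]; exact Subalgebra.algebraMap_mem _ _
  | add x y _ _ hx hy => rw [star_add]; exact add_mem hx hy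
  | mul x y _ _ hx hy => rw [star_mul]; exact mul_mem hy hx

/-- The double commutant sends `Ω` into the closure of the polynomials applied to `Ω`. -/
theorem mem_closure_of_doubleCommutant {s : Set (H →L[ℂ] H)} (hs : ∀ a ∈ s, IsSelfAdjoint a)
    (Ω : H) {a : H →L[ℂ] H} (ha : a ∈ Set.centralizer (Set.centralizer s)) :
    a Ω ∈ closure ((fun P : H →L[ℂ] H => P Ω) '' (Algebra.adjoin ℂ s : Set (H →L[ℂ] H))) := by
  set E : Submodule ℂ H := (Subalgebra.toSubmodule (Algebra.adjoin ℂ s)).map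
    ({ toFun := fun P : H →L[ℂ] H => P Ω
       map_add' := fun _ _ => rfl
       map_smul' := fun _ _ => rfl } : (H →L[ℂ] H) →ₗ[ℂ] H)
  set p := E.topologicalClosure
  have hE : (p : Set H)
      = closure ((fun P : H →L[ℂ] H => P Ω) '' (Algebra.adjoin ℂ s : Set (H →L[ℂ] H))) := rfl
  have hinv : ∀ g ∈ s, ∀ v ∈ p, g v ∈ p := by
    intro g hg v hv
    refine (map_mem_closure g.continuous hv fun w hw => ?_ : g v ∈ closure (E : Set H))
    obtain ⟨P, hP, rfl⟩ := hw
    exact ⟨g * P, show g * P ∈ Algebra.adjoin ℂ s from mul_mem (Algebra.subset_adjoin hg) hP, rfl⟩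
  have hperp : ∀ g ∈ s, ∀ v ∈ pᗮ, g v ∈ pᗮ := by
    intro g hg v hv w hw
    rw [← ContinuousLinearMap.adjoint_inner_left, ← ContinuousLinearMap.star_eq_adjoint,
      (hs g hg).star_eq]
    exact hv _ (hinv g hg w hw)
  have : CompleteSpace p := E.isClosed_topologicalClosure.completeSpace_coe
  have hc : p.starProjection ∈ Set.centralizer s := by
    intro g hg
    ext v
    rw [mul_apply_eq_comp, mul_apply_eq_comp]
    refine (Submodule.eq_starProjection_of_mem_of_inner_eq_zero
      (hinv g hg _ (p.starProjection_apply_mem v)) fun w hw => ?_).symm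
    rw [← map_sub]
    exact Submodule.inner_left_of_mem_orthogonal hw
      (hperp g hg _ (p.sub_starProjection_mem_orthogonal v))
  have hΩ : Ω ∈ p :=
    subset_closure ⟨1, show (1 : H →L[ℂ] H) ∈ Algebra.adjoin ℂ s from one_mem _, rfl⟩
  have h := congrArg (fun T : H →L[ℂ] H => T Ω) (ha _ hc)
  simp only [mul_apply_eq_comp, Submodule.starProjection_eq_self_iff.2 hΩ] at h
  rw [← hE, ← h]
  exact p.starProjection_apply_mem _

variable {n : ℕ} {Ω : H} {X S : Fin n → H →L[ℂ] H}

theorem Setting.selfAdjoint_of_mem (h : Setting Ω X S) :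
    ∀ a ∈ Set.range X ∪ Set.range S, IsSelfAdjoint a := by
  rintro a (⟨i, rfl⟩ | ⟨i, rfl⟩)
  exacts [(h.selfAdjoint i).1, (h.selfAdjoint i).2]

/-- `star P Ω` and `P Ω` have the same length. -/
theorem Setting.norm_star_apply (h : Setting Ω X S) {P : H →L[ℂ] H}
    (hP : P ∈ Algebra.adjoin ℂ (Set.range X ∪ Set.range S)) : ‖star P Ω‖ = ‖P Ω‖ := by
  have e : (⟪star P Ω, star P Ω⟫_ℂ) = ⟪P Ω, P Ω⟫_ℂ := by
    have h1 := h.tracial P hP (star P) (star_mem_adjoin h.selfAdjoint_of_mem hP)
    simp only [vstate, mul_apply_eq_comp] at h1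
    rw [ContinuousLinearMap.star_eq_adjoint] at h1 ⊢
    rw [ContinuousLinearMap.adjoint_inner_left, ContinuousLinearMap.adjoint_inner_right] at *
    exact h1
  rw [inner_self_eq_norm_sq_to_K, inner_self_eq_norm_sq_to_K] at e
  have h2 : ‖star P Ω‖ ^ 2 = ‖P Ω‖ ^ 2 := by exact_mod_cast e
  exact (sq_eq_sq₀ (norm_nonneg _) (norm_nonneg _)).1 h2

theorem Setting.denseRange (h : Setting Ω X S) :
    DenseRange fun P : Algebra.adjoin ℂ (Set.range X ∪ Set.range S) => (P : H →L[ℂ] H) Ω := by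
  intro v
  have hv : v ∈ closure ((fun P : H →L[ℂ] H => P Ω) ''
      (Algebra.adjoin ℂ (Set.range X ∪ Set.range S) : Set (H →L[ℂ] H))) := by
    rw [h.cyclic]; trivial
  refine closure_mono ?_ hv
  rintro _ ⟨P, hP, rfl⟩
  exact ⟨⟨P, hP⟩, rfl⟩

/-- Right multiplication by a polynomial is bounded and commutes with the tuple. -/
theorem Setting.exists_right (h : Setting Ω X S) {Q : H →L[ℂ] H}
    (hQ : Q ∈ Algebra.adjoin ℂ (Set.range X ∪ Set.range S)) :
    ∃ R : H →L[ℂ] H, R ∈ Set.centralizer (Set.range X ∪ Set.range S) ∧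
      (∀ P ∈ Algebra.adjoin ℂ (Set.range X ∪ Set.range S), R (P Ω) = P (Q Ω)) := by
  set A := Algebra.adjoin ℂ (Set.range X ∪ Set.range S)
  set e : A →ₗ[ℂ] H :=
    { toFun := fun P => (P : H →L[ℂ] H) Ω
      map_add' := fun _ _ => rfl
      map_smul' := fun _ _ => rfl }
  set f : A →ₗ[ℂ] H :=
    { toFun := fun P => (P : H →L[ℂ] H) (Q Ω)
      map_add' := fun _ _ => rfl
      map_smul' := fun _ _ => rfl }
  have hd : DenseRange e := h.denseRange
  have hb : ∀ P : A, ‖f P‖ ≤ ‖star Q‖ * ‖e P‖ := fun P => by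
    show ‖((P : H →L[ℂ] H) * Q) Ω‖ ≤ ‖star Q‖ * ‖(P : H →L[ℂ] H) Ω‖
    rw [← h.norm_star_apply (mul_mem P.2 hQ), star_mul, ← h.norm_star_apply P.2]
    exact (star Q).le_opNorm _
  set R := f.extendOfNorm e
  have hR : ∀ P : A, R ((P : H →L[ℂ] H) Ω) = (P : H →L[ℂ] H) (Q Ω) := fun P =>
    LinearMap.extendOfNorm_eq hd ⟨_, hb⟩ P
  refine ⟨R, fun g hg => ?_, fun P hP => hR ⟨P, hP⟩⟩
  refine DFunLike.coe_injective (h.denseRange.equalizer (g * R).continuous (R * g).continuous
    (funext fun P => ?_))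
  show g (R ((P : H →L[ℂ] H) Ω)) = R (g ((P : H →L[ℂ] H) Ω))
  rw [hR P]
  exact (hR ⟨g * P, mul_mem (Algebra.subset_adjoin hg) P.2⟩).symm

/-- Approximation of an element of the double commutant. -/
theorem Setting.exists_approx (h : Setting Ω X S) {a : H →L[ℂ] H}
    (ha : a ∈ Set.centralizer (Set.centralizer (Set.range X ∪ Set.range S))) :
    ∃ p : ℕ → H →L[ℂ] H, (∀ m, p m ∈ Algebra.adjoin ℂ (Set.range X ∪ Set.range S)) ∧
      Tendsto (fun m => p m Ω) atTop (𝓝 (a Ω)) ∧
      Tendsto (fun m => star (p m) Ω) atTop (𝓝 (star a Ω)) := by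
  set A := Algebra.adjoin ℂ (Set.range X ∪ Set.range S)
  obtain ⟨y, hy, hlim⟩ := mem_closure_iff_seq_limit.1
    (show a Ω ∈ closure ((fun P : H →L[ℂ] H => P Ω) '' (A : Set (H →L[ℂ] H))) by
      rw [h.cyclic]; trivial)
  choose p hp hpy using hy
  obtain rfl : (fun m => p m Ω) = y := funext hpy
  refine ⟨p, hp, hlim, ?_⟩
  have hsa : ∀ m, star (p m) ∈ A := fun m => star_mem_adjoin h.selfAdjoint_of_mem (hp m)
  have hcs : CauchySeq fun m => star (p m) Ω := by
    rw [Metric.cauchySeq_iff]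
    intro ε hε
    obtain ⟨N, hN⟩ := Metric.cauchySeq_iff.1 hlim.cauchySeq ε hε
    refine ⟨N, fun i hi j hj => ?_⟩
    rw [dist_eq_norm, ← sub_apply, ← star_sub, h.norm_star_apply (sub_mem (hp i) (hp j)),
      sub_apply, ← dist_eq_norm]
    exact hN i hi j hj
  obtain ⟨z, hz⟩ := cauchySeq_tendsto_of_complete hcs
  suffices hzeq : z = star a Ω by rwa [← hzeq]
  refine ext_inner_left ℂ fun v => ?_
  suffices heq : (fun v => ⟪v, z⟫_ℂ) = fun v => ⟪v, star a Ω⟫_ℂ from congrFun heq v
  refine h.denseRange.equalizer (continuous_id.inner continuous_const)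
    (continuous_id.inner continuous_const) (funext fun P => ?_)
  obtain ⟨R, hR, hRP⟩ := h.exists_right P.2
  have haR : a ((P : H →L[ℂ] H) Ω) = R (a Ω) := by
    have e := congrArg (fun T : H →L[ℂ] H => T Ω) (ha R hR)
    simp only [mul_apply_eq_comp] at e
    rw [e]
    exact congrArg a (hRP 1 (one_mem A)).symm
  show ⟪(P : H →L[ℂ] H) Ω, z⟫_ℂ = ⟪(P : H →L[ℂ] H) Ω, star a Ω⟫_ℂ
  rw [ContinuousLinearMap.star_eq_adjoint, ContinuousLinearMap.adjoint_inner_right, haR]
  refine tendsto_nhds_unique (tendsto_const_nhds.inner hz) ?_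
  refine Tendsto.congr (fun m => ?_) ((R.continuous.tendsto _).comp hlim |>.inner tendsto_const_nhds)
  show ⟪R (p m Ω), Ω⟫_ℂ = ⟪(P : H →L[ℂ] H) Ω, star (p m) Ω⟫_ℂ
  rw [hRP _ (hp m), ContinuousLinearMap.star_eq_adjoint, ContinuousLinearMap.adjoint_inner_right]

/-- The vector state is tracial and faithful on the double commutant. -/
theorem Setting.trace (h : Setting Ω X S) :
    ∀ a ∈ Set.centralizer (Set.centralizer (Set.range X ∪ Set.range S)),
      (∀ b ∈ Set.centralizer (Set.centralizer (Set.range X ∪ Set.range S)),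
        vstate Ω (a * b) = vstate Ω (b * a)) ∧
      (vstate Ω (star a * a) = 0 → a = 0) := by
  intro a ha
  refine ⟨fun b hb => ?_, fun h0 => ?_⟩
  · obtain ⟨p, hp, hp1, hp2⟩ := h.exists_approx ha
    obtain ⟨q, hq, hq1, hq2⟩ := h.exists_approx hb
    have hinner : ∀ (c d : H →L[ℂ] H), vstate Ω (c * d) = ⟪star c Ω, d Ω⟫_ℂ := fun c d => by
      rw [vstate, mul_apply_eq_comp, ContinuousLinearMap.star_eq_adjoint,
        ContinuousLinearMap.adjoint_inner_left]
    rw [hinner, hinner]
    refine tendsto_nhds_unique (hp2.inner hq1) (Tendsto.congr (fun m => ?_) (hq2.inner hp1))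
    rw [← hinner, ← hinner, h.tracial _ (hq m) _ (hp m)]
  · have haΩ : a Ω = 0 := by
      rw [vstate, mul_apply_eq_comp, ContinuousLinearMap.star_eq_adjoint,
        ContinuousLinearMap.adjoint_inner_right, inner_self_eq_zero] at h0
      exact h0
    refine DFunLike.coe_injective (h.denseRange.equalizer a.continuous
      (0 : H →L[ℂ] H).continuous (funext fun P => ?_))
    obtain ⟨R, hR, hRP⟩ := h.exists_right P.2
    have e := congrArg (fun T : H →L[ℂ] H => T Ω) (ha R hR)
    simp only [mul_apply_eq_comp] at e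
    show a ((P : H →L[ℂ] H) Ω) = (0 : H →L[ℂ] H) ((P : H →L[ℂ] H) Ω)
    have hPΩ : R Ω = (P : H →L[ℂ] H) Ω := hRP 1 (one_mem _)
    rw [zero_apply, ← hPΩ, ← e, haΩ, map_zero]

/-- The conjugate variables live in the closure of the orbit of the double commutant. -/
theorem closure_doubleCommutant {m : ℕ} (Ω : H) {Y : Fin m → H →L[ℂ] H}
    (hY : ∀ i, IsSelfAdjoint (Y i)) :
    closure ((fun P : H →L[ℂ] H => P Ω) ''
        (Algebra.adjoin ℂ (Set.range Y) : Set (H →L[ℂ] H))) =
      closure ((fun P : H →L[ℂ] H => P Ω) '' Set.centralizer (Set.centralizer (Set.range Y))) := by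
  refine Set.Subset.antisymm (closure_mono (Set.image_mono ?_))
    (closure_minimal ?_ isClosed_closure)
  · intro P hP
    exact (Algebra.adjoin_le (S := Subalgebra.centralizer ℂ (Set.centralizer (Set.range Y)))
      (fun g hg z hz => (hz g hg).symm)) hP
  · rintro _ ⟨a, ha, rfl⟩
    exact mem_closure_of_doubleCommutant (by rintro _ ⟨i, rfl⟩; exact hY i) Ω ha

end

end Vale.Agent.P087
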