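import Vale.Agent.P087.Defs

/-!
# P087: the von Neumann algebra of a tuple
-/

namespace Vale.Agent.P087

noncomputable section

variable {H : Type} [NormedAddCommGroup H] [InnerProductSpace ℂ H] [CompleteSpace H]

/-- `W*(s)`: the double commutant. -/
def wStar (s : Set (H →L[ℂ] H)) : Set (H →L[ℂ] H) := Set.centralizer (Set.centralizer s)

/-- The vector state of `Ω` is tracial and faithful on `M`. -/
def FaithfulTraceOn (Ω : H) (M : Set (H →L[ℂ] H)) : Prop :=
  ∀ a ∈ M, (∀ b ∈ M, vstate Ω (a * b) = vstate Ω (b * a)) ∧ (vstate Ω (star a * a) = 0 → a = 0)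

/-- Polynomials in `Y` and `W*(Y)` move `Ω` through sets with the same closure. -/
def SameOrbitClosure {n : ℕ} (Ω : H) (Y : Fin n → H →L[ℂ] H) : Prop :=
  closure ((fun P : H →L[ℂ] H => P Ω) '' (Algebra.adjoin ℂ (Set.range Y) : Set (H →L[ℂ] H))) =
    closure ((fun P : H →L[ℂ] H => P Ω) '' wStar (Set.range Y))

end

end Vale.Agent.P087
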